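import Vale.Agent.P011.H961.Resid
import Vale.Agent.P011.H268.Csa
import Vale.Agent.P011.H271.KSF

/-!
# A central simple algebra splits at almost all places
-/

open Module TensorProduct

set_option linter.unusedSectionVars false

namespace Vale.Agent.P011.H961

open Vale.Agent.P011.H738 Vale.Agent.P011.H271

/-- The splitting from a basis with good structure constants. -/
theorem split_of_basis {L R ι : Type*} [NontriviallyNormedField L] [ProperSpace L]
    [IsUltrametricDist L] [Ring R] [Algebra L R] [IsSimpleRing R] [Fintype ι] [DecidableEq ι]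
    (b : Basis ι L R) {n : ℕ} (hn : n ≠ 0) (hcard : Fintype.card ι = n ^ 2)
    (h1 : ∀ l, ‖b.repr 1 l‖ ≤ 1) (hm : ∀ i j l, ‖b.repr (b i * b j) l‖ ≤ 1)
    (hT : ∀ i j, ∃ (m : ℕ) (x y : Fin m → R), (∀ t l, ‖b.repr (x t) l‖ ≤ 1) ∧
      (∀ t l, ‖b.repr (y t) l‖ ≤ 1) ∧
      ∀ l, ∑ t, x t * b l * y t = if l = j then b i else 0) :
    Nonempty (R →ₐ[L] Matrix (Fin n) (Fin n) L) := by
  classical
  let nag : NormedAddCommGroup R :=
    NormedAddCommGroup.induced R (ι → L) b.equivFun b.equivFun.injective
  have hnorm : ∀ x : R, ‖x‖ = ‖b.equivFun x‖ := fun _ => rfl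
  have hle : ∀ (x : R) (c : ℝ), 0 ≤ c → (∀ l, ‖b.repr x l‖ ≤ c) → ‖x‖ ≤ c := by
    intro x c hc h
    rw [hnorm, pi_norm_le_iff_of_nonneg hc]
    exact h
  have hcoord : ∀ (x : R) (l : ι), ‖b.repr x l‖ ≤ ‖x‖ := fun x l => by
    rw [hnorm]
    exact norm_le_pi_norm (b.equivFun x) l
  have hmul : ∀ x y : R, ‖x * y‖ ≤ ‖x‖ * ‖y‖ := by
    intro x y
    refine hle _ _ (mul_nonneg (norm_nonneg _) (norm_nonneg _)) fun l => ?_
    have e : x * y = ∑ i, ∑ j, (b.repr x i * b.repr y j) • (b i * b j) := by
      conv_lhs => rw [← b.sum_repr x, ← b.sum_repr y]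
      rw [Finset.sum_mul_sum]
      exact Finset.sum_congr rfl fun i _ => Finset.sum_congr rfl fun j _ => by
        rw [smul_mul_smul_comm]
    rw [e, map_sum, Finsupp.finsetSum_apply]
    refine IsUltrametricDist.norm_sum_le_of_forall_le_of_nonneg
      (mul_nonneg (norm_nonneg _) (norm_nonneg _)) fun i _ => ?_
    rw [map_sum, Finsupp.finsetSum_apply]
    refine IsUltrametricDist.norm_sum_le_of_forall_le_of_nonneg
      (mul_nonneg (norm_nonneg _) (norm_nonneg _)) fun j _ => ?_
    rw [map_smul, Finsupp.smul_apply, smul_eq_mul, norm_mul, norm_mul]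
    calc ‖b.repr x i‖ * ‖b.repr y j‖ * ‖b.repr (b i * b j) l‖ ≤ (‖x‖ * ‖y‖) * 1 :=
          mul_le_mul (mul_le_mul (hcoord x i) (hcoord y j) (norm_nonneg _) (norm_nonneg _))
            (hm i j l) (norm_nonneg _) (mul_nonneg (norm_nonneg _) (norm_nonneg _))
      _ = ‖x‖ * ‖y‖ := mul_one _
  let nr : NormedRing R :=
    { nag, (inferInstance : Ring R) with
      dist_eq := nag.dist_eq
      norm_mul_le := hmul }
  have hult : IsUltrametricDist R := by
    refine IsUltrametricDist.isUltrametricDist_of_forall_norm_add_le_max_norm fun x y => ?_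
    rw [hnorm, hnorm, hnorm, map_add]
    exact IsUltrametricDist.norm_add_le_max _ _
  have hcompl : CompleteSpace R := by
    have hiso : Isometry (b.equivFun : R → ι → L) := by
      refine Isometry.of_dist_eq fun x y => ?_
      rw [dist_eq_norm, dist_eq_norm, ← map_sub]
      rfl
    exact (IsometryEquiv.mk b.equivFun.toEquiv hiso).completeSpace
  refine split_of_norm b hnorm hn hcard (hle _ _ zero_le_one h1) fun i j => ?_
  obtain ⟨m, x, y, hx, hy, h⟩ := hT i j
  exact ⟨m, x, y, fun t => hle _ _ zero_le_one (hx t), fun t => hle _ _ zero_le_one (hy t), h⟩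

variable {k K A : Type} [Field k] [GFF k] [Field K] [StarRing K] [Ring A] [Algebra k K]
  [Algebra K A] [IsSimpleRing A] [Algebra.IsCentral K A]

/-- The images of finitely many elements of `K` are integral outside a finite set of places. -/
theorem exists_int (hfix : ∀ x : K, star x = x ↔ x ∈ Set.range (algebraMap k K)) (Z : Finset K) :
    ∃ T : Finset (Place k), ∀ v ∉ T, ∀ (L : Type) [NontriviallyNormedField L]
      [IsUltrametricDist L] (φ : K →+* L), (∀ c : k, ‖φ (algebraMap k K c)‖ = v.abv c) →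
      ∀ z ∈ Z, ‖φ z‖ ≤ 1 := by
  classical
  have htr : ∀ z : K, ∃ c : k, algebraMap k K c = z + star z := fun z =>
    (hfix _).mp (by rw [star_add, star_star, add_comm])
  have hnm : ∀ z : K, ∃ c : k, algebraMap k K c = z * star z := fun z =>
    (hfix _).mp (by rw [star_mul, star_star])
  choose tr htr using htr
  choose nm hnm using hnm
  have hfin : ∀ c : k, {v : Place k | 1 < v.abv c}.Finite := by
    intro c
    by_cases hc : c = 0
    · subst hc
      refine Set.Finite.subset Set.finite_empty fun v hv => ?_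
      rw [Set.mem_ofPred_eq, map_zero] at hv
      exact absurd hv (not_lt.mpr zero_le_one)
    · exact (place_finite hc).subset fun v hv => (ne_of_gt hv)
  refine ⟨Z.biUnion fun z => (hfin (tr z)).toFinset ∪ (hfin (nm z)).toFinset,
    fun v hv L _ _ φ hφ z hz => ?_⟩
  have h1 : v.abv (tr z) ≤ 1 := by
    by_contra hcon
    exact hv (Finset.mem_biUnion.mpr ⟨z, hz, Finset.mem_union_left _
      ((hfin _).mem_toFinset.mpr (not_le.mp hcon))⟩)
  have h2 : v.abv (nm z) ≤ 1 := by
    by_contra hcon
    exact hv (Finset.mem_biUnion.mpr ⟨z, hz, Finset.mem_union_right _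
      ((hfin _).mem_toFinset.mpr (not_le.mp hcon))⟩)
  rw [← hφ, htr] at h1
  rw [← hφ, hnm] at h2
  by_contra hcon
  rw [not_le] at hcon
  have h3 : φ z * φ z = φ (z + star z) * φ z - φ (z * star z) := by
    rw [← map_mul, ← map_mul, ← map_sub]
    congr 1
    ring
  have h4 : ‖φ z * φ z‖ ≤ ‖φ z‖ := by
    rw [h3]
    refine norm_sub_le_max' _ _ ?_ (h2.trans hcon.le)
    rw [norm_mul]
    exact mul_le_of_le_one_left (norm_nonneg _) h1
  rw [norm_mul] at h4
  nlinarith

/-- **A central simple algebra splits at almost all places.** -/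
theorem exists_split_ae (hfix : ∀ x : K, star x = x ↔ x ∈ Set.range (algebraMap k K)) {n : ℕ}
    (hn : n ≠ 0) (hfinrank : finrank K A = n ^ 2) :
    ∃ T : Finset (Place k), ∀ v ∉ T, ∀ (L : Type) [NontriviallyNormedField L] [ProperSpace L]
      [IsUltrametricDist L] (φ : K →+* L), (∀ c : k, ‖φ (algebraMap k K c)‖ = v.abv c) →
      ∃ g : A →+* Matrix (Fin n) (Fin n) L,
        ∀ c : K, g (algebraMap K A c) = algebraMap L _ (φ c) := by
  classical
  have hfd : FiniteDimensional K A := Module.finite_of_finrank_pos (by rw [hfinrank]; positivity)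
  let b : Basis (Fin (finrank K A)) K A := Module.finBasis K A
  have hbi : ∀ i j : Fin (finrank K A), ∃ (m : ℕ) (x y : Fin m → A),
      ∀ l, ∑ t, x t * b l * y t = if l = j then b i else 0 := by
    intro i j
    obtain ⟨m, x, y, h⟩ := H973.exists_bimul ((b.coord j).smulRight (b i))
      (Finset.univ.image b)
    refine ⟨m, x, y, fun l => ?_⟩
    rw [← h (b l) (Finset.mem_image_of_mem _ (Finset.mem_univ l)), LinearMap.smulRight_apply,
      Basis.coord_apply, b.repr_self, Finsupp.single_apply]
    split_ifs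
    · rw [one_smul]
    · rw [zero_smul]
  choose m x y hxy using hbi
  let Z : Finset K := (Finset.univ.image fun l => b.repr 1 l) ∪
    (Finset.univ.image fun p : Fin (finrank K A) × Fin (finrank K A) × Fin (finrank K A) =>
      b.repr (b p.1 * b p.2.1) p.2.2) ∪
    (Finset.univ.biUnion fun i => Finset.univ.biUnion fun j => Finset.univ.image
      fun p : Fin (m i j) × Fin (finrank K A) => b.repr (x i j p.1) p.2) ∪
    (Finset.univ.biUnion fun i => Finset.univ.biUnion fun j => Finset.univ.image
      fun p : Fin (m i j) × Fin (finrank K A) => b.repr (y i j p.1) p.2)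
  obtain ⟨T, hT⟩ := exists_int hfix Z
  refine ⟨T, fun v hv L _ _ _ φ hφ => ?_⟩
  have hint := hT v hv L φ hφ
  let _ : Algebra K L := φ.toAlgebra
  have hsim : IsSimpleRing (L ⊗[K] A) := H268.isSimpleRing_baseChange
  let b' : Basis (Fin (finrank K A)) L (L ⊗[K] A) := Algebra.TensorProduct.basis L b
  have hb' : ∀ i, b' i = 1 ⊗ₜ[K] b i := fun i => Algebra.TensorProduct.basis_apply b i
  have hrep : ∀ (z : A) (l : Fin (finrank K A)), b'.repr (1 ⊗ₜ[K] z) l = φ (b.repr z l) := by
    intro z l
    rw [Algebra.TensorProduct.basis_repr_tmul]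
    simp only [one_smul, Finsupp.mapRange_apply]
    rfl
  obtain ⟨g⟩ := split_of_basis b' hn (by rw [Fintype.card_fin, hfinrank]) (fun l => by
      rw [Algebra.TensorProduct.one_def, hrep]
      refine hint _ ?_
      simp only [Z, Finset.mem_union]
      exact Or.inl (Or.inl (Or.inl (Finset.mem_image_of_mem _ (Finset.mem_univ l)))))
    (fun i j l => by
      rw [hb', hb', Algebra.TensorProduct.tmul_mul_tmul, one_mul, hrep]
      refine hint _ ?_
      simp only [Z, Finset.mem_union]
      exact Or.inl (Or.inl (Or.inr (Finset.mem_image.mpr ⟨(i, j, l), Finset.mem_univ _, rfl⟩))))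
    (fun i j => by
      refine ⟨m i j, fun t => 1 ⊗ₜ[K] x i j t, fun t => 1 ⊗ₜ[K] y i j t, fun t l => ?_,
        fun t l => ?_, fun l => ?_⟩
      · rw [hrep]
        refine hint _ ?_
        simp only [Z, Finset.mem_union]
        refine Or.inl (Or.inr ?_)
        rw [Finset.mem_biUnion]
        refine ⟨i, Finset.mem_univ i, ?_⟩
        rw [Finset.mem_biUnion]
        exact ⟨j, Finset.mem_univ j, Finset.mem_image.mpr ⟨(t, l), Finset.mem_univ _, rfl⟩⟩
      · rw [hrep]
        refine hint _ ?_
        simp only [Z, Finset.mem_union]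
        refine Or.inr ?_
        rw [Finset.mem_biUnion]
        refine ⟨i, Finset.mem_univ i, ?_⟩
        rw [Finset.mem_biUnion]
        exact ⟨j, Finset.mem_univ j, Finset.mem_image.mpr ⟨(t, l), Finset.mem_univ _, rfl⟩⟩
      · simp only [hb', Algebra.TensorProduct.tmul_mul_tmul, one_mul]
        rw [← TensorProduct.tmul_sum, hxy]
        split_ifs
        · rfl
        · exact TensorProduct.tmul_zero _ _)
  refine ⟨(g : L ⊗[K] A →+* _).comp
    ((Algebra.TensorProduct.includeRight : A →ₐ[K] L ⊗[K] A) : A →+* L ⊗[K] A), fun c => ?_⟩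
  have h1 : (1 : L) ⊗ₜ[K] (algebraMap K A c) = algebraMap L (L ⊗[K] A) (φ c) := by
    rw [Algebra.TensorProduct.algebraMap_apply, Algebra.algebraMap_eq_smul_one,
      ← TensorProduct.smul_tmul, Algebra.smul_def, mul_one]
    rfl
  change g ((1 : L) ⊗ₜ[K] (algebraMap K A c)) = _
  rw [h1, AlgHom.commutes]

end Vale.Agent.P011.H961
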