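import Vale.Agent.P011.H63.FBase
import Vale.Agent.P011.H308.PlExt

/-!
# Places of an extension defined by the roots of a polynomial near a product of linear factors

If the minimal polynomial of `θ` is close at `v` to a product of distinct linear factors, then `v`
is totally split in the extension, and at one place the value of `θ⁻¹ + 4⁻¹` is close to a given
value.
-/

open Module Polynomial

set_option linter.unusedSectionVars false
set_option linter.style.haveILetI false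

namespace Vale.Agent.P011.H961

open Vale.Agent.P011.H738 Vale.Agent.P011.H271 Vale.Agent.P011.H271.S3 Vale.Agent.P011.H63.FB

section root

variable {L : Type*} [NormedField L] [IsUltrametricDist L]

/-- **Hensel's lemma**, in terms of the Taylor coefficients. -/
theorem root_of_taylor [CompleteSpace L] (P : L[X]) (r c : L) (hc : c ≠ 0)
    (h1 : (taylor r P).coeff 1 ≠ 0)
    (hk : ∀ k, 2 ≤ k → ‖(taylor r P).coeff k‖ * ‖c‖ ^ (k - 1) ≤ ‖(taylor r P).coeff 1‖)
    (h0 : ‖(taylor r P).coeff 0‖ < ‖(taylor r P).coeff 1‖ * ‖c‖) :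
    ∃ ρ : L, P.eval ρ = 0 ∧ ‖ρ - r‖ < ‖c‖ := by
  obtain ⟨G, hG⟩ : ∃ G, G = taylor r P := ⟨_, rfl⟩
  rw [← hG] at h1 hk h0
  have hc0 : 0 < ‖c‖ := norm_pos_iff.mpr hc
  have ha0 : 0 < ‖G.coeff 1‖ := norm_pos_iff.mpr h1
  obtain ⟨H, hH⟩ : ∃ H : L[X], H = C (G.coeff 1 * c)⁻¹ * G.comp (C c * X) := ⟨_, rfl⟩
  have hco : ∀ k, H.coeff k = (G.coeff 1 * c)⁻¹ * (G.coeff k * c ^ k) := by
    intro k
    rw [hH, coeff_C_mul, comp_C_mul_X_coeff]
  have hint : ∀ k, H.coeff k ∈ Hey.H63.OK L := by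
    intro k
    rw [Hey.H63.mem_OK, hco, norm_mul, norm_inv, norm_mul, norm_mul, norm_pow,
      inv_mul_le_iff₀ (by positivity), mul_one]
    rcases k with _ | _ | k
    · rw [pow_zero, mul_one]
      exact h0.le
    · rw [zero_add, pow_one]
    · have h2 := hk (k + 2) (by omega)
      have e : k + 2 - 1 = k + 1 := by omega
      rw [e] at h2
      calc ‖G.coeff (k + 1 + 1)‖ * ‖c‖ ^ (k + 1 + 1) =
            ‖G.coeff (k + 2)‖ * ‖c‖ ^ (k + 1) * ‖c‖ := by ring
        _ ≤ ‖G.coeff 1‖ * ‖c‖ := mul_le_mul_of_nonneg_right h2 hc0.le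
  have hcs : (↑H.coeffs : Set L) ⊆ (Hey.H63.OK L : Set L) := by
    intro x hx
    obtain ⟨k, -, rfl⟩ := Polynomial.mem_coeffs_iff.mp (Finset.mem_coe.mp hx)
    exact hint k
  obtain ⟨z, hz, hev⟩ := Hey.H63.hensel (H.toSubring _ hcs) (by
      rw [Polynomial.coeff_toSubring, hco, pow_zero, mul_one, norm_mul, norm_inv, norm_mul,
        inv_mul_lt_iff₀ (by positivity), mul_one]
      exact h0) (by
      rw [Polynomial.coeff_toSubring, hco, pow_one, inv_mul_cancel₀ (mul_ne_zero h1 hc),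
        norm_one])
  have h3 : H.eval (z : L) = 0 := by
    have h4 : H = (H.toSubring _ hcs).map (Hey.H63.OK L).subtype :=
      (Polynomial.map_toSubring H (Hey.H63.OK L) hcs).symm
    rw [h4]
    have h5 := congrArg (Hey.H63.OK L).subtype hev
    rw [map_zero, ← Polynomial.eval_map_apply] at h5
    exact h5
  refine ⟨c * z + r, ?_, ?_⟩
  · rw [hH, eval_mul, eval_C, eval_comp, eval_mul, eval_C, eval_X] at h3
    have h4 := (mul_eq_zero.mp h3).resolve_left (inv_ne_zero (mul_ne_zero h1 hc))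
    rwa [hG, taylor_eval] at h4
  · rw [add_sub_cancel_right, norm_mul]
    calc ‖c‖ * ‖(z : L)‖ < ‖c‖ * 1 := mul_lt_mul_of_pos_left hz hc0
      _ = ‖c‖ := mul_one _

/-- The Taylor coefficients of a polynomial with small coefficients. -/
theorem taylor_small {n : ℕ} (R : L[X]) (hR : R.natDegree ≤ n) {ε : ℝ} (hε : 0 ≤ ε)
    (h : ∀ j, ‖R.coeff j‖ ≤ ε) (r : L) (k : ℕ) :
    ‖(taylor r R).coeff k‖ ≤ ε * max 1 ‖r‖ ^ n := by
  rw [taylor_coeff, eval_eq_sum_range' (n := n + 1) (lt_of_le_of_lt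
    (natDegree_hasseDeriv_le R k) (by omega))]
  refine IsUltrametricDist.norm_sum_le_of_forall_le_of_nonneg (by positivity) fun j hj => ?_
  rw [hasseDeriv_coeff, norm_mul, norm_mul, norm_pow]
  have h1 : ‖((j + k).choose k : L)‖ ≤ 1 := IsUltrametricDist.norm_natCast_le_one L _
  have h2 : ‖r‖ ^ j ≤ max 1 ‖r‖ ^ n := by
    calc ‖r‖ ^ j ≤ max 1 ‖r‖ ^ j := pow_le_pow_left₀ (norm_nonneg _) (le_max_right _ _) j
      _ ≤ max 1 ‖r‖ ^ n := pow_le_pow_right₀ (le_max_left _ _)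
        (Nat.lt_succ_iff.mp (Finset.mem_range.mp hj))
  calc _ ≤ 1 * ε * max 1 ‖r‖ ^ n := by
        refine mul_le_mul (mul_le_mul h1 (h _) (norm_nonneg _) zero_le_one) h2 (by positivity)
          (by positivity)
    _ = _ := by rw [one_mul]

/-- **The roots of a polynomial depend continuously on the coefficients.** -/
theorem exists_root_near [CompleteSpace L] (hL : ∀ δ : ℝ, 0 < δ → ∃ c : L, c ≠ 0 ∧ ‖c‖ < δ)
    {n : ℕ} (r : Fin n → L) (hr : Function.Injective r) (i : Fin n) {δ : ℝ} (hδ : 0 < δ) :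
    ∃ ε : ℝ, 0 < ε ∧ ∀ P : L[X], P.natDegree ≤ n →
      (∀ j, ‖(P - ∏ i, (X - C (r i))).coeff j‖ < ε) → ∃ ρ : L, P.eval ρ = 0 ∧ ‖ρ - r i‖ < δ := by
  classical
  obtain ⟨Q, hQ⟩ : ∃ Q : L[X], Q = ∏ i, (X - C (r i)) := ⟨_, rfl⟩
  have hQd : Q.natDegree ≤ n := by
    rw [hQ, natDegree_prod_of_monic _ _ fun i _ => monic_X_sub_C (r i)]
    simp
  have hQ0 : (taylor (r i) Q).coeff 0 = 0 := by
    rw [taylor_coeff_zero, hQ, eval_prod]
    exact Finset.prod_eq_zero (Finset.mem_univ i) (by simp)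
  have hQ1 : (taylor (r i) Q).coeff 1 ≠ 0 := by
    rw [taylor_coeff_one, hQ, derivative_prod_finset, eval_finsetSum, Finset.sum_eq_single i]
    · rw [eval_mul, derivative_X_sub_C, eval_one, mul_one, eval_prod]
      refine Finset.prod_ne_zero_iff.mpr fun j hj => ?_
      rw [eval_sub, eval_X, eval_C]
      exact sub_ne_zero.mpr fun h => (Finset.ne_of_mem_erase hj) (hr h).symm
    · intro j _ hj
      rw [eval_mul, eval_prod, Finset.prod_eq_zero (Finset.mem_erase.mpr ⟨hj.symm,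
        Finset.mem_univ i⟩) (by simp), zero_mul]
    · intro h
      exact absurd (Finset.mem_univ i) h
  obtain ⟨R, hR⟩ : ∃ R : ℝ, R = 1 + ∑ k ∈ Finset.range (n + 1), ‖(taylor (r i) Q).coeff k‖ :=
    ⟨_, rfl⟩
  have hR1 : 1 ≤ R := by
    rw [hR]
    have : 0 ≤ ∑ k ∈ Finset.range (n + 1), ‖(taylor (r i) Q).coeff k‖ :=
      Finset.sum_nonneg fun _ _ => norm_nonneg _
    linarith
  have hRk : ∀ k, ‖(taylor (r i) Q).coeff k‖ ≤ R := by
    intro k
    by_cases hk : k < n + 1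
    · have h1 := Finset.single_le_sum (f := fun k => ‖(taylor (r i) Q).coeff k‖)
        (fun _ _ => norm_nonneg _) (Finset.mem_range.mpr hk)
      rw [hR]
      linarith
    · rw [coeff_eq_zero_of_natDegree_lt, norm_zero]
      · linarith
      · rw [natDegree_taylor]
        omega
  obtain ⟨s, hs⟩ : ∃ s, s = ‖(taylor (r i) Q).coeff 1‖ := ⟨_, rfl⟩
  have hs0 : 0 < s := by rw [hs]; exact norm_pos_iff.mpr hQ1
  obtain ⟨c, hc, hcn⟩ := hL (min 1 (min δ (s / R))) (by positivity)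
  have hc0 : 0 < ‖c‖ := norm_pos_iff.mpr hc
  have hc1 : ‖c‖ < 1 := hcn.trans_le (min_le_left _ _)
  have hcδ : ‖c‖ < δ := hcn.trans_le ((min_le_right _ _).trans (min_le_left _ _))
  have hcs : ‖c‖ < s / R := hcn.trans_le ((min_le_right _ _).trans (min_le_right _ _))
  obtain ⟨M, hM⟩ : ∃ M : ℝ, M = max 1 ‖r i‖ ^ n := ⟨_, rfl⟩
  have hM0 : 0 < M := by
    rw [hM]
    exact pow_pos (lt_max_of_lt_left one_pos) n
  have hsR : s ≤ R := by rw [hs]; exact hRk 1
  refine ⟨s * ‖c‖ / (2 * M), by positivity, fun P hP hPQ => ?_⟩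
  rw [← hQ] at hPQ
  have hε0 : 0 ≤ s * ‖c‖ / (2 * M) := by positivity
  have hsm : ∀ k, ‖(taylor (r i) P).coeff k - (taylor (r i) Q).coeff k‖ ≤ s * ‖c‖ / 2 := by
    intro k
    have h1 := taylor_small (n := n) (P - Q) ((natDegree_sub_le _ _).trans (max_le hP hQd)) hε0
      (fun j => (hPQ j).le) (r i) k
    rw [map_sub, coeff_sub, ← hM] at h1
    refine h1.trans (le_of_eq ?_)
    field_simp
  have hlt : s * ‖c‖ / 2 < s := by nlinarith
  have hlt2 : s * ‖c‖ / 2 < s * ‖c‖ := by nlinarith [mul_pos hs0 hc0]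
  have hP1 : ‖(taylor (r i) P).coeff 1‖ = s := by
    have h1 : ‖(taylor (r i) P).coeff 1 - (taylor (r i) Q).coeff 1‖ <
        ‖(taylor (r i) Q).coeff 1‖ := by
      rw [← hs]
      exact (hsm 1).trans_lt hlt
    have h2 := IsUltrametricDist.norm_add_eq_max_of_norm_ne_norm h1.ne
    rw [sub_add_cancel, max_eq_right h1.le, ← hs] at h2
    exact h2
  obtain ⟨ρ, h1, h2⟩ := root_of_taylor P (r i) c hc (by
      rw [← norm_ne_zero_iff, hP1]
      exact hs0.ne') (fun k hk => by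
      rw [hP1]
      have h1 : ‖(taylor (r i) P).coeff k‖ ≤ R := by
        have e : (taylor (r i) P).coeff k = ((taylor (r i) P).coeff k -
          (taylor (r i) Q).coeff k) + (taylor (r i) Q).coeff k := by ring
        rw [e]
        refine (IsUltrametricDist.norm_add_le_max _ _).trans (max_le ?_ (hRk k))
        exact (hsm k).trans (hlt.le.trans hsR)
      have h2 : ‖c‖ ^ (k - 1) ≤ ‖c‖ := by
        calc ‖c‖ ^ (k - 1) ≤ ‖c‖ ^ 1 := pow_le_pow_of_le_one hc0.le hc1.le (by omega)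
          _ = ‖c‖ := pow_one _
      have h3 : R * ‖c‖ ≤ s := by
        rw [lt_div_iff₀ (by linarith)] at hcs
        linarith
      exact (mul_le_mul h1 h2 (by positivity) (by linarith)).trans h3) (by
      rw [hP1]
      have h3 := hsm 0
      rw [hQ0, sub_zero] at h3
      exact h3.trans_lt hlt2)
  exact ⟨ρ, h1, h2.trans hcδ⟩

end root

section place

open Vale.Agent.P011.H308 (plExt plExt_abv extE extE_algebraMap)

variable {F E : Type} [Field F] [Field E] [Algebra F E] (v : Place F)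

/-- The embedding of a field generated by `θ` defined by a root of the minimal polynomial. -/
theorem exists_embedding [FiniteDimensional F E] {θ : E}
    (hθ : (minpoly F θ).natDegree = finrank F E) {ρ : v.comp}
    (hρ : ((minpoly F θ).map (algebraMap F v.comp)).eval ρ = 0) :
    ∃ φ : E →ₐ[F] v.comp, φ θ = ρ := by
  have hint : IsIntegral F θ := Algebra.IsIntegral.isIntegral θ
  have h0 : minpoly F θ ≠ 0 := minpoly.ne_zero hint
  have hirr : Irreducible (minpoly F θ) := minpoly.irreducible hint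
  have hfact : Fact (Irreducible (minpoly F θ)) := ⟨hirr⟩
  let e0 : AdjoinRoot (minpoly F θ) →ₐ[F] E :=
    AdjoinRoot.liftAlgHom (minpoly F θ) (Algebra.ofId F E) θ (minpoly.aeval F θ)
  have hfr : finrank F (AdjoinRoot (minpoly F θ)) = finrank F E := by
    rw [← hθ]
    exact (AdjoinRoot.powerBasis h0).finrank
  have _ : FiniteDimensional F (AdjoinRoot (minpoly F θ)) := (AdjoinRoot.powerBasis h0).finite
  have hinj : Function.Injective e0 := e0.toRingHom.injective
  have hsurj : Function.Surjective e0 :=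
    (LinearMap.injective_iff_surjective_of_finrank_eq_finrank (f := e0.toLinearMap) hfr).mp hinj
  let e : AdjoinRoot (minpoly F θ) ≃ₐ[F] E := AlgEquiv.ofBijective e0 ⟨hinj, hsurj⟩
  let φ0 : AdjoinRoot (minpoly F θ) →ₐ[F] v.comp :=
    AdjoinRoot.liftAlgHom (minpoly F θ) (Algebra.ofId F v.comp) ρ (by
      rw [Polynomial.eval_map] at hρ
      exact hρ)
  refine ⟨φ0.comp e.symm.toAlgHom, ?_⟩
  have h1 : e0 (AdjoinRoot.root (minpoly F θ)) = θ :=
    AdjoinRoot.liftAlgHom_root (minpoly F θ) (Algebra.ofId F E) θ (minpoly.aeval F θ)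
  have h2 : e.symm θ = AdjoinRoot.root (minpoly F θ) := by
    rw [AlgEquiv.symm_apply_eq]
    exact h1.symm
  change φ0 (e.symm θ) = ρ
  rw [h2]
  exact AdjoinRoot.liftAlgHom_root (minpoly F θ) (Algebra.ofId F v.comp) ρ _

theorem ab_plExt (φ : E →ₐ[F] v.comp) : Ab (plExt v φ) v := by
  refine ⟨1, one_pos, fun x => ?_⟩
  rw [plExt_abv, φ.commutes, norm_alg, Real.rpow_one]

theorem plExt_injective {θ : E} {φ ψ : E →ₐ[F] v.comp} (h : plExt v φ = plExt v ψ) :
    φ θ = ψ θ := by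
  by_contra hne
  have hpos : 0 < ‖φ θ - ψ θ‖ := norm_pos_iff.mpr (sub_ne_zero.mpr hne)
  obtain ⟨a, ha⟩ := dense_alg v (φ θ) hpos
  have h1 : (plExt v φ).abv (θ - algebraMap F E a) = (plExt v ψ).abv (θ - algebraMap F E a) := by
    rw [h]
  rw [plExt_abv, plExt_abv, map_sub, map_sub, φ.commutes, ψ.commutes] at h1
  rw [h1] at ha
  have h2 : ‖φ θ - ψ θ‖ ≤ max ‖φ θ - algebraMap F v.comp a‖ ‖ψ θ - algebraMap F v.comp a‖ := by
    have e : φ θ - ψ θ = (φ θ - algebraMap F v.comp a) + -(ψ θ - algebraMap F v.comp a) := by ring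
    rw [e]
    refine (IsUltrametricDist.norm_add_le_max _ _).trans ?_
    rw [norm_neg]
  rw [h1, max_self] at h2
  exact absurd ha (not_lt.mpr h2)

end place

section main

open Vale.Agent.P011.H308 (plExt plExt_abv extE extE_algebraMap)

variable {F : Type} [Field F] [GFF F]

/-- **A place at which `θ⁻¹ + 4⁻¹` is not a square.** -/
theorem exists_place_nonsquareF (h2 : (2 : F) ≠ 0) (v : Place F) {n : ℕ} (r : Fin n → Fˣ)
    (hr : Function.Injective r) (i0 : Fin n)
    (hns : ¬ IsSquare (algebraMap F v.comp ((r i0 : F)⁻¹ + 4⁻¹))) :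
    ∃ ε : ℝ, 0 < ε ∧ ∀ (E : Type) [Field E] [GFF E] [Algebra F E] (θ : E), finrank F E = n →
      (minpoly F θ).natDegree = n →
      (∀ j, v.abv ((minpoly F θ - ∏ i, (X - C (r i : F))).coeff j) < ε) →
      TotSplitF E v ∧ ∃ w : Place E, Ab w v ∧ ∀ c : Eˣ, (c : E) = θ⁻¹ + 4⁻¹ → c ∉ LSF w := by
  classical
  have hn0 : 0 < n := Fin.pos i0
  have hL : ∀ δ : ℝ, 0 < δ → ∃ c : v.comp, c ≠ 0 ∧ ‖c‖ < δ := by
    intro δ hδ
    obtain ⟨x, hx⟩ := v.normalized.2.1
    have hx' : v.abv x = qq v := hx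
    have hq : (1 : ℝ) < qq v := by exact_mod_cast one_lt_qq v
    obtain ⟨m, hm⟩ := exists_pow_lt_of_lt_one hδ (show (qq v : ℝ)⁻¹ < 1 from
      inv_lt_one_of_one_lt₀ hq)
    have hx0 : x ≠ 0 := by
      rintro rfl
      rw [map_zero] at hx'
      linarith
    refine ⟨algebraMap F v.comp (x⁻¹ ^ m), (_root_.map_ne_zero _).mpr
      (pow_ne_zero _ (inv_ne_zero hx0)), ?_⟩
    rw [norm_alg, map_pow, map_inv₀, hx']
    exact hm
  obtain ⟨rr, hrr⟩ : ∃ rr : Fin n → v.comp, rr = fun i => algebraMap F v.comp (r i : F) :=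
    ⟨_, rfl⟩
  have hrri : Function.Injective rr := by
    intro i j hij
    rw [hrr] at hij
    exact hr (Units.ext ((algebraMap F v.comp).injective hij))
  have hr0 : rr i0 ≠ 0 := by
    rw [hrr]
    exact (_root_.map_ne_zero _).mpr (r i0).ne_zero
  obtain ⟨y, hy⟩ : ∃ y : v.comp, y = algebraMap F v.comp ((r i0 : F)⁻¹ + 4⁻¹) := ⟨_, rfl⟩
  rw [← hy] at hns
  have hy0 : y ≠ 0 := by
    rintro rfl
    exact hns IsSquare.zero
  -- the distances of the roots
  obtain ⟨δ0, hδ0, hδr⟩ : ∃ δ0 : ℝ, 0 < δ0 ∧ ∀ i j, i ≠ j → δ0 ≤ ‖rr i - rr j‖ := by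
    have _ : Nonempty (Fin n × Fin n) := ⟨(i0, i0)⟩
    obtain ⟨p, hp⟩ := Finite.exists_min fun p : Fin n × Fin n =>
      if p.1 = p.2 then (1 : ℝ) else ‖rr p.1 - rr p.2‖
    refine ⟨if p.1 = p.2 then (1 : ℝ) else ‖rr p.1 - rr p.2‖, ?_, fun i j hij => ?_⟩
    · split_ifs with h
      · exact one_pos
      · exact norm_pos_iff.mpr (sub_ne_zero.mpr fun h1 => h (hrri h1))
    · have h1 := hp (i, j)
      rwa [if_neg hij] at h1
  have hp1 : 0 < ‖rr i0‖ := norm_pos_iff.mpr hr0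
  have hp2 : 0 < ‖y‖ := norm_pos_iff.mpr hy0
  obtain ⟨δ, hδ⟩ : ∃ δ, δ = min δ0 (min ‖rr i0‖ (‖y‖ * ‖rr i0‖ ^ 2)) := ⟨_, rfl⟩
  have hδ1 : 0 < δ := by
    rw [hδ]
    positivity
  choose ε hε hroot using fun i => exists_root_near hL rr hrri i hδ1
  obtain ⟨ε0, hε0, hεi⟩ : ∃ ε0 : ℝ, 0 < ε0 ∧ ∀ i, ε0 ≤ ε i := by
    have _ : Nonempty (Fin n) := ⟨i0⟩
    obtain ⟨i1, hi1⟩ := Finite.exists_min ε
    exact ⟨ε i1, hε i1, hi1⟩
  refine ⟨ε0, hε0, ?_⟩
  intro E _ _ _ θ hE hdeg hnear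
  have hfin : FiniteDimensional F E := FiniteDimensional.of_finrank_pos (by omega)
  -- the roots
  have hnear' : ∀ i, ∃ ρ : v.comp, ((minpoly F θ).map (algebraMap F v.comp)).eval ρ = 0 ∧
      ‖ρ - rr i‖ < δ := by
    intro i
    refine hroot i _ ?_ fun j => ?_
    · rw [natDegree_map, hdeg]
    · have e : (minpoly F θ).map (algebraMap F v.comp) - ∏ i, (X - C (rr i)) =
          (minpoly F θ - ∏ i, (X - C (r i : F))).map (algebraMap F v.comp) := by
        rw [Polynomial.map_sub, Polynomial.map_prod]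
        simp only [Polynomial.map_sub, Polynomial.map_X, Polynomial.map_C, hrr]
      rw [e, coeff_map, norm_alg]
      exact (hnear j).trans_le (hεi i)
  choose ρ hρ hρr using hnear'
  choose φ hφ using fun i => exists_embedding v (hdeg.trans hE.symm) (hρ i)
  have hρi : Function.Injective ρ := by
    intro i j hij
    by_contra hne
    have h1 := hδr i j hne
    have e : rr i - rr j = -(ρ i - rr i) + (ρ j - rr j) := by
      rw [hij]
      ring
    rw [e] at h1
    have h3 := IsUltrametricDist.norm_add_le_max (-(ρ i - rr i)) (ρ j - rr j)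
    rw [norm_neg] at h3
    have h4 : δ ≤ δ0 := by
      rw [hδ]
      exact min_le_left _ _
    exact absurd (h1.trans h3) (not_le.mpr ((max_lt (hρr i) (hρr j)).trans_le h4))
  refine ⟨?_, plExt v (φ i0), ab_plExt v _, fun c hc hsq => ?_⟩
  · subst hE
    refine ⟨fun i => plExt v (φ i), fun i j hij => hρi ?_, fun i => ab_plExt v _⟩
    rw [← hφ i, ← hφ j]
    exact plExt_injective v hij
  · apply hns
    -- the value is a square
    have h3 : IsSquare (φ i0 (c : E)) := by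
      have h4 := IsSquare.map (extE v (φ i0)) hsq
      rwa [extE_algebraMap] at h4
    refine isSquare_of_close v h2 h3 ?_
    have h5 : φ i0 (c : E) = (ρ i0)⁻¹ + 4⁻¹ := by
      rw [hc, map_add, map_inv₀, hφ i0, map_inv₀, map_ofNat]
    have h6 : y = (rr i0)⁻¹ + 4⁻¹ := by
      rw [hy, hrr, map_add, map_inv₀, map_inv₀, map_ofNat]
    have h7 : ‖ρ i0 - rr i0‖ < ‖rr i0‖ := (hρr i0).trans_le (by
      rw [hδ]
      exact (min_le_right _ _).trans (min_le_left _ _))
    have h8 : ‖ρ i0‖ = ‖rr i0‖ := norm_eq_of_close h7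
    have hρ0 : ρ i0 ≠ 0 := by
      rw [← norm_ne_zero_iff, h8]
      exact hp1.ne'
    have h9 : ‖y - φ i0 (c : E)‖ < ‖y‖ := by
      have e : y - φ i0 (c : E) = (ρ i0 - rr i0) / (rr i0 * ρ i0) := by
        rw [h5, h6]
        field_simp
        ring
      rw [e, norm_div, norm_mul, h8, div_lt_iff₀ (by positivity)]
      refine (hρr i0).trans_le ?_
      rw [hδ, ← sq]
      exact (min_le_right _ _).trans (min_le_right _ _)
    have h10 : ‖φ i0 (c : E)‖ = ‖y‖ := by
      apply norm_eq_of_close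
      rw [← norm_neg, neg_sub]
      exact h9
    rw [h10]
    exact h9

end main

end Vale.Agent.P011.H961
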