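import Vale.Agent.P011.H305.SetF

/-!
# The letters of outer forms over global fields, in every characteristic
-/

open Module

set_option linter.unusedSectionVars false

open Vale.Agent.P011.H738 Vale.Agent.P011.H271 Vale.Agent.P011.H305

namespace Vale.Agent.P011.H961

section

variable (k K D : Type) [Field k] [Field K] [StarRing K] [DivisionRing D] [StarRing D]
  [Algebra k K] [Algebra k D] [Algebra K D] [IsScalarTower k K D]

/-- `k` is the fixed field of the nontrivial involution `star` of the field `K`, and `D` is a
central division algebra over `K` with an involution extending `star`. No condition on the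
characteristic. -/
structure SetG : Prop where
  fix : ∀ x : K, star x = x ↔ x ∈ Set.range (algebraMap k K)
  star_ne : ∃ x : K, star x ≠ x
  fin : FiniteDimensional K D
  cen : Algebra.IsCentral K D
  star_smul : ∀ (x : K) (y : D), star (x • y) = star x • star y

end

variable {k K D : Type} [Field k] [Field K] [StarRing K] [DivisionRing D] [StarRing D]
  [Algebra k K] [Algebra k D] [Algebra K D] [IsScalarTower k K D] {d : kˣ} {s : K} {n : ℕ}

theorem toG (h : SetF k K D d s) : SetG k K D :=
  ⟨h.fix, ⟨s, h.star_ne⟩, h.fin, h.cen, h.star_smul⟩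

theorem anis_toG [StarModule K D] (h : Anis k K D n) (hn : n ≠ 0) : SetG k K D := by
  refine ⟨h.fixed, h.star_ne, ?_, h.central, fun x y => star_smul x y⟩
  refine FiniteDimensional.of_finrank_pos ?_
  rw [h.finrank_eq]
  positivity

namespace SetG

theorem finK (h : SetG k K D) : FiniteDimensional k K := (H519.quad h.fix h.star_ne).1

theorem sep (h : SetG k K D) : Algebra.IsSeparable k K := (H519.quad h.fix h.star_ne).2.1

theorem rank (h : SetG k K D) : finrank k K = 2 := (H519.quad h.fix h.star_ne).2.2

theorem star_algebraMap (h : SetG k K D) (c : k) :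
    star (algebraMap k K c) = algebraMap k K c := (h.fix _).mpr ⟨c, rfl⟩

theorem starModule (h : SetG k K D) : StarModule K D := ⟨h.star_smul⟩

/-- The involution is linear over `k`. -/
theorem star_smulk (h : SetG k K D) (c : k) (x : D) : star (c • x) = c • star x := by
  rw [← algebraMap_smul K c x, h.star_smul, h.star_algebraMap, algebraMap_smul]

theorem star_algebraMapD (h : SetG k K D) (c : K) :
    star (algebraMap K D c) = algebraMap K D (star c) := by
  rw [Algebra.algebraMap_eq_smul_one, h.star_smul, star_one, ← Algebra.algebraMap_eq_smul_one]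

theorem star_algebraMapk (h : SetG k K D) (c : k) :
    star (algebraMap k D c) = algebraMap k D c := by
  rw [Algebra.algebraMap_eq_smul_one, h.star_smulk, star_one]

/-- The letters of the function field library. -/
theorem anis [StarModule K D] (h : SetG k K D) (hn : finrank K D = n ^ 2) :
    Anis k K D n where
  fixed := h.fix
  star_ne := h.star_ne
  central := h.cen
  simple := inferInstance
  finrank_eq := hn
  anisotropic x hx := by
    rcases mul_eq_zero.mp hx with h1 | h1
    · exact star_eq_zero.mp h1
    · exact h1

/-- An element of trace one. -/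
theorem exists_kappa (h : SetG k K D) : ∃ κ : K, κ + star κ = 1 ∧ star κ ≠ κ := by
  obtain ⟨u, hu⟩ := h.star_ne
  -- an element with nonzero trace which is not fixed
  have hex : ∃ x : K, x + star x ≠ 0 ∧ star x ≠ x := by
    by_cases h1 : u + star u = 0
    · refine ⟨u + 1, ?_, ?_⟩
      · rw [star_add, star_one]
        intro h2
        have h3 : (2 : K) = 0 := by linear_combination h2 - h1
        apply hu
        linear_combination h1 - u * h3
      · rw [star_add, star_one]
        exact fun h2 => hu (add_right_cancel h2)
    · exact ⟨u, h1, hu⟩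
  obtain ⟨x, hx, hx'⟩ := hex
  have ht : star (x + star x) = x + star x := by rw [star_add, star_star, add_comm]
  refine ⟨x / (x + star x), ?_, ?_⟩
  · rw [star_div₀, ht, ← add_div, div_self hx]
  · rw [star_div₀, ht]
    intro h2
    exact hx' ((div_left_inj' hx).mp h2)

/-- Coordinates. -/
theorem exists_coord (h : SetG k K D) {κ : K} (hκ : star κ ≠ κ) (y : K) :
    ∃ a b : k, y = algebraMap k K a + algebraMap k K b * κ := by
  have hκ' : κ - star κ ≠ 0 := sub_ne_zero.mpr (Ne.symm hκ)
  obtain ⟨b, hb⟩ := (h.fix ((y - star y) / (κ - star κ))).mp (by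
    rw [star_div₀, star_sub, star_sub, star_star, star_star, ← neg_sub y, ← neg_sub κ,
      neg_div_neg_eq])
  have hb' : y - star y = algebraMap k K b * (κ - star κ) := by
    rw [hb, div_mul_cancel₀ _ hκ']
  obtain ⟨a, ha⟩ := (h.fix (y - algebraMap k K b * κ)).mp (by
    rw [star_sub, star_mul', h.star_algebraMap]
    linear_combination -hb')
  exact ⟨a, b, by rw [ha, sub_add_cancel]⟩

/-- The norm of an element of trace one. -/
theorem exists_nu (h : SetG k K D) (κ : K) (hκ : κ + star κ = 1) :
    ∃ ν : k, κ * star κ = algebraMap k K ν ∧ κ ^ 2 = κ - algebraMap k K ν := by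
  obtain ⟨ν, hν⟩ := (h.fix (κ * star κ)).mp (by rw [star_mul', star_star, mul_comm])
  refine ⟨ν, hν.symm, ?_⟩
  rw [hν]
  linear_combination κ * hκ

/-- Over fields of characteristic different from two, the letters with a square root. -/
theorem exists_setF (h : SetG k K D) (h2 : (2 : k) ≠ 0) : ∃ (d : kˣ) (s : K), SetF k K D d s := by
  have := h.starModule
  have := h.fin
  obtain ⟨x, hx⟩ := h.star_ne
  have h2' : (2 : K) ≠ 0 := by
    rw [← map_ofNat (algebraMap k K) 2]
    exact (map_ne_zero _).mpr h2
  set s : K := x - star x with hs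
  have hs0 : s ≠ 0 := sub_ne_zero.mpr (Ne.symm hx)
  have hss : star s = -s := by
    rw [hs, star_sub, star_star, neg_sub]
  obtain ⟨d, hd⟩ := (h.fix (s ^ 2)).mp (by rw [star_pow, hss, neg_sq])
  have hd0 : d ≠ 0 := by
    rintro rfl
    rw [map_zero, eq_comm] at hd
    exact hs0 (pow_eq_zero_iff two_ne_zero |>.mp hd)
  refine ⟨Units.mk0 d hd0, s, ?_, hss, ?_, h.fix, h.rank, h.fin, h.cen, h.star_smul⟩
  · rw [Units.val_mk0, hd]
  · rintro ⟨c, hc⟩
    rw [Units.val_mk0] at hc
    rw [hc, map_mul, ← sq, sq_eq_sq_iff_eq_or_eq_neg] at hd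
    have h3 : star s = s := by
      rcases hd with h4 | h4
      · rw [← h4]; exact h.star_algebraMap _
      · rw [← neg_eq_iff_eq_neg] at h4
        rw [← h4, star_neg, h.star_algebraMap]
    rw [hss, neg_eq_iff_add_eq_zero, ← two_mul] at h3
    exact (mul_ne_zero h2' hs0) h3

end SetG

end Vale.Agent.P011.H961
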