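import Vale.Agent.P011.H961.Apx

/-!
# Approximation at one place, the theorem
-/

open Module Matrix Topology Filter

set_option linter.unusedSectionVars false

namespace Vale.Agent.P011.H961

open Vale.Agent.P011.H738 Vale.Agent.P011.H271 Vale.Agent.P011.H698

variable {k K A Ω : Type} [Field k] [GFF k] [Field K] [StarRing K] [Ring A] [StarRing A]
  [Algebra k K] [Algebra k A] [Algebra K A] [IsScalarTower k K A] [StarModule K A] {n N : ℕ}
  [Field Ω] [Algebra K Ω] {f : A →ₐ[K] Matrix (Fin n) (Fin n) Ω} {B : Basis (Fin N) k A}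
  {v : Place k} {L : Type} [NontriviallyNormedField L]
  {E : Subgroup (Matrix (Fin n) (Fin n) L)ˣ} {g : A →+* Matrix (Fin n) (Fin n) L}

/-- The open compact subgroup has the right behaviour for scalars. -/
theorem list_lift {R : ℝ} (l : List (Matrix (Fin n) (Fin n) L)ˣ) (hl : ∀ s ∈ l, s ∈ E ∧ Ub R s) :
    ∃ l' : List E, (∀ s ∈ l', Ub R (s : (Matrix (Fin n) (Fin n) L)ˣ)) ∧
      ((l'.prod : E) : (Matrix (Fin n) (Fin n) L)ˣ) = l.prod := by
  induction l with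
  | nil => exact ⟨[], by simp, rfl⟩
  | cons a l ih =>
    obtain ⟨l', h1, h2⟩ := ih fun s hs => hl s (List.mem_cons_of_mem _ hs)
    have ha := hl a List.mem_cons_self
    refine ⟨⟨a, ha.1⟩ :: l', fun s hs => ?_, ?_⟩
    · rcases List.mem_cons.mp hs with rfl | hs
      · exact ha.2
      · exact h1 s hs
    · rw [List.prod_cons, List.prod_cons, Subgroup.coe_mul, h2]

variable [ProperSpace L] [IsUltrametricDist L]

/-- The elements of `E` bounded by `R`. -/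
def ubE (E : Subgroup (Matrix (Fin n) (Fin n) L)ˣ) (R : ℝ) : Set E := {e | Ub R (e : (Matrix (Fin n) (Fin n) L)ˣ)}

/-- The nonscalar elements of `E`. -/
def ncE (E : Subgroup (Matrix (Fin n) (Fin n) L)ˣ) : Set E :=
  {e | ∀ c : L, ((e : (Matrix (Fin n) (Fin n) L)ˣ) : Matrix (Fin n) (Fin n) L) ≠ c • (1 : Matrix (Fin n) (Fin n) L)}

/-- The elements of determinant one of `E`. -/
def tgE (E : Subgroup (Matrix (Fin n) (Fin n) L)ˣ) : Set E := {e | ((e : (Matrix (Fin n) (Fin n) L)ˣ) : Matrix (Fin n) (Fin n) L).det = 1}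

/-- The noncentral unitary elements. -/
def nzU (A : Type) [Ring A] [StarRing A] : Set (UA A) :=
  {u | ∃ x : A, ((u : Aˣ) : A) * x ≠ x * ((u : Aˣ) : A)}

omit [ProperSpace L] [IsUltrametricDist L] in
theorem LM.ncE_of (h : LM f B v E g) {u : UA A} (hu : u ∈ nzU A) : h.iota u ∈ ncE E := by
  obtain ⟨y, hy⟩ := hu
  intro c hc
  apply hy
  apply h.inj
  have hc' : g ((u : Aˣ) : A) = c • (1 : Matrix (Fin n) (Fin n) L) := hc
  rw [map_mul, map_mul, hc', smul_mul_assoc, one_mul, mul_smul_comm, mul_one]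

omit [ProperSpace L] [IsUltrametricDist L] in
theorem scalar_of_conj (a b : (Matrix (Fin n) (Fin n) L)ˣ) (z : L)
    (hz : ((a * b * a⁻¹ : (Matrix (Fin n) (Fin n) L)ˣ) : Matrix (Fin n) (Fin n) L) = z • (1 : Matrix (Fin n) (Fin n) L)) :
    (b : Matrix (Fin n) (Fin n) L) = z • (1 : Matrix (Fin n) (Fin n) L) := by
  have e : b = a⁻¹ * (a * b * a⁻¹) * a := by group
  rw [e, Units.val_mul, Units.val_mul, hz, mul_smul_comm, mul_one, smul_mul_assoc,
    Units.inv_mul]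

omit [ProperSpace L] in
theorem near_mem_nhds (E : Subgroup (Matrix (Fin n) (Fin n) L)ˣ) {δ : ℝ} (hδ : 0 < δ) : {e : E |
    Eb δ (((e : (Matrix (Fin n) (Fin n) L)ˣ) : Matrix (Fin n) (Fin n) L) - 1) ∧
    Eb δ ((((e : (Matrix (Fin n) (Fin n) L)ˣ)⁻¹ : (Matrix (Fin n) (Fin n) L)ˣ) : Matrix (Fin n) (Fin n) L) - 1)} ∈ 𝓝 (1 : E) := by
  have h1 : IsOpen {x : Matrix (Fin n) (Fin n) L | Eb δ (x - 1)} := by
    have e : {x : Matrix (Fin n) (Fin n) L | Eb δ (x - 1)} =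
        ⋂ i, ⋂ j, (fun x : Matrix (Fin n) (Fin n) L => (x - 1) i j) ⁻¹' Metric.closedBall 0 δ := by
      ext x
      simp only [Eb, Set.mem_ofPred_eq, Set.mem_iInter, Set.mem_preimage,
        mem_closedBall_zero_iff]
    rw [e]
    refine isOpen_iInter_of_finite fun i => isOpen_iInter_of_finite fun j => ?_
    exact (IsUltrametricDist.isOpen_closedBall _ hδ.ne').preimage
      ((continuous_id.sub continuous_const).matrix_elem i j)
  refine (((h1.preimage Units.continuous_val).inter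
    (h1.preimage Units.continuous_coe_inv)).preimage continuous_subtype_val).mem_nhds ?_
  constructor
  · change Eb δ ((1 : Matrix (Fin n) (Fin n) L) - 1)
    rw [sub_self]
    exact eb_zero hδ.le
  · change Eb δ ((((1 : (Matrix (Fin n) (Fin n) L)ˣ)⁻¹ : (Matrix (Fin n) (Fin n) L)ˣ) : Matrix (Fin n) (Fin n) L) - 1)
    rw [inv_one, Units.val_one, sub_self]
    exact eb_zero hδ.le

omit [ProperSpace L] in
/-- Neighbourhoods at `v` from neighbourhoods in the local group. -/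
theorem LM.app_nhds (h : LM f B v E g) :
    ∀ U ∈ nrF B (MonoidHom.id (UA A)) v, ∃ O ∈ 𝓝 (1 : E), h.iota ⁻¹' O ⊆ U := by
  rintro U ⟨ε, hε, hU⟩
  obtain ⟨δ, hδ, hf⟩ := h.far hε
  refine ⟨_, near_mem_nhds E hδ, fun u hu => hU u ?_⟩
  have h2 := hu.2
  rw [h.iota_inv] at h2
  exact hf _ hu.1 h2

omit [ProperSpace L] in
/-- Noncentral elements near one. -/
theorem LM.app_inf (h : LM f B v E g)
    (hst : ∀ (c : k) (x : A), star (c • x) = c • star x) {q : Place k} (hvq : v ≠ q)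
    (hnc : ∀ (T : Finset (Place k)), Big B T → ∀ ε : ℝ, 0 < ε → ∃ u : UA A, u ∈ GA f ∧
      ((u : Aˣ) : A) ∈ Lv B {q} T ε ∧ ∃ x : A, ((u : Aˣ) : A) * x ≠ x * ((u : Aˣ) : A))
    {M : Subgroup (UA A)} (hM : (M : Set (UA A)) ∈ FLv f B {q})
    (T : Finset (Place k)) (hq : q ∉ T) (W : Place k → Set (UA A))
    (hW : ∀ w, W w ∈ nrF B (MonoidHom.id (UA A)) w) (O : Set E) (hO : O ∈ 𝓝 (1 : E)) :
    ∃ x ∈ M, x ∈ nzU A ∧ h.iota x ∈ O ∧
      (levF B (MonoidHom.id (UA A)) hst).Of T W Set.univ {q, v} x := by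
  classical
  obtain ⟨O', hO', hOO'⟩ := (mem_nhds_subtype _ _ _).mp hO
  obtain ⟨δ, hδ, hball⟩ := exists_ball_units hO'
  obtain ⟨ε1, hε1, hn⟩ := h.near hst hδ
  choose eW heW hW' using hW
  obtain ⟨T2, hT2, ε2, hε2, hε21, hM2⟩ := mem_FLv.mp hM
  obtain ⟨m, hm, hmT⟩ : ∃ m : ℝ, 0 < m ∧ ∀ w ∈ T, m ≤ eW w := by
    clear hq
    induction T using Finset.induction_on with
    | empty => exact ⟨1, one_pos, by simp⟩
    | insert a s _ ih =>
      obtain ⟨m, hm, hm'⟩ := ih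
      refine ⟨min (eW a) m, lt_min (heW a) hm, fun i hi => ?_⟩
      rcases Finset.mem_insert.mp hi with rfl | hi
      · exact min_le_left _ _
      · exact (min_le_right _ _).trans (hm' i hi)
  obtain ⟨T', hT'd⟩ : ∃ T', T' = insert v (T ∪ T2) := ⟨_, rfl⟩
  have hTT' : T ⊆ T' := by
    rw [hT'd]
    exact Finset.subset_union_left.trans (Finset.subset_insert _ _)
  have hT2T' : T2 ⊆ T' := by
    rw [hT'd]
    exact Finset.subset_union_right.trans (Finset.subset_insert _ _)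
  have hvT' : v ∈ T' := by
    rw [hT'd]
    exact Finset.mem_insert_self _ _
  have hT' : Big B T' := hT2.mono hT2T'
  obtain ⟨ε, hεd⟩ : ∃ ε, ε = min (min ε1 ε2) m := ⟨_, rfl⟩
  have hε : 0 < ε := by rw [hεd]; exact lt_min (lt_min hε1 hε2) hm
  have hεε1 : ε ≤ ε1 := by rw [hεd]; exact (min_le_left _ _).trans (min_le_left _ _)
  have hεε2 : ε ≤ ε2 := by rw [hεd]; exact (min_le_left _ _).trans (min_le_right _ _)
  have hεm : ε ≤ m := by rw [hεd]; exact min_le_right _ _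
  obtain ⟨u, hu, hul, y, hy⟩ := hnc T' hT' ε hε
  have hvq' : v ∉ ({q} : Set (Place k)) := fun h => hvq h
  have hnear := hn _ ((hul.1 v hvT' hvq').mono hεε1)
  refine ⟨u, hM2 u hu (lv_mono hT2T' hT2 hεε2 (hεε2.trans hε21) hul), ⟨y, hy⟩,
    hOO' (hball _ hnear.1 ?_), fun w hw => ?_, trivial, fun w hw hwS => ?_⟩
  · rw [h.iota_inv]
    exact hnear.2
  · have hwq : w ∉ ({q} : Set (Place k)) := by
      intro h
      rw [Set.mem_singleton_iff] at h
      exact hq (h ▸ hw)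
    exact hW' w u ((hul.1 w (hTT' hw) hwq).mono (hεm.trans (hmT w hw)))
  · have hwq : w ∉ ({q} : Set (Place k)) := by
      intro h
      exact hwS (Or.inl h)
    rw [levF_Kint]
    by_cases hwT' : w ∈ T'
    · by_cases hgd : Gd B w
      · exact (mem_kintF B _ hgd).mpr (hgd.of_near
          ((hul.1 w hwT' hwq).mono (hεε2.trans hε21)).bd)
      · rw [kintF_bad B _ hgd]
        trivial
    · exact mem_kintF_of B _ (hul.2 w hwT' hwq)

/-- Unboundedness in the local group. -/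
theorem LM.app_unb (h : LM f B v E g) : ∃ R : ℝ, ∀ y : UA A, y ∈ nzU A →
    ∃ l : List E, (∀ s ∈ l, s ∈ ubE E R) ∧ l.prod⁻¹ * h.iota y * l.prod ∉ ubE E 1 := by
  obtain ⟨R, hR⟩ := h.unbd
  refine ⟨R, fun y hy => ?_⟩
  obtain ⟨l, hl, hb⟩ := hR (h.iota y) (h.iota y).2 (h.ncE_of hy) 1
  obtain ⟨l', h1, h2⟩ := list_lift l hl
  refine ⟨l', h1, fun h3 => hb ?_⟩
  have h4 := h3.1
  rwa [Subgroup.coe_mul, Subgroup.coe_mul, Subgroup.coe_inv, h2] at h4

/-- Cocompactness. -/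
theorem LM.app_coc (h : LM f B v E g) (hA : Anis k K A n)
    (hst : ∀ (c : k) (x : A), star (c • x) = c • star x) {q : Place k} (hvq : v ≠ q) :
    ∃ (Mw : Place k → ℝ) (R : ℝ), {w | Mw w ≠ 1}.Finite ∧ ∀ a : E, ∃ γ : UA A,
      (∀ w, w ≠ q → w ≠ v → Bd B w (Mw w) ((γ : Aˣ) : A)) ∧ h.iota γ * a ∈ ubE E R := by
  classical
  have hsim := hA.simple
  obtain ⟨Mw, hMfin, hMone, hcoc⟩ := H74.coc_SF (B := B) hst hA.anisotropic
  obtain ⟨R0, hR0⟩ := hcoc {q, v} ⟨q, Finset.mem_insert_self _ _⟩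
  obtain ⟨R3, hR30, hR3⟩ := h.ub hst R0
  have hqv : v ∈ ({q, v} : Finset (Place k)) := by simp
  refine ⟨Mw, R3, hMfin, fun a => ?_⟩
  have hU : {e : E | Ub 1 ((e⁻¹ * a : E) : (Matrix (Fin n) (Fin n) L)ˣ)} ∈ 𝓝 a := by
    have hc : Continuous fun e : E => e⁻¹ * a := by fun_prop
    refine ((isOpen_ubE one_pos).preimage hc).mem_nhds ?_
    change Ub 1 ((a⁻¹ * a : E) : (Matrix (Fin n) (Fin n) L)ˣ)
    rw [inv_mul_cancel]
    exact ub_one le_rfl
  have hmem : a ∈ closure (Set.range h.iota) := by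
    rw [h.closure_range]
    trivial
  obtain ⟨_, hu, u, rfl⟩ := mem_closure_iff_nhds.mp hmem _ hU
  let a' : ({q, v} : Finset (Place k)) → A := fun w =>
    if (w : Place k) = v then star ((u : Aˣ) : A) else 1
  obtain ⟨lam, hl1, hl2, hl3, hl4⟩ := hR0 a' (fun w => by
      change star (if (w : Place k) = v then star ((u : Aˣ) : A) else 1) *
        (if (w : Place k) = v then star ((u : Aˣ) : A) else 1) = 1
      split_ifs
      · rw [star_star, ua_mul_star]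
      · rw [star_one, one_mul]) (fun w => by
      change (if (w : Place k) = v then star ((u : Aˣ) : A) else 1) *
        star (if (w : Place k) = v then star ((u : Aˣ) : A) else 1) = 1
      split_ifs
      · rw [star_star, ua_star_mul]
      · rw [star_one, one_mul])
  let γ : UA A := ⟨⟨lam, star lam, hl2, hl1⟩, hl2⟩
  have h5 : Bd B v R0 (((γ * u : UA A) : Aˣ) : A) := by
    intro i
    have h6 := hl4 ⟨v, hqv⟩ i
    have h7 : star (a' ⟨v, hqv⟩) = ((u : Aˣ) : A) := by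
      change star (if v = v then star ((u : Aˣ) : A) else 1) = _
      rw [if_pos rfl, star_star]
    rw [h7] at h6
    exact h6
  refine ⟨γ, fun w hwq hwv => hl3 w (by simp [hwq, hwv]), ?_⟩
  have h6 := hR3 _ h5
  have h7 : h.iota γ * a = h.iota (γ * u) * ((h.iota u)⁻¹ * a) := by
    rw [map_mul]
    group
  change Ub R3 ((h.iota γ * a : E) : (Matrix (Fin n) (Fin n) L)ˣ)
  rw [h7, Subgroup.coe_mul]
  have h8 := h6.mul hR30 zero_le_one hu
  rwa [mul_one] at h8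

/-- Elements which leave the open subgroup are not scalar. -/
theorem app_nc (E : Subgroup (Matrix (Fin n) (Fin n) L)ˣ) (R : ℝ) :
    ∀ y ∈ (fun p : E × E => p.1⁻¹ * p.2 * p.1) '' (ubE E R ×ˢ ubE E 1),
      y ∉ interior (ubE E 1) → ∀ c : E, c * y * c⁻¹ ∈ ncE E := by
  rintro _ ⟨⟨s, w⟩, ⟨hs, hw⟩, rfl⟩ hy c z hz
  have ho : IsOpen (ubE E 1) := isOpen_ubE one_pos
  rw [ho.interior_eq] at hy
  apply hy
  have h1 : (((s⁻¹ * w * s : E) : (Matrix (Fin n) (Fin n) L)ˣ) : Matrix (Fin n) (Fin n) L) = z • (1 : Matrix (Fin n) (Fin n) L) :=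
    scalar_of_conj (c : (Matrix (Fin n) (Fin n) L)ˣ) _ z hz
  have h2 : ((w : (Matrix (Fin n) (Fin n) L)ˣ) : Matrix (Fin n) (Fin n) L) = z • (1 : Matrix (Fin n) (Fin n) L) := by
    refine scalar_of_conj ((s⁻¹ : E) : (Matrix (Fin n) (Fin n) L)ˣ) _ z ?_
    rw [← h1, Subgroup.coe_inv, inv_inv]
    rfl
  have h3 : s⁻¹ * w * s = w := Subtype.ext (Units.ext (h1.trans h2.symm))
  change s⁻¹ * w * s ∈ ubE E 1
  rw [h3]
  exact hw

omit [ProperSpace L] [IsUltrametricDist L] in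
/-- The local property. -/
theorem LM.app_loc (h : LM f B v E g) (H : Subgroup E)
    (hHn : ∀ e ∈ closure (Set.range h.iota), ∀ b ∈ H, e * b * e⁻¹ ∈ H)
    (hb : ∃ b ∈ H, b ∈ ncE E) : tgE E ⊆ H := by
  intro y hy
  obtain ⟨b, hb, hbn⟩ := hb
  have hall : ∀ e b : E, b ∈ H → e * b * e⁻¹ ∈ H := fun e b hb =>
    hHn e (by rw [h.closure_range]; trivial) b hb
  have h1 : ∀ e ∈ E, ∀ b ∈ H.map E.subtype, e * b * e⁻¹ ∈ H.map E.subtype := by
    intro e he b' hb'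
    obtain ⟨b, hb, hbb⟩ := Subgroup.mem_map.mp hb'
    refine Subgroup.mem_map.mpr ⟨(⟨e, he⟩ : E) * b * (⟨e, he⟩ : E)⁻¹, hall _ _ hb, ?_⟩
    rw [map_mul, map_mul, map_inv, hbb, Subgroup.subtype_apply]
  have h2 : H.map E.subtype ≤ E := by
    rintro _ ⟨e, _, rfl⟩
    exact e.2
  have h3 : (y : (Matrix (Fin n) (Fin n) L)ˣ) ∈ H.map E.subtype :=
    h.loc (H.map E.subtype) h2 h1 ⟨(b : (Matrix (Fin n) (Fin n) L)ˣ), Subgroup.mem_map_of_mem E.subtype hb, hbn⟩
      (y : (Matrix (Fin n) (Fin n) L)ˣ) y.2 hy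
  obtain ⟨y', hy', hyy⟩ := Subgroup.mem_map.mp h3
  have : y' = y := Subtype.ext hyy
  rwa [← this]

/-- **Approximation at one place.** -/
theorem LM.approx (h : LM f B v E g) (hA : Anis k K A n)
    (hst : ∀ (c : k) (x : A), star (c • x) = c • star x) {q : Place k} (hvq : v ≠ q)
    (hnc : ∀ (T : Finset (Place k)), Big B T → ∀ ε : ℝ, 0 < ε → ∃ u : UA A, u ∈ GA f ∧
      ((u : Aˣ) : A) ∈ Lv B {q} T ε ∧ ∃ x : A, ((u : Aˣ) : A) * x ≠ x * ((u : Aˣ) : A))
    (M : Subgroup (UA A)) [M.Normal] (hM : (M : Set (UA A)) ∈ FLv f B {q})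
    (T : Finset (Place k)) (hqT : q ∉ T) (hvT : v ∉ T) (W : Place k → Set (UA A))
    (hW : ∀ w, W w ∈ nrF B (MonoidHom.id (UA A)) w) (x : UA A) (hx : x ∈ GA f)
    (O : Set (UA A)) (hO : O ∈ nrF B (MonoidHom.id (UA A)) v) :
    ∃ ν ∈ M, (levF B (MonoidHom.id (UA A)) hst).Of T W Set.univ {q, v} ν ∧ x * ν ∈ O := by
  classical
  obtain ⟨R, hR⟩ := h.app_unb
  obtain ⟨Mw, R3, hMfin, hcoc⟩ := h.app_coc hA hst hvq
  have hW0o : IsOpen (ubE E 1) := isOpen_ubE one_pos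
  have hW01 : ubE E 1 ∈ 𝓝 (1 : E) := hW0o.mem_nhds (ub_one le_rfl)
  have hL0 : IsCompact ((fun p : E × E => p.1⁻¹ * p.2 * p.1) '' (ubE E R ×ˢ ubE E 1)) :=
    ((h.compact R).prod (h.compact 1)).image (by fun_prop)
  refine (levF B (MonoidHom.id (UA A)) hst).approx q v h.iota h.app_nhds M (nzU A) ?_ (ubE E R)
    (ubE E 1) _ hW01 hL0 (fun s hs w hw => ⟨(s, w), ⟨hs, hw⟩, rfl⟩) (fun y _ hy => hR y hy)
    (ubE E R3) (h.compact R3) {γ | ∀ w, w ≠ q → w ≠ v → Bd B w (Mw w) ((γ : Aˣ) : A)}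
    (fun a _ => hcoc a) hMfin.toFinset ?_ ?_ ?_ (ncE E) (fun y hy hy' c _ => app_nc E R y hy hy' c)
    (tgE E) (fun H _ hHn hb => h.app_loc H hHn hb) T hqT hvT W hW Set.univ univ_mem x ?_ O hO
  · intro T hq _ W hW Woo hWoo O hO
    have : Woo = Set.univ := mem_top.mp hWoo
    rw [this]
    exact h.app_inf hst hvq hnc hM T hq W hW O hO
  · intro γ hγ w hw hwq hwv
    have hMw : Mw w = 1 := by
      by_contra hcon
      exact hw (hMfin.mem_toFinset.mpr hcon)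
    rw [levF_Kint]
    refine mem_kintF_of B _ ?_
    have := hγ w hwq hwv
    rwa [hMw] at this
  · rintro w hwq hwv U ⟨ε, hε, hU⟩
    obtain ⟨ε', hε', hc⟩ := conj_near B hst w (R := Mw w) hε
    refine ⟨_, ball_mem B _ w hε', fun γ hγ y hy => hU _ ?_⟩
    rw [el_mul, el_mul, el_inv]
    exact hc _ _ (el_mul_star _ γ) (hγ w hwq hwv) hy
  · intro U hU
    have hU' : U = Set.univ := mem_top.mp hU
    exact ⟨U, hU, fun _ _ _ _ => by rw [hU']; trivial⟩
  · change (((h.iota x)⁻¹ : E) : (Matrix (Fin n) (Fin n) L)ˣ).val.det = 1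
    rw [← map_inv, h.iota_val]
    exact h.det _ (mem_GA.mp ((GA f).inv_mem hx))

end Vale.Agent.P011.H961
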