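import Vale.Agent.P011.Hey.H63.HasseFF
import Vale.Agent.P011.Hey.H63.PlaceRes
import Vale.Agent.P011.H271.PmF
import Vale.Agent.P011.H929.FFb

/-!
# Quadratic extensions in characteristic two: local and global norms

`x ^ 2 + x * y + δ * y ^ 2` is the norm of `x + y θ`, `θ ^ 2 + θ = δ`.
-/

open Module Polynomial TensorProduct

set_option linter.unusedSectionVars false

namespace Vale.Agent.P011.H961.C2

open Vale.Agent.P011.H738 Vale.Agent.P011.H271
open Vale.Agent.P011.H271.S3 (Ab)

section norm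

/-- The norm of a quadratic algebra. -/
theorem norm_two {L S : Type*} [Field L] [CommRing S] [Algebra L S] (b : Basis (Fin 2) L S) {δ : L}
    (h0 : b 0 = 1) (h1 : b 1 * b 1 = b 1 + algebraMap L S δ) (x y : L) :
    Algebra.norm L (algebraMap L S x + y • b 1) = x ^ 2 + x * y - δ * y ^ 2 := by
  rw [Algebra.norm_eq_matrix_det b, Matrix.det_fin_two]
  have e0 : (algebraMap L S x + y • b 1) * b 0 = x • b 0 + y • b 1 := by
    rw [h0, mul_one, Algebra.algebraMap_eq_smul_one]
  have e1 : (algebraMap L S x + y • b 1) * b 1 = (δ * y) • b 0 + (x + y) • b 1 := by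
    rw [add_mul, smul_mul_assoc, h1, h0, Algebra.algebraMap_eq_smul_one,
      Algebra.algebraMap_eq_smul_one, smul_add, smul_smul, smul_mul_assoc, one_mul, add_smul,
      mul_comm y δ]
    abel
  have hr : ∀ (s t : L), b.repr (s • b 0 + t • b 1) 0 = s ∧ b.repr (s • b 0 + t • b 1) 1 = t := by
    intro s t
    simp [Basis.repr_self, Finsupp.single_apply]
  simp only [Algebra.leftMulMatrix_eq_repr_mul]
  rw [e0, e1, (hr _ _).1, (hr _ _).2, (hr _ _).1, (hr _ _).2]
  ring

end norm

variable {F : Type} [Field F]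

/-- `c` is a local norm of the quadratic extension of `δ`. -/
def LN2 (ω : Place F) (δ c : F) : Prop :=
  ∃ x y : ω.comp, x ^ 2 + x * y + algebraMap F ω.comp δ * y ^ 2 = algebraMap F ω.comp c

/-- The quadratic extension of `δ` splits. -/
def Spl2 (ω : Place F) (δ : F) : Prop := ∃ x : ω.comp, x ^ 2 + x = algebraMap F ω.comp δ

section loc

variable (h2 : (2 : F) = 0) {ω : Place F} {δ c : F}

include h2

theorem two_comp (ω : Place F) : (2 : ω.comp) = 0 := by
  rw [← map_ofNat (algebraMap F ω.comp) 2, h2, map_zero]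

theorem Spl2.ln (h : Spl2 ω δ) (c : F) : LN2 ω δ c := by
  obtain ⟨x, hx⟩ := h
  have h3 := two_comp h2 ω
  obtain ⟨C, hC⟩ : ∃ C, C = algebraMap F ω.comp c := ⟨_, rfl⟩
  refine ⟨C + x * (C + 1), C + 1, ?_⟩
  rw [← hx, ← hC]
  linear_combination (C * x * (C + 1) + x ^ 2 * (C + 1) ^ 2 + x * (C + 1) ^ 2 + C ^ 2) * h3

/-- The Artin-Schreier equation. -/
theorem exists_as {t : ω.comp} (ht : ‖t‖ < 1) : ∃ y : ω.comp, y ^ 2 + y = t := by
  have h3 := two_comp h2 ω
  have _ : CharP ω.comp 2 := CharTwo.of_one_ne_zero_of_two_eq_zero one_ne_zero h3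
  have hs : Summable fun m : ℕ => t ^ 2 ^ m := by
    refine Summable.of_norm_bounded (g := fun m : ℕ => ‖t‖ ^ m)
      (summable_geometric_of_lt_one (norm_nonneg _) ht) fun m => ?_
    rw [norm_pow]
    exact pow_le_pow_of_le_one (norm_nonneg _) ht.le (Nat.lt_two_pow_self).le
  refine ⟨∑' m : ℕ, t ^ 2 ^ m, ?_⟩
  have h4 : (∑' m : ℕ, t ^ 2 ^ m) ^ 2 = ∑' m : ℕ, t ^ 2 ^ (m + 1) := by
    have h5 := hs.map_tsum (frobenius ω.comp 2) (by
      change Continuous fun x : ω.comp => x ^ 2
      fun_prop)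
    rw [frobenius_def] at h5
    rw [h5]
    refine tsum_congr fun m => ?_
    rw [frobenius_def, ← pow_mul, ← pow_succ]
  have h5 : ∑' m : ℕ, t ^ 2 ^ m = t + ∑' m : ℕ, t ^ 2 ^ (m + 1) := by
    rw [hs.tsum_eq_zero_add, pow_zero, pow_one]
  rw [h4]
  linear_combination h5 + (∑' m : ℕ, t ^ 2 ^ (m + 1)) * h3

/-- Elements near one are local norms. -/
theorem ln_near (hc : ω.abv (c - 1) < 1) (hδ : ω.abv (δ * (c - 1)) < 1) : LN2 ω δ c := by
  have h3 := two_comp h2 ω
  by_cases hδ0 : δ = 0
  · refine ⟨1, algebraMap F ω.comp c - 1, ?_⟩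
    rw [hδ0, map_zero]
    ring
  have hδ0' : algebraMap F ω.comp δ ≠ 0 := (_root_.map_ne_zero _).mpr hδ0
  obtain ⟨y, hy⟩ := exists_as h2 (ω := ω) (t := algebraMap F ω.comp (δ * (c - 1))) (by
    rw [norm_alg]
    exact hδ)
  refine ⟨1, y / algebraMap F ω.comp δ, ?_⟩
  rw [map_mul, map_sub, map_one] at hy
  field_simp
  linear_combination hy

/-- Square classes of units. -/
theorem exists_sq_near (hc : ω.abv c ≤ 1) : ∃ b : F, ω.abv (c - b ^ 2) < 1 := by
  obtain ⟨hfin, -, -⟩ := ω.normalized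
  obtain ⟨R, hR⟩ : ∃ R, R = integers ω.abv ω.nonarch := ⟨_, rfl⟩
  have hker : ∀ x : integers ω.abv ω.nonarch,
      Ideal.Quotient.mk (maxIdeal ω.abv ω.nonarch) x = 0 ↔ ω.abv (x : F) < 1 := fun x => by
    rw [Ideal.Quotient.eq_zero_iff_mem]
    rfl
  have h22 : (2 : integers ω.abv ω.nonarch) = 0 := by
    apply Subtype.ext
    exact h2
  have hinj : Function.Injective fun x : integers ω.abv ω.nonarch ⧸ maxIdeal ω.abv ω.nonarch =>
      x ^ 2 := by
    intro x y hxy
    obtain ⟨x, rfl⟩ := Ideal.Quotient.mk_surjective x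
    obtain ⟨y, rfl⟩ := Ideal.Quotient.mk_surjective y
    change Ideal.Quotient.mk _ x ^ 2 = Ideal.Quotient.mk _ y ^ 2 at hxy
    rw [← sub_eq_zero, ← map_sub, hker]
    have h3 : Ideal.Quotient.mk (maxIdeal ω.abv ω.nonarch) ((x - y) ^ 2) = 0 := by
      have e : (x - y) ^ 2 = x ^ 2 - y ^ 2 + 2 * (y ^ 2 - x * y) := by ring
      rw [e, h22, zero_mul, add_zero, map_sub, map_pow, map_pow, hxy, sub_self]
    rw [hker, Subring.coe_pow, map_pow] at h3
    by_contra hcon
    exact absurd h3 (not_lt.mpr (one_le_pow₀ (not_lt.mp hcon)))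
  obtain ⟨b, hb⟩ := (Finite.injective_iff_surjective.mp hinj)
    (Ideal.Quotient.mk _ (⟨c, hc⟩ : integers ω.abv ω.nonarch))
  obtain ⟨b, rfl⟩ := Ideal.Quotient.mk_surjective b
  change Ideal.Quotient.mk _ b ^ 2 = _ at hb
  refine ⟨b, ?_⟩
  rw [← map_pow, eq_comm, ← sub_eq_zero, ← map_sub, hker] at hb
  exact hb

/-- Units are local norms from an unramified extension. -/
theorem ln_unit (hδ : ω.abv δ ≤ 1) (hc : ω.abv c = 1) : LN2 ω δ c := by
  obtain ⟨b, hb⟩ := exists_sq_near h2 hc.le
  have hb1 : ω.abv (b ^ 2) = 1 := by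
    have e : b ^ 2 = c + -(c - b ^ 2) := by ring
    refine le_antisymm ?_ ?_
    · rw [e]
      refine (ω.nonarch _ _).trans (max_le hc.le ?_)
      rw [AbsoluteValue.map_neg]
      exact hb.le
    · by_contra hcon
      push Not at hcon
      have e2 : c = (c - b ^ 2) + b ^ 2 := by ring
      have h4 : ω.abv c < 1 := by
        rw [e2]
        exact (ω.nonarch _ _).trans_lt (max_lt hb hcon)
      exact absurd hc h4.ne
  have hb0 : b ≠ 0 := by
    rintro rfl
    rw [zero_pow two_ne_zero, map_zero] at hb1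
    exact zero_ne_one hb1
  have h5 : ω.abv (c / b ^ 2 - 1) < 1 := by
    have e : c / b ^ 2 - 1 = (c - b ^ 2) / b ^ 2 := by field_simp
    rw [e, map_div₀, hb1, div_one]
    exact hb
  obtain ⟨x, y, hxy⟩ := ln_near h2 (δ := δ) h5 (by
    rw [map_mul]
    exact (mul_le_of_le_one_left (ω.abv.nonneg _) hδ).trans_lt h5)
  refine ⟨x * algebraMap F ω.comp b, y * algebraMap F ω.comp b, ?_⟩
  have hb0' : algebraMap F ω.comp b ≠ 0 := (_root_.map_ne_zero _).mpr hb0
  rw [map_div₀, map_pow, eq_div_iff (pow_ne_zero 2 hb0')] at hxy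
  linear_combination hxy

end loc

section glob

variable [GFF F] (h2 : (2 : F) = 0) {δ : F}

include h2

/-- Almost all places are good. -/
theorem bad_finite (δ : F) {c : F} (hc : c ≠ 0) : {ω : Place F | ¬ LN2 ω δ c}.Finite := by
  by_cases hδ0 : δ = 0
  · refine Set.Finite.subset Set.finite_empty fun ω hω => ?_
    exact hω ((show Spl2 ω δ from ⟨0, by rw [hδ0, map_zero]; ring⟩).ln h2 c)
  refine ((place_finite hδ0).union (place_finite hc)).subset fun ω hω => ?_
  by_contra hcon
  rw [Set.mem_union, not_or] at hcon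
  exact hω (ln_unit h2 (not_not.mp hcon.1).le (not_not.mp hcon.2))

/-- The Hasse norm theorem, with a given extension. -/
theorem hasse_ext {E : Type} [Field E] [Algebra F E] (b : Basis (Fin 2) F E) (hb0 : b 0 = 1)
    (hb1 : b 1 * b 1 = b 1 + algebraMap F E δ) {c : F} (h : ∀ ω : Place F, LN2 ω δ c) :
    ∃ x y : F, x ^ 2 + x * y + δ * y ^ 2 = c := by
  have h2E : (2 : E) = 0 := by
    rw [← map_ofNat (algebraMap F E) 2, h2, map_zero]
  obtain ⟨f, hf⟩ : ∃ f : F[X], f = X ^ 2 + X + C δ := ⟨_, rfl⟩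
  have hdeg : f.natDegree = 2 := by
    rw [hf]
    compute_degree!
  have hfm : f.Monic := by
    rw [hf]
    monicity!
  have hθ : aeval (b 1) f = 0 := by
    rw [hf, map_add, map_add, map_pow, aeval_X, aeval_C]
    linear_combination hb1 + (b 1 + algebraMap F E δ) * h2E
  have hgen : ∀ c : F, algebraMap F E c ≠ b 1 := by
    intro c hc
    have h3 : c • b 0 = b 1 := by rw [hb0, ← Algebra.algebraMap_eq_smul_one, hc]
    have h4 := congrArg (fun x => b.repr x 1) h3
    simp [Basis.repr_self] at h4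
  have hfin : FiniteDimensional F E := Module.Finite.of_basis b
  have hrank : finrank F E = 2 := by
    rw [finrank_eq_card_basis b, Fintype.card_fin]
  -- separability
  have hsep : f.Separable := by
    have hder : derivative f = 1 := by
      rw [hf]
      simp only [derivative_add, derivative_X_pow, derivative_X, derivative_C, add_zero]
      rw [show ((2 : ℕ) : F) = 0 from by exact_mod_cast h2, C_0, zero_mul, zero_add]
    rw [Separable, hder]
    exact isCoprime_one_right
  have hsθ : IsSeparable F (b 1) := hsep.of_dvd (minpoly.dvd F _ hθ)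
  have hsepE : Algebra.IsSeparable F E := by
    refine ⟨fun x => ?_⟩
    have hmem : x ∈ IntermediateField.adjoin F {b 1} := by
      rw [← b.sum_repr x, Fin.sum_univ_two, hb0]
      refine add_mem ?_ ?_
      · rw [← Algebra.algebraMap_eq_smul_one]
        exact IntermediateField.algebraMap_mem _ _
      · exact IntermediateField.smul_mem _ (IntermediateField.mem_adjoin_simple_self F _)
    have h7 : Algebra.IsSeparable F (IntermediateField.adjoin F {b 1}) :=
      (IntermediateField.isSeparable_adjoin_simple_iff_isSeparable F E).mpr hsθ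
    exact IntermediateField.isSeparable_of_mem_isSeparable F E hmem
  obtain ⟨e, he⟩ := Hey.H63.hasse_norm_crit' Nat.prime_two hrank hfm hdeg hθ hgen (b := c)
    fun v => by
    right; right
    obtain ⟨x, y, hxy⟩ := h v
    have h2v := two_comp h2 v
    let B : Basis (Fin 2) v.comp (v.comp ⊗[F] E) := Algebra.TensorProduct.basis v.comp b
    have hB0 : B 0 = 1 := by
      rw [Algebra.TensorProduct.basis_apply, hb0]
      rfl
    have hB1 : B 1 * B 1 = B 1 + algebraMap v.comp (v.comp ⊗[F] E) (algebraMap F v.comp δ) := by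
      rw [Algebra.TensorProduct.basis_apply, Algebra.TensorProduct.tmul_mul_tmul, one_mul, hb1,
        TensorProduct.tmul_add]
      congr 1
      rw [← IsScalarTower.algebraMap_apply F v.comp, Algebra.TensorProduct.algebraMap_apply']
    refine ⟨algebraMap v.comp (v.comp ⊗[F] E) x + y • B 1, ?_⟩
    rw [norm_two B hB0 hB1, ← hxy]
    linear_combination -(algebraMap F v.comp δ * y ^ 2) * h2v
  have he' : e = algebraMap F E (b.repr e 0) + b.repr e 1 • b 1 := by
    conv_lhs => rw [← b.sum_repr e, Fin.sum_univ_two, hb0, ← Algebra.algebraMap_eq_smul_one]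
  rw [he', norm_two b hb0 hb1] at he
  refine ⟨b.repr e 0, b.repr e 1, ?_⟩
  linear_combination he + (δ * b.repr e 1 ^ 2) * h2

/-- **The Hasse norm theorem** for quadratic extensions in characteristic two. -/
theorem hasse_two (hδ : ∀ x : F, x ^ 2 + x ≠ δ) {c : F} (h : ∀ ω : Place F, LN2 ω δ c) :
    ∃ x y : F, x ^ 2 + x * y + δ * y ^ 2 = c := by
  obtain ⟨f, hf⟩ : ∃ f : F[X], f = X ^ 2 + X + C δ := ⟨_, rfl⟩
  have hdeg : f.natDegree = 2 := by
    rw [hf]
    compute_degree!
  have hfm : f.Monic := by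
    rw [hf]
    monicity!
  have hirr : Irreducible f := by
    refine (Polynomial.Monic.irreducible_iff_roots_eq_zero_of_degree_le_three hfm
      (by rw [hdeg]) (by rw [hdeg]; norm_num)).mpr ?_
    rw [Multiset.eq_zero_iff_forall_notMem]
    intro x hx
    rw [mem_roots hfm.ne_zero, IsRoot.def, hf, eval_add, eval_add, eval_pow, eval_X, eval_C] at hx
    apply hδ x
    linear_combination hx - δ * h2
  have _ : Fact (Irreducible f) := ⟨hirr⟩
  have hθ : (AdjoinRoot.root f) ^ 2 + AdjoinRoot.root f + algebraMap F (AdjoinRoot f) δ = 0 := by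
    have h3 : aeval (AdjoinRoot.root f) f = 0 := by
      rw [AdjoinRoot.aeval_eq, AdjoinRoot.mk_self]
    have h4 : ∀ g : F[X], g = X ^ 2 + X + C δ → aeval (AdjoinRoot.root f) g =
        (AdjoinRoot.root f) ^ 2 + AdjoinRoot.root f + algebraMap F (AdjoinRoot f) δ := by
      intro g hg
      rw [hg, map_add, map_add, map_pow, aeval_X, aeval_C]
    rw [← h4 f hf, h3]
  have h2E : (2 : AdjoinRoot f) = 0 := by
    rw [← map_ofNat (algebraMap F (AdjoinRoot f)) 2, h2, map_zero]
  obtain ⟨b, hb0, hb1⟩ : ∃ b : Basis (Fin 2) F (AdjoinRoot f), b 0 = 1 ∧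
      b 1 = AdjoinRoot.root f := by
    have hd : (AdjoinRoot.powerBasis hfm.ne_zero).dim = 2 := hdeg
    refine ⟨(AdjoinRoot.powerBasis hfm.ne_zero).basis.reindex (finCongr hd), ?_, ?_⟩
    · rw [Basis.reindex_apply, PowerBasis.coe_basis, finCongr_symm_apply]
      exact pow_zero _
    · rw [Basis.reindex_apply, PowerBasis.coe_basis, finCongr_symm_apply]
      exact pow_one _
  refine hasse_ext h2 b hb0 ?_ h
  rw [hb1]
  linear_combination hθ - (AdjoinRoot.root f + algebraMap F (AdjoinRoot f) δ) * h2E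

end glob

section below

variable {k : Type} [Field k] [Algebra k F]

/-- The splitting goes up. -/
theorem Spl2.up {v : Place k} {ω : Place F} (h : Ab ω v) {δ : k} (hs : Spl2 v δ) :
    Spl2 ω (algebraMap k F δ) := by
  obtain ⟨c, hc0, hc⟩ := h
  obtain ⟨φ, hφ⟩ := Hey.H63.exists_compHom v ω hc0 hc
  obtain ⟨x, hx⟩ := hs
  refine ⟨φ x, ?_⟩
  rw [← map_pow, ← map_add, hx, hφ]

end below

end Vale.Agent.P011.H961.C2
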