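import Mathlib

/-!
# Local groups of matrices: bounded elements and the two local properties

`Unbd E`: the conjugates of a nonscalar element of `E` by products of elements of a bounded part of
`E` are unbounded.  `LocN E`: a subgroup of `E` which is normalised by `E` and contains a nonscalar
element contains the elements of determinant one.
-/

open Matrix

namespace Vale.Agent.P011.H961

variable {n : ℕ} {L : Type*} [NormedField L]

/-- The entries of the matrix are bounded by `R`. -/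
def Eb (R : ℝ) (x : Matrix (Fin n) (Fin n) L) : Prop := ∀ i j, ‖x i j‖ ≤ R

/-- The entries of the matrix and of its inverse are bounded by `R`. -/
def Ub (R : ℝ) (g : (Matrix (Fin n) (Fin n) L)ˣ) : Prop :=
  Eb R (g : Matrix (Fin n) (Fin n) L) ∧
    Eb R ((g⁻¹ : (Matrix (Fin n) (Fin n) L)ˣ) : Matrix (Fin n) (Fin n) L)

/-- The conjugates of a nonscalar element of `E` by words in a bounded part of `E` are unbounded. -/
def Unbd (E : Subgroup (Matrix (Fin n) (Fin n) L)ˣ) : Prop :=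
  ∃ R : ℝ, ∀ x ∈ E, (∀ c : L, (x : Matrix (Fin n) (Fin n) L) ≠ c • (1 : Matrix (Fin n) (Fin n) L)) →
    ∀ R1 : ℝ, ∃ l : List (Matrix (Fin n) (Fin n) L)ˣ, (∀ s ∈ l, s ∈ E ∧ Ub R s) ∧
      ¬ Eb R1 ((l.prod⁻¹ * x * l.prod : (Matrix (Fin n) (Fin n) L)ˣ) : Matrix (Fin n) (Fin n) L)

/-- A subgroup of `E` which is normalised by `E` and contains a nonscalar element contains the
elements of determinant one of `E`. -/
def LocN (E : Subgroup (Matrix (Fin n) (Fin n) L)ˣ) : Prop :=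
  ∀ H : Subgroup (Matrix (Fin n) (Fin n) L)ˣ, H ≤ E → (∀ e ∈ E, ∀ h ∈ H, e * h * e⁻¹ ∈ H) →
    (∃ h ∈ H, ∀ c : L, (h : Matrix (Fin n) (Fin n) L) ≠ c • (1 : Matrix (Fin n) (Fin n) L)) →
    ∀ g ∈ E, (g : Matrix (Fin n) (Fin n) L).det = 1 → g ∈ H

/-- The unitary group of the hermitian matrix `H`, acting on rows. -/
def UH [StarRing L] (H : Matrix (Fin n) (Fin n) L) : Subgroup (Matrix (Fin n) (Fin n) L)ˣ where
  carrier := {T | (T : Matrix (Fin n) (Fin n) L) * H * (T : Matrix (Fin n) (Fin n) L)ᴴ = H}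
  mul_mem' := by
    intro a b ha hb
    rw [Set.mem_ofPred_eq] at ha hb ⊢
    rw [Units.val_mul, conjTranspose_mul]
    calc (a : Matrix (Fin n) (Fin n) L) * b * H * ((b : Matrix (Fin n) (Fin n) L)ᴴ *
        (a : Matrix (Fin n) (Fin n) L)ᴴ) = a * ((b : Matrix (Fin n) (Fin n) L) * H *
          (b : Matrix (Fin n) (Fin n) L)ᴴ) * (a : Matrix (Fin n) (Fin n) L)ᴴ := by
          simp only [mul_assoc]
      _ = H := by rw [hb, ha]
  one_mem' := by
    rw [Set.mem_ofPred_eq, Units.val_one, conjTranspose_one, one_mul, mul_one]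
  inv_mem' := by
    intro a ha
    rw [Set.mem_ofPred_eq] at ha ⊢
    have h1 : ((a⁻¹ : (Matrix (Fin n) (Fin n) L)ˣ) : Matrix (Fin n) (Fin n) L) * a = 1 :=
      a.inv_mul
    have h2 : (a : Matrix (Fin n) (Fin n) L)ᴴ *
        ((a⁻¹ : (Matrix (Fin n) (Fin n) L)ˣ) : Matrix (Fin n) (Fin n) L)ᴴ = 1 := by
      rw [← conjTranspose_mul, h1, conjTranspose_one]
    calc ((a⁻¹ : (Matrix (Fin n) (Fin n) L)ˣ) : Matrix (Fin n) (Fin n) L) * H *
          ((a⁻¹ : (Matrix (Fin n) (Fin n) L)ˣ) : Matrix (Fin n) (Fin n) L)ᴴ =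
        ((a⁻¹ : (Matrix (Fin n) (Fin n) L)ˣ) : Matrix (Fin n) (Fin n) L) *
          ((a : Matrix (Fin n) (Fin n) L) * H * (a : Matrix (Fin n) (Fin n) L)ᴴ) *
          ((a⁻¹ : (Matrix (Fin n) (Fin n) L)ˣ) : Matrix (Fin n) (Fin n) L)ᴴ := by rw [ha]
      _ = (((a⁻¹ : (Matrix (Fin n) (Fin n) L)ˣ) : Matrix (Fin n) (Fin n) L) * a) * H *
          ((a : Matrix (Fin n) (Fin n) L)ᴴ *
            ((a⁻¹ : (Matrix (Fin n) (Fin n) L)ˣ) : Matrix (Fin n) (Fin n) L)ᴴ) := by
          simp only [mul_assoc]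
      _ = H := by rw [h1, h2, one_mul, mul_one]

theorem mem_UH [StarRing L] {H : Matrix (Fin n) (Fin n) L} {T : (Matrix (Fin n) (Fin n) L)ˣ} :
    T ∈ UH H ↔ (T : Matrix (Fin n) (Fin n) L) * H * (T : Matrix (Fin n) (Fin n) L)ᴴ = H := Iff.rfl

end Vale.Agent.P011.H961
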