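import Vale.Agent.P011.H961.MatTop
import Vale.Agent.P011.H961.SplitAE
import Vale.Agent.P011.H698.FG
import Vale.Agent.P011.H710.UnbdGL
import Vale.Agent.P011.H487.UnbdU
import Vale.Agent.P011.H308.Isot
import Vale.Agent.P011.H756.Herm
import Vale.Agent.P011.H271.QuadF
import Vale.Agent.P011.H800.Density
import Vale.Agent.P011.H519.SplitPlaceK

/-!
# The local models at almost all places of a global function field
-/

open Module Matrix Topology Filter

set_option linter.unusedSectionVars false

namespace Vale.Agent.P011.H961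

open Vale.Agent.P011.H738 Vale.Agent.P011.H271 Vale.Agent.P011.H698

/-- Coordinates with respect to a linearly independent family are bounded. -/
theorem coord_bound {F V : Type*} [NontriviallyNormedField F] [CompleteSpace F]
    [NormedAddCommGroup V] [NormedSpace F V] [FiniteDimensional F V] {N : ℕ} {w : Fin N → V}
    (hw : LinearIndependent F w) :
    ∃ C : ℝ, 1 ≤ C ∧ ∀ (c : Fin N → F) (i : Fin N), ‖c i‖ ≤ C * ‖∑ j, c j • w j‖ := by
  obtain ⟨g, hg⟩ := (Fintype.linearCombination F w).exists_leftInverse_of_injective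
    (LinearMap.ker_eq_bot.mpr (linearIndependent_iff_injective_fintypeLinearCombination.mp hw))
  let gc : V →L[F] (Fin N → F) := LinearMap.toContinuousLinearMap g
  refine ⟨max 1 ‖gc‖, le_max_left _ _, fun c i => ?_⟩
  have h1 : g (∑ j, c j • w j) = c := by
    have := LinearMap.congr_fun hg c
    rw [LinearMap.comp_apply, Fintype.linearCombination_apply] at this
    exact this
  have h2 : gc (∑ j, c j • w j) = c := h1
  calc ‖c i‖ ≤ ‖c‖ := norm_le_pi_norm c i
    _ = ‖gc (∑ j, c j • w j)‖ := by rw [h2]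
    _ ≤ ‖gc‖ * ‖∑ j, c j • w j‖ := gc.le_opNorm _
    _ ≤ max 1 ‖gc‖ * ‖∑ j, c j • w j‖ :=
      mul_le_mul_of_nonneg_right (le_max_right _ _) (norm_nonneg _)

variable {k K A Ω : Type} [Field k] [GFF k] [Field K] [StarRing K] [Ring A] [StarRing A]
  [Algebra k K] [Algebra k A] [Algebra K A] [IsScalarTower k K A] [StarModule K A] {n N : ℕ}
  [Field Ω] [Algebra K Ω]

/-- A local model of the algebra at `v`. -/
structure LM (f : A →ₐ[K] Matrix (Fin n) (Fin n) Ω) (B : Basis (Fin N) k A) (v : Place k)
    {L : Type} [NontriviallyNormedField L] (E : Subgroup (Matrix (Fin n) (Fin n) L)ˣ)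
    (g : A →+* Matrix (Fin n) (Fin n) L) : Prop where
  closed : IsClosed (E : Set (Matrix (Fin n) (Fin n) L)ˣ)
  mem : ∀ u : UA A, Units.map (g : A →* Matrix (Fin n) (Fin n) L) (u : Aˣ) ∈ E
  dense : (E : Set (Matrix (Fin n) (Fin n) L)ˣ) ⊆ closure (Set.range fun u : UA A =>
    Units.map (g : A →* Matrix (Fin n) (Fin n) L) (u : Aˣ))
  det : ∀ x : A, (f x).det = 1 → (g x).det = 1
  inj : Function.Injective g
  up : ∃ C : ℝ, 1 ≤ C ∧ ∀ (c : ℝ) (x : A), 0 ≤ c → Bd B v c x → Eb (C * c) (g x)
  lo : ∃ C : ℝ, 1 ≤ C ∧ ∀ (c : ℝ) (x : A), 0 ≤ c → Eb c (g x) → Eb c (g (star x)) →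
    Bd B v (C * c) x
  unbd : Unbd E
  loc : LocN E

/-- The upper bound. -/
theorem exists_up (B : Basis (Fin N) k A) (v : Place k) {L : Type} [NontriviallyNormedField L]
    [IsUltrametricDist L] (φ : K →+* L) (hφ : ∀ c : k, ‖φ (algebraMap k K c)‖ = v.abv c)
    {g : A →+* Matrix (Fin n) (Fin n) L}
    (hg : ∀ c : K, g (algebraMap K A c) = algebraMap L _ (φ c)) :
    ∃ C : ℝ, 1 ≤ C ∧ ∀ (c : ℝ) (x : A), 0 ≤ c → Bd B v c x → Eb (C * c) (g x) := by
  refine ⟨1 + ∑ l, ∑ i, ∑ j, ‖g (B l) i j‖, ?_, fun c x hc hx i j => ?_⟩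
  · have : 0 ≤ ∑ l, ∑ i, ∑ j, ‖g (B l) i j‖ := Finset.sum_nonneg fun _ _ =>
      Finset.sum_nonneg fun _ _ => Finset.sum_nonneg fun _ _ => norm_nonneg _
    linarith
  · have h0 : ∀ l, ‖g (B l) i j‖ ≤ 1 + ∑ l, ∑ i, ∑ j, ‖g (B l) i j‖ := by
      intro l
      have h1 := Finset.single_le_sum (f := fun l => ∑ i, ∑ j, ‖g (B l) i j‖)
        (fun _ _ => Finset.sum_nonneg fun _ _ => Finset.sum_nonneg fun _ _ => norm_nonneg _)
        (Finset.mem_univ l)
      have h2 := Finset.single_le_sum (f := fun i => ∑ j, ‖g (B l) i j‖)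
        (fun _ _ => Finset.sum_nonneg fun _ _ => norm_nonneg _) (Finset.mem_univ i)
      have h3 := Finset.single_le_sum (f := fun j => ‖g (B l) i j‖)
        (fun _ _ => norm_nonneg _) (Finset.mem_univ j)
      beta_reduce at h1 h2 h3
      linarith
    have e : g x = ∑ l, φ (algebraMap k K (B.repr x l)) • g (B l) := by
      conv_lhs => rw [← B.sum_repr x]
      rw [map_sum]
      refine Finset.sum_congr rfl fun l _ => ?_
      rw [← algebraMap_smul K (B.repr x l) (B l), Algebra.smul_def, map_mul, hg,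
        ← Algebra.smul_def]
    have e2 : g x i j = ∑ l, φ (algebraMap k K (B.repr x l)) * g (B l) i j := by
      rw [e, Matrix.sum_apply]
      exact Finset.sum_congr rfl fun l _ => rfl
    rw [e2]
    have hC : 0 ≤ 1 + ∑ l, ∑ i, ∑ j, ‖g (B l) i j‖ := by
      have : 0 ≤ ∑ l, ∑ i, ∑ j, ‖g (B l) i j‖ := Finset.sum_nonneg fun _ _ =>
        Finset.sum_nonneg fun _ _ => Finset.sum_nonneg fun _ _ => norm_nonneg _
      linarith
    refine IsUltrametricDist.norm_sum_le_of_forall_le_of_nonneg (mul_nonneg hC hc) fun l _ => ?_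
    rw [norm_mul, hφ, mul_comm]
    exact mul_le_mul (h0 l) (hx l) (v.abv.nonneg _) hC

theorem card_eq (hA : Anis k K A n) (B : Basis (Fin N) k A) : N = 2 * n ^ 2 := by
  have h1 := H519.finrank_of_anis hA
  rwa [finrank_eq_card_basis B, Fintype.card_fin] at h1

/-- The lower bound at a split place. -/
theorem exists_lo_split (hA : Anis k K A n) (hn : n ≠ 0) (B : Basis (Fin N) k A) {v : Place k}
    {φ : K →ₐ[k] v.comp} {g : A →+* Matrix (Fin n) (Fin n) v.comp}
    (hg : ∀ c : K, g (algebraMap K A c) = algebraMap v.comp _ (φ c)) :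
    ∃ C : ℝ, 1 ≤ C ∧ ∀ (c : ℝ) (x : A), 0 ≤ c → Eb c (g x) → Eb c (g (star x)) →
      Bd B v (C * c) x := by
  have hcen := hA.central
  have hsim := hA.simple
  let _ := nnfPlace v
  let _ := @Matrix.normedAddCommGroup (Fin n) (Fin n) v.comp _ _ _
  let _ := @Matrix.normedSpace v.comp (Fin n) (Fin n) v.comp _ _ _ _ _
  have hf : ∀ c : k, g (algebraMap k A c) = algebraMap v.comp _ (algebraMap k v.comp c) := by
    intro c
    rw [IsScalarTower.algebraMap_apply k K A, hg, φ.commutes]
  have hspan := H519.span_swap hA.finrank_eq hn hA.star_ne (φ : K →+* v.comp) g hg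
  obtain ⟨b', hb'⟩ := H519.basis_swap hA hf hspan B
  obtain ⟨C, hC, h⟩ := coord_bound b'.linearIndependent
  refine ⟨C, hC, fun c x hc h1 h2 i => ?_⟩
  have hsm : ∀ (c : k) (x : A), g (c • x) = algebraMap k v.comp c • g x := by
    intro c x
    rw [Algebra.smul_def, map_mul, hf, ← Algebra.smul_def]
  have e : ∑ j, algebraMap k v.comp (B.repr x j) • b' j = (g x, (g (star x)).transpose) := by
    have e1 : ∀ j, algebraMap k v.comp (B.repr x j) • b' j =
        (g (B.repr x j • B j), (g (star (B.repr x j • B j))).transpose) := by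
      intro j
      rw [hb', Prod.smul_mk, hsm, H519.star_smul_of_anis hA, hsm, transpose_smul]
    rw [Finset.sum_congr rfl fun j _ => e1 j]
    refine Prod.ext ?_ ?_
    · rw [Prod.fst_sum, ← map_sum, B.sum_repr]
    · rw [Prod.snd_sum, ← transpose_sum, ← map_sum, ← star_sum, B.sum_repr]
  have h3 := h (fun j => algebraMap k v.comp (B.repr x j)) i
  rw [e, norm_alg] at h3
  refine h3.trans (mul_le_mul_of_nonneg_left ?_ (zero_le_one.trans hC))
  rw [Prod.norm_def, max_le_iff, Matrix.norm_le_iff hc, Matrix.norm_le_iff hc]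
  exact ⟨h1, fun i j => h2 j i⟩

/-- The lower bound at a nonsplit place. -/
theorem exists_lo_nonsplit (hA : Anis k K A n) (hn : n ≠ 0) (B : Basis (Fin N) k A) {v : Place k}
    {L : Type} [NontriviallyNormedField L] [Algebra v.comp L] {φ : K →+* L}
    (hd : DenseRange φ)
    (hφ : ∀ c : k, φ (algebraMap k K c) = algebraMap v.comp L (algebraMap k v.comp c))
    (hnorm : ∀ c : v.comp, ‖algebraMap v.comp L c‖ = ‖c‖) (hfin : finrank v.comp L = 2)
    {g : A →+* Matrix (Fin n) (Fin n) L}
    (hg : ∀ c : K, g (algebraMap K A c) = algebraMap L _ (φ c)) :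
    ∃ C : ℝ, 1 ≤ C ∧ ∀ (c : ℝ) (x : A), 0 ≤ c → Eb c (g x) → Eb c (g (star x)) →
      Bd B v (C * c) x := by
  have hcen := hA.central
  have hsim := hA.simple
  let _ := nnfPlace v
  let hna : NormedAlgebra v.comp L :=
    { norm_smul_le := fun c x => by rw [Algebra.smul_def, norm_mul, hnorm] }
  let _ := @Matrix.normedAddCommGroup (Fin n) (Fin n) L _ _ _
  let _ := @Matrix.normedSpace v.comp (Fin n) (Fin n) L _ _ _ _ _
  have hfd : FiniteDimensional v.comp L := Module.finite_of_finrank_pos (by rw [hfin]; norm_num)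
  have hsm : ∀ (c : k) (x : A), g (c • x) = algebraMap k v.comp c • g x := by
    intro c x
    rw [← algebraMap_smul K c x, Algebra.smul_def, map_mul, hg, hφ, ← Algebra.smul_def,
      algebraMap_smul]
  have hexp : ∀ x : A, g x = ∑ j, algebraMap k v.comp (B.repr x j) • g (B j) := by
    intro x
    conv_lhs => rw [← B.sum_repr x]
    rw [map_sum]
    exact Finset.sum_congr rfl fun j _ => hsm _ _
  -- the span
  have hS : Submodule.span v.comp (Set.range fun j => g (B j)) = ⊤ := by
    obtain ⟨S, hSd⟩ : ∃ S, S = Submodule.span v.comp (Set.range fun j => g (B j)) := ⟨_, rfl⟩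
    rw [← hSd]
    have hgS : ∀ x, g x ∈ S := by
      intro x
      rw [hexp x, hSd]
      exact Submodule.sum_mem _ fun j _ => Submodule.smul_mem _ _
        (Submodule.subset_span ⟨j, rfl⟩)
    have hK : ∀ (c : K), ∀ y ∈ S, φ c • y ∈ S := by
      intro c y hy
      rw [hSd] at hy
      induction hy using Submodule.span_induction with
      | mem y hy =>
        obtain ⟨j, rfl⟩ := hy
        have e : φ c • g (B j) = g (c • B j) := by
          rw [Algebra.smul_def, Algebra.smul_def, map_mul, hg]
        rw [e]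
        exact hgS _
      | zero => rw [smul_zero]; exact S.zero_mem
      | add y z _ _ hy hz => rw [smul_add]; exact S.add_mem hy hz
      | smul a y _ hy => rw [smul_comm]; exact S.smul_mem _ hy
    have hL : ∀ (l : L), ∀ y ∈ S, l • y ∈ S := by
      let W : Submodule v.comp L :=
        { carrier := {l | ∀ y ∈ S, l • y ∈ S}
          add_mem' := fun {a b} ha hb y hy => by
            rw [add_smul]
            exact S.add_mem (ha y hy) (hb y hy)
          zero_mem' := fun y _ => by
            rw [zero_smul]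
            exact S.zero_mem
          smul_mem' := fun c l hl y hy => by
            rw [smul_assoc]
            exact S.smul_mem _ (hl y hy) }
      have hcl : IsClosed (W : Set L) := W.closed_of_finiteDimensional
      have hW : (W : Set L) = Set.univ := by
        rw [← hcl.closure_eq]
        refine (hd.mono ?_).closure_eq
        rintro _ ⟨c, rfl⟩
        exact hK c
      intro l
      have : l ∈ (W : Set L) := by rw [hW]; trivial
      exact this
    rw [eq_top_iff]
    intro y _
    have h1 : y ∈ Submodule.span L (Set.range g) := by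
      rw [H519.span_range_eq_top hA.finrank_eq hn φ g hg]
      trivial
    induction h1 using Submodule.span_induction with
    | mem y hy =>
      obtain ⟨x, rfl⟩ := hy
      exact hgS x
    | zero => exact S.zero_mem
    | add y z _ _ hy hz => exact S.add_mem (hy trivial) (hz trivial)
    | smul a y _ hy => exact hL a y (hy trivial)
  have hcard : Fintype.card (Fin N) = finrank v.comp (Matrix (Fin n) (Fin n) L) := by
    rw [← finrank_mul_finrank v.comp L (Matrix (Fin n) (Fin n) L), hfin, finrank_matrix,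
      Fintype.card_fin, Fintype.card_fin, finrank_self, card_eq hA B]
    ring
  have hli : LinearIndependent v.comp (fun j => g (B j)) :=
    linearIndependent_of_top_le_span_of_card_eq_finrank hS.ge hcard
  obtain ⟨C, hC, h⟩ := coord_bound hli
  refine ⟨C, hC, fun c x hc h1 _ i => ?_⟩
  have h3 := h (fun j => algebraMap k v.comp (B.repr x j)) i
  rw [← hexp, norm_alg] at h3
  refine h3.trans (mul_le_mul_of_nonneg_left ?_ (zero_le_one.trans hC))
  rw [Matrix.norm_le_iff hc]
  exact h1

/-- The local model at a split place. -/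
theorem lm_split (hA : Anis k K A n) (hn : 2 ≤ n) (f : A →ₐ[K] Matrix (Fin n) (Fin n) Ω)
    (B : Basis (Fin N) k A) {v : Place k} {φ : K →ₐ[k] v.comp}
    {g : A →+* Matrix (Fin n) (Fin n) v.comp}
    (hg : ∀ c : K, g (algebraMap K A c) = algebraMap v.comp _ (φ c)) :
    letI := nnfPlace v
    LM f B v (⊤ : Subgroup (Matrix (Fin n) (Fin n) v.comp)ˣ) g := by
  have hcen := hA.central
  have hsim := hA.simple
  have hn0 : n ≠ 0 := by omega
  have : NeZero n := ⟨hn0⟩
  let _ := nnfPlace v
  exact
    { closed := by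
        rw [Subgroup.coe_top]
        exact isClosed_univ
      mem := fun u => Subgroup.mem_top _
      dense := by
        have h := H800.dense_gl hA hn0 hg
        rw [Subgroup.coe_top]
        exact h.closure_eq.ge
      det := fun x hx => (det_eq_one_iff hA hn0 (φ : K →+* v.comp) hg f x).mp hx
      inj := RingHom.injective g
      up := exists_up B v (φ : K →+* v.comp) (fun c => by
        change ‖φ (algebraMap k K c)‖ = _
        rw [φ.commutes, norm_alg]) hg
      lo := exists_lo_split hA hn0 B hg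
      unbd := H710.unbd_gl hn
      loc := H710.locN_gl hn }

/-- The local model at a nonsplit place. -/
theorem lm_nonsplit (hk : IsGlobalFunctionField k) (hA : Anis k K A n) (hn : 3 ≤ n)
    (f : A →ₐ[K] Matrix (Fin n) (Fin n) Ω) (B : Basis (Fin N) k A) {v : Place k}
    {L : Type} [NontriviallyNormedField L] [ProperSpace L] [IsUltrametricDist L] [StarRing L]
    [Algebra v.comp L] {φ : K →+* L} (hst : ∀ x : L, ‖star x‖ = ‖x‖)
    (hφs : ∀ x, φ (star x) = star (φ x)) (hd : DenseRange φ)
    (hφ : ∀ c : k, φ (algebraMap k K c) = algebraMap v.comp L (algebraMap k v.comp c))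
    (hnorm : ∀ c : v.comp, ‖algebraMap v.comp L c‖ = ‖c‖) (hfin : finrank v.comp L = 2)
    {g : A →+* Matrix (Fin n) (Fin n) L}
    (hg : ∀ c : K, g (algebraMap K A c) = algebraMap L _ (φ c)) :
    ∃ E : Subgroup (Matrix (Fin n) (Fin n) L)ˣ, LM f B v E g := by
  have hcen := hA.central
  have hsim := hA.simple
  have hn0 : n ≠ 0 := by omega
  have : NeZero n := ⟨hn0⟩
  have hne : ∃ x : L, star x ≠ x := by
    obtain ⟨x, hx⟩ := hA.star_ne
    refine ⟨φ x, fun h => hx (φ.injective ?_)⟩
    rw [hφs, h]
  obtain ⟨H, hH, hdet, hgH⟩ := H756.exists_herm hn0 hA.finrank_eq hne φ hφs g hg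
  have hiso := H308.isotropic hk hA.fixed hA.star_ne hst φ hφs hd hn hH
  have hcs : Continuous (star : L → L) := by
    have h1 : Isometry (star : L → L) := Isometry.of_dist_eq fun x y => by
      rw [dist_eq_norm, dist_eq_norm, ← star_sub, hst]
    exact h1.continuous
  refine ⟨UH H, ?_⟩
  exact
    { closed := by
        have hc : Continuous fun T : (Matrix (Fin n) (Fin n) L)ˣ =>
            (T : Matrix (Fin n) (Fin n) L) * H * (T : Matrix (Fin n) (Fin n) L)ᴴ := by
          have h2 : Continuous fun T : (Matrix (Fin n) (Fin n) L)ˣ =>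
              (T : Matrix (Fin n) (Fin n) L)ᴴ := by
            refine continuous_matrix fun i j => ?_
            exact hcs.comp (Units.continuous_val.matrix_elem j i)
          exact (Units.continuous_val.mul continuous_const).mul h2
        exact isClosed_eq hc continuous_const
      mem := fun u => by
        rw [mem_UH]
        change g ((u : Aˣ) : A) * H * (g ((u : Aˣ) : A))ᴴ = H
        rw [mul_assoc, ← hgH, ← mul_assoc, ← map_mul, ua_mul_star, map_one, one_mul]
      dense := H800.dense_u hA hst φ hφs hd hg hH hdet hgH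
      det := fun x hx => (det_eq_one_iff hA hn0 φ hg f x).mp hx
      inj := RingHom.injective g
      up := exists_up B v φ (fun c => by rw [hφ, hnorm, norm_alg]) hg
      lo := exists_lo_nonsplit hA hn0 B hd hφ hnorm hfin hg
      unbd := H487.unbd_u hne hst hH hdet hiso
      loc := H487.locN_u hne hst hH hdet hiso }

/-- **Local models at almost all places.** -/
theorem exists_models (hk : IsGlobalFunctionField k) (hA : Anis k K A n) (hn : 3 ≤ n)
    (f : A →ₐ[K] Matrix (Fin n) (Fin n) Ω) (B : Basis (Fin N) k A) :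
    ∃ T : Finset (Place k), ∀ v ∉ T, ∃ (L : Type) (_ : NontriviallyNormedField L)
      (_ : ProperSpace L) (_ : IsUltrametricDist L) (E : Subgroup (Matrix (Fin n) (Fin n) L)ˣ)
      (g : A →+* Matrix (Fin n) (Fin n) L), LM f B v E g := by
  have hcen := hA.central
  have hsim := hA.simple
  have hn0 : n ≠ 0 := by omega
  obtain ⟨T, hT⟩ := exists_split_ae (k := k) (A := A) hA.fixed hn0 hA.finrank_eq
  refine ⟨T, fun v hv => ?_⟩
  by_cases hs : Nonempty (K →ₐ[k] v.comp)
  · obtain ⟨φ⟩ := hs
    let _ := nnfPlace v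
    obtain ⟨g, hg⟩ := hT v hv v.comp (φ : K →+* v.comp) (fun c => by
      change ‖φ (algebraMap k K c)‖ = _
      rw [φ.commutes, norm_alg])
    exact ⟨v.comp, nnfPlace v, inferInstance, inferInstance, ⊤, g,
      lm_split hA (by omega) f B hg⟩
  · rw [not_nonempty_iff] at hs
    obtain ⟨L, _, _, _, _, _, φ, h1, h2, h3, h4, h5, h6⟩ :=
      exists_quad_field hA.fixed hA.star_ne v hs
    obtain ⟨g, hg⟩ := hT v hv L φ (fun c => by rw [h4, h5, norm_alg])
    obtain ⟨E, hE⟩ := lm_nonsplit hk hA hn f B h1 h2 h3 h4 h5 h6 hg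
    exact ⟨L, inferInstance, inferInstance, inferInstance, E, g, hE⟩

end Vale.Agent.P011.H961
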