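import Vale.Agent.P011.H961.Apx2

/-!
# Strong approximation for normal subgroups of the unitary group over a global function field

A normal subgroup of the unitary group, contained in the special unitary group, which contains a
level without condition at one split place `q`, contains all elements of the special unitary group
close to one at a finite set of places.
-/

open Module Matrix Topology Filter

set_option linter.unusedSectionVars false

namespace Vale.Agent.P011.H961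

open Vale.Agent.P011.H738 Vale.Agent.P011.H271 Vale.Agent.P011.H698

variable {k K A Ω : Type} [Field k] [GFF k] [Field K] [StarRing K] [Ring A] [StarRing A]
  [Algebra k K] [Algebra k A] [Algebra K A] [IsScalarTower k K A] [StarModule K A] {n N : ℕ}
  [Field Ω] [Algebra K Ω] {f : A →ₐ[K] Matrix (Fin n) (Fin n) Ω} {B : Basis (Fin N) k A}

theorem kintF_iff {Γ : Type*} [Group Γ] (j : Γ →* UA A)
    (hst : ∀ (c : k) (x : A), star (c • x) = c • star x) {v : Place k} {x : Γ} :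
    x ∈ kintF B j hst v ↔ j x ∈ kintF B (MonoidHom.id (UA A)) hst v := by
  by_cases h : Gd B v
  · rw [mem_kintF B _ h, mem_kintF B _ h]
    rfl
  · rw [kintF_bad B _ h, kintF_bad B _ h]
    exact ⟨fun _ => trivial, fun _ => trivial⟩

/-- One pole is removed. -/
theorem remove_pole (hA : Anis k K A n)
    (hst : ∀ (c : k) (x : A), star (c • x) = c • star x) {q v : Place k} (hvq : v ≠ q)
    (hmod : ∃ (L : Type) (_ : NontriviallyNormedField L) (_ : ProperSpace L)
      (_ : IsUltrametricDist L) (E : Subgroup (Matrix (Fin n) (Fin n) L)ˣ)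
      (g : A →+* Matrix (Fin n) (Fin n) L), LM f B v E g)
    (hnc : ∀ (T : Finset (Place k)), Big B T → ∀ ε : ℝ, 0 < ε → ∃ u : UA A, u ∈ GA f ∧
      ((u : Aˣ) : A) ∈ Lv B {q} T ε ∧ ∃ x : A, ((u : Aˣ) : A) * x ≠ x * ((u : Aˣ) : A))
    (M : Subgroup (UA A)) [M.Normal] (hMG : M ≤ GA f) (hM : (M : Set (UA A)) ∈ FLv f B {q})
    (T : Finset (Place k)) (hqT : q ∉ T) (hvT : v ∉ T) (W : Place k → Set (GA f))
    (hW : ∀ w, W w ∈ nrF B (GA f).subtype w) (x : GA f) :
    ∃ ν : GA f, (ν : UA A) ∈ M ∧ (∀ w ∈ T, ν ∈ W w) ∧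
      (∀ w ∉ T, w ∉ ({q, v} : Set (Place k)) → ν ∈ kintF B (GA f).subtype hst w) ∧
      x * ν ∈ kintF B (GA f).subtype hst v := by
  obtain ⟨L, _, _, _, E, g, h⟩ := hmod
  choose eW heW hW' using hW
  obtain ⟨ν, hνM, ⟨h1, -, h3⟩, h4⟩ := h.approx hA hst hvq hnc M hM T hqT hvT
    (fun w => {u | Sm B w (eW w) (el (MonoidHom.id (UA A)) u - 1)})
    (fun w => ball_mem B _ w (heW w)) (x : UA A) x.2
    (kintF B (MonoidHom.id (UA A)) hst v : Subgroup (UA A))
    ((levF B (MonoidHom.id (UA A)) hst).int_nr v)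
  refine ⟨⟨ν, hMG hνM⟩, hνM, fun w hw => hW' w _ (h1 w hw), fun w hw hw' => ?_, ?_⟩
  · rw [kintF_iff]
    exact h3 w hw hw'
  · rw [kintF_iff]
    exact h4

/-- **Strong approximation for normal subgroups.** -/
theorem sa_ff (hk : IsGlobalFunctionField k) (hA : Anis k K A n) (hn : 3 ≤ n) {q : Place k}
    {φ : K →ₐ[k] q.comp} {g : A →+* Matrix (Fin n) (Fin n) q.comp}
    (hφ : ∀ c : K, g (algebraMap K A c) = algebraMap q.comp _ (φ c))
    (hspan : Submodule.span q.comp (Set.range fun x : A => (g x, (g (star x)).transpose)) = ⊤)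
    (f : A →ₐ[K] Matrix (Fin n) (Fin n) Ω) (B : Basis (Fin N) k A)
    (M : Subgroup (UA A)) [M.Normal] (hMG : M ≤ GA f)
    (hM : (M : Set (UA A)) ∈ FLv f B {q}) :
    ∃ T : Finset (Place k), q ∉ T ∧ ∃ ε : ℝ, 0 < ε ∧ ∀ u ∈ GA f,
      (∀ v ∈ T, Sm B v ε (((u : UA A) : Aˣ) - 1 : A)) → u ∈ M := by
  classical
  have hst := H519.star_smul_of_anis hA
  obtain ⟨Tm, hTm⟩ := exists_models hk hA hn f B
  obtain ⟨T0, hT0, ε0, hε0, hε01, hM0⟩ := mem_FLv.mp hM
  have hnc : ∀ (T : Finset (Place k)), Big B T → ∀ ε : ℝ, 0 < ε → ∃ u : UA A, u ∈ GA f ∧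
      ((u : Aˣ) : A) ∈ Lv B {q} T ε ∧ ∃ x : A, ((u : Aˣ) : A) * x ≠ x * ((u : Aˣ) : A) :=
    fun T hT ε hε => exists_noncentral hA (by omega) hφ hspan f B hT hε
  obtain ⟨T1, hT1d⟩ : ∃ T1, T1 = (Tm ∪ T0).erase q := ⟨_, rfl⟩
  have hqT1 : q ∉ T1 := by
    rw [hT1d]
    exact Finset.notMem_erase _ _
  have hmT1 : ∀ v, v ≠ q → v ∉ T1 → v ∉ Tm ∧ v ∉ T0 := by
    intro v hvq hv
    rw [hT1d, Finset.mem_erase, not_and, Finset.mem_union, not_or] at hv
    exact hv hvq
  have hT0T1 : ∀ v ∈ T0, v ≠ q → v ∈ T1 := by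
    intro v hv hvq
    rw [hT1d]
    exact Finset.mem_erase.mpr ⟨hvq, Finset.mem_union_right _ hv⟩
  let Lf := levF B (GA f).subtype hst
  -- the neighbourhoods
  have hball : ∀ w, {x : GA f | Sm B w ε0 (el (GA f).subtype x - 1)} ∈ Lf.Nr w := fun w =>
    ball_mem B _ w hε0
  choose W hW hmul using fun w => Lf.mul_nr w _ (hball w)
  have hW' : ∀ w, ∃ e : ℝ, 0 < e ∧ ∀ x, Sm B w e (el (GA f).subtype x - 1) → x ∈ W w := hW
  choose e he heW using hW'
  obtain ⟨m, hm, hmT⟩ : ∃ m : ℝ, 0 < m ∧ ∀ w ∈ T1, m ≤ e w := by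
    clear hqT1 hmT1 hT0T1 hT1d
    induction T1 using Finset.induction_on with
    | empty => exact ⟨1, one_pos, by simp⟩
    | insert a s _ ih =>
      obtain ⟨m, hm, hm'⟩ := ih
      refine ⟨min (e a) m, lt_min (he a) hm, fun i hi => ?_⟩
      rcases Finset.mem_insert.mp hi with rfl | hi
      · exact min_le_left _ _
      · exact (min_le_right _ _).trans (hm' i hi)
  refine ⟨T1, hqT1, m, hm, fun u hu hnear => ?_⟩
  -- the removal of the poles
  let x : GA f := ⟨u, hu⟩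
  obtain ⟨μ, hμc, hμ1, -, hμ3⟩ := Lf.exists_fix (QuotientGroup.mk' (M.subgroupOf (GA f))) q T1
    (by
      intro v hv hvq y W1 hW1 Woo hWoo
      obtain ⟨ν, hνM, h1, h2, h3⟩ := remove_pole hA hst hvq (hTm v (hmT1 v hvq hv).1) hnc M hMG hM
        T1 hqT1 hv W1 hW1 y
      have hWoo' : Woo = Set.univ := mem_top.mp hWoo
      refine ⟨ν, ?_, ⟨h1, by rw [hWoo']; trivial, fun w hw hw' => ?_⟩, h3⟩
      · rw [QuotientGroup.mk'_apply, QuotientGroup.eq_one_iff, Subgroup.mem_subgroupOf]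
        exact hνM
      · exact h2 w hw hw')
    _ x le_rfl W hW Set.univ univ_mem
  rw [QuotientGroup.mk'_apply, QuotientGroup.eq_one_iff, Subgroup.mem_subgroupOf] at hμc
  have hprod : ∀ w ∈ T1, Sm B w ε0 (el (GA f).subtype (x * μ) - 1) := fun w hw =>
    hmul w x (heW w x ((hnear w hw).mono (hmT w hw))) μ (hμ1 w hw)
  have hlv : el (GA f).subtype (x * μ) ∈ Lv B {q} T0 ε0 := by
    refine ⟨fun w hw hwq => hprod w (hT0T1 w hw hwq), fun w hw hwq => ?_⟩
    have hgd := hT0 w hw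
    by_cases hw1 : w ∈ T1
    · exact hgd.of_near ((hprod w hw1).mono hε01).bd
    · exact (mem_kintF B (GA f).subtype (hst := hst) hgd).mp (hμ3 w hw1 hwq)
  have h5 : ((x * μ : GA f) : UA A) ∈ M := hM0 _ (x * μ).2 hlv
  have h6 : u * (μ : UA A) ∈ M := h5
  exact (M.mul_mem_cancel_right hμc).mp h6

end Vale.Agent.P011.H961
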