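import Vale.Agent.P011.H961.Gen3
import Vale.Agent.P011.H271.WauF
import Vale.Agent.P011.H271.CosetF
import Vale.Agent.P011.H305.SetF
import Vale.Agent.P011.Hey.H63.PlaceRes
import Vale.Agent.P011.H73.ND
import Vale.Agent.P011.H929.FFa

/-!
# Large traces, function fields

Twin of `H961/S4.lean`.
-/

open Module Matrix Topology Filter

set_option linter.unusedSectionVars false

namespace Vale.Agent.P011.H961

open Vale.Agent.P011.H738 Vale.Agent.P011.H271 Vale.Agent.P011.H698 Vale.Agent.P011.H182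
  Vale.Agent.P011.H775 Vale.Agent.P011.H948 Vale.Agent.P011.H305 Vale.Agent.P011.H271.CosetF
  Vale.Agent.P011.H271.WauF

section loc

variable {k K A Ω : Type} [Field k] [GFF k] [Field K] [StarRing K] [Ring A] [StarRing A]
  [Algebra k K] [Algebra k A] [Algebra K A] [IsScalarTower k K A] [StarModule K A] {n N : ℕ}
  [Field Ω] [Algebra K Ω] {f : A →ₐ[K] Matrix (Fin n) (Fin n) Ω} {B : Basis (Fin N) k A}
  {v : Place k} {L : Type} [NontriviallyNormedField L]
  {E : Subgroup (Matrix (Fin n) (Fin n) L)ˣ} {g : A →+* Matrix (Fin n) (Fin n) L}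

theorem isClosed_eb (R : ℝ) : IsClosed {x : Matrix (Fin n) (Fin n) L | Eb R x} := by
  have e : {x : Matrix (Fin n) (Fin n) L | Eb R x} =
      ⋂ i, ⋂ j, (fun x : Matrix (Fin n) (Fin n) L => x i j) ⁻¹' Metric.closedBall 0 R := by
    ext x
    simp only [Eb, Set.mem_ofPred_eq, Set.mem_iInter, Set.mem_preimage, mem_closedBall_zero_iff]
  rw [e]
  exact isClosed_iInter fun i => isClosed_iInter fun j =>
    Metric.isClosed_closedBall.preimage (continuous_id.matrix_elem i j)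

/-- The conjugates of a noncentral unitary element by unitary elements are not bounded at a place
with a local model. -/
theorem LM.unb_conj (h : LM f B v E g) {u : UA A} (hu : u ∈ nzU A) (R : ℝ) :
    ∃ w : UA A, ¬ Bd B v R (((w⁻¹ * u * w : UA A) : Aˣ) : A) := by
  obtain ⟨C, hC1, hC⟩ := h.up
  obtain ⟨R0, hR0⟩ := h.unbd
  obtain ⟨l, hl, hb⟩ := hR0 (h.iota u) (h.iota u).2 (h.ncE_of hu) (C * |R|)
  have hE : l.prod ∈ E := Subgroup.list_prod_mem _ fun s hs => (hl s hs).1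
  have hop : IsOpen {T : (Matrix (Fin n) (Fin n) L)ˣ | ¬ Eb (C * |R|)
      ((T⁻¹ * h.iota u * T : (Matrix (Fin n) (Fin n) L)ˣ) : Matrix (Fin n) (Fin n) L)} := by
    have hc : Continuous fun T : (Matrix (Fin n) (Fin n) L)ˣ =>
        ((T⁻¹ * h.iota u * T : (Matrix (Fin n) (Fin n) L)ˣ) : Matrix (Fin n) (Fin n) L) :=
      Units.continuous_val.comp (by fun_prop)
    exact ((isClosed_eb (n := n) (L := L) (C * |R|)).preimage hc).isOpen_compl
  obtain ⟨_, hT, ⟨w, rfl⟩⟩ := mem_closure_iff.mp (h.dense hE) _ hop hb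
  refine ⟨w, fun hbd => hT ?_⟩
  have h1 := hC |R| _ (abs_nonneg R) (hbd.mono (le_abs_self R))
  have e : ((h.iota w : E) : (Matrix (Fin n) (Fin n) L)ˣ)⁻¹ *
      ((h.iota u : E) : (Matrix (Fin n) (Fin n) L)ˣ) *
      ((h.iota w : E) : (Matrix (Fin n) (Fin n) L)ˣ) =
        ((h.iota (w⁻¹ * u * w) : E) : (Matrix (Fin n) (Fin n) L)ˣ) := by
    rw [map_mul, map_mul, map_inv]
    rfl
  change Eb _ ((((h.iota w : E) : (Matrix (Fin n) (Fin n) L)ˣ)⁻¹ *
      ((h.iota u : E) : (Matrix (Fin n) (Fin n) L)ˣ) *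
      ((h.iota w : E) : (Matrix (Fin n) (Fin n) L)ˣ) : (Matrix (Fin n) (Fin n) L)ˣ) :
        Matrix (Fin n) (Fin n) L)
  rw [e, h.iota_val]
  exact h1

end loc

section div

variable {k K D Ω : Type} [Field k] [GFF k] [Field K] [StarRing K] [DivisionRing D] [StarRing D]
  [Algebra k K] [Algebra k D] [Algebra K D] [IsScalarTower k K D] [StarModule K D] {n N M : ℕ}
  [Field Ω] [Algebra K Ω] {d : kˣ} {s : K}

/-- Unboundedness of the conjugates, in the letters of `na`. -/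
theorem unb_na (hk : IsGlobalFunctionField k) (hA : Anis k K D n) (hn : 3 ≤ n)
    (hp : n.Prime) (f : D →ₐ[K] Matrix (Fin n) (Fin n) Ω) (B : Basis (Fin N) k D) {v : Place k}
    (hv : v ∉ Adiv k K D) {z b0 : D} (hz : z * star z = 1) (hb0 : b0 * z ≠ z * b0) (R : ℝ) :
    ∃ h : D, h * star h = 1 ∧ R < na B v.abv (h * z * h⁻¹) := by
  obtain ⟨L, _, _, _, E, g, h⟩ := mod_of_prime hk hA hn hp f B hv
  have hz0 : z ≠ 0 := un_ne hz
  obtain ⟨u, hu⟩ : ∃ u : UA D, ((u : Dˣ) : D) = z := ⟨⟨Units.mk0 z hz0, hz⟩, rfl⟩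
  obtain ⟨w, hw⟩ := h.unb_conj (u := u) ⟨b0, by rw [hu]; exact Ne.symm hb0⟩ R
  have hwu : ((w : Dˣ) : D) * star ((w : Dˣ) : D) = 1 := w.2
  refine ⟨((w : Dˣ) : D)⁻¹, un_star hwu, ?_⟩
  by_contra hcon
  push Not at hcon
  apply hw
  intro i
  have e : (((w⁻¹ * u * w : UA D) : Dˣ) : D) =
      ((w : Dˣ) : D)⁻¹ * z * (((w : Dˣ) : D)⁻¹)⁻¹ := by
    rw [inv_inv, ← hu]
    rw [Subgroup.coe_mul, Subgroup.coe_mul, Subgroup.coe_inv, Units.val_mul, Units.val_mul,
      Units.val_inv_eq_inv_val]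
  rw [e]
  exact (coord_le_na B v.abv _ i).trans hcon

/-- The relation between a place and the place below. -/
def Bel (v : Place k) (V : Place K) : Prop :=
  ∃ c : ℝ, 0 < c ∧ ∀ x : k, V.abv (algebraMap k K x) = v.abv x ^ c

theorem Bel.le_one {v : Place k} {V : Place K} (h : Bel v V) (x : k) :
    V.abv (algebraMap k K x) ≤ 1 ↔ v.abv x ≤ 1 := by
  obtain ⟨c, hc, h⟩ := h
  rw [h]
  conv_lhs => rw [← Real.one_rpow c]
  exact Real.rpow_le_rpow_iff (v.abv.nonneg x) zero_le_one hc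

/-- **Large values of linear forms**, function fields. -/
theorem big_ff (hk : IsGlobalFunctionField k) (hS : SetF k K D d s)
    (hdeg : finrank K D = 3 ^ 2) (C : Cub K D)
    (f : D →ₐ[K] Matrix (Fin 3) (Fin 3) Ω) (B : Basis (Fin N) k D) (BK : Basis (Fin M) k K)
    {T : D →ₗ[K] K} (hT : T ≠ 0) {P : Set (Place k)} (hP : P.Finite)
    (T' : Finset (Place k)) (hTd : ∀ v ∈ T', v ∉ Adiv k K D) (hTP : ∀ v ∈ T', v ∉ P)
    {u : D} (hu : u ≠ 0) {ε : Place k → ℝ} (hε : ∀ p, 0 < ε p) (R : ℝ) :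
    ∃ g ∈ CS D, (∀ p ∈ P, na B p.abv (g - 1) < ε p) ∧
      ∀ v ∈ T', R < na BK v.abv (T (u * g)) := by
  classical
  have hA : Anis k K D 3 := hS.anis hdeg
  have := hS.fin
  have := hS.cen
  have hsC : SCub C := sCub_of C hdeg hS.star_smul
  have h20 : (2 : K) ≠ 0 := by
    rw [← map_ofNat (algebraMap k K) 2]
    exact (map_ne_zero _).mpr hS.two_ne
  rcases T'.eq_empty_or_nonempty with rfl | ⟨q, hq⟩
  · refine ⟨1, (CS D).one_mem, fun p _ => ?_, fun v hv => absurd hv (Finset.notMem_empty v)⟩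
    rw [sub_self, na_zero]
    exact hε p
  have hinf : Infinite k := infinite_of_placeW q
  obtain ⟨x0, b0, hx0, hb0⟩ := exists_nc3 hsC h20 hS.s_ne hS.star_s hdeg
  have hspan : Submodule.span K (CS D : Set D) = ⊤ :=
    span_cs3 (k := k) hsC h20 hS.s_ne hS.star_s hS.star_algebraMap hdeg
  exact big_all B BK (fun p : Place k => p.abv) hS.star_smulk
    (fun P hP u hu ε hε => wa_unitaryF hA B hP hu hε) hspan hT hP hu T'
    (fun v hv => ⟨x0, fun R' => unb_na hk hA le_rfl Nat.prime_three f B (hTd v hv) hx0 hb0 R'⟩)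
    hTP ε hε R

/-- The elements which are integral together with their conjugate have bounded size. -/
theorem bdd_of_abv (hS : SetF k K D d s) (BK : Basis (Fin M) k K) {V : Place K} {v : Place k}
    (hV : Bel v V) :
    ∃ R : ℝ, ∀ t : K, V.abv t ≤ 1 → V.abv (star t) ≤ 1 → na BK v.abv t ≤ R := by
  obtain ⟨a, ha⟩ : ∃ a : AbsoluteValue k ℝ, a = v.abv := ⟨_, rfl⟩
  have h2 : (2 : k) ≠ 0 := hS.two_ne
  have ha2 : 0 < a 2 := a.pos h2
  have had : 0 < a (d : k) := a.pos d.ne_zero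
  rw [← ha]
  refine ⟨(a 2)⁻¹ * na BK a 1 + (1 + (((a 2)⁻¹) ^ 2 + 1) / a (d : k)) * na BK a s,
    fun t ht hst => ?_⟩
  obtain ⟨p, q, rfl⟩ := H929.FF.exists_ks hS t
  have hsp := hS.star_algebraMap
  have e1 : star (algebraMap k K p + algebraMap k K q * s) =
      algebraMap k K p - algebraMap k K q * s := by
    rw [star_add, star_mul', hsp, hsp, hS.star_s]
    ring
  rw [e1] at hst
  have h3 : a (2 * p) ≤ 1 := by
    rw [ha, ← hV.le_one]
    have e : algebraMap k K (2 * p) = (algebraMap k K p + algebraMap k K q * s) +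
        (algebraMap k K p - algebraMap k K q * s) := by
      rw [map_mul, map_ofNat]
      ring
    rw [e]
    exact (V.nonarch _ _).trans (max_le ht hst)
  have h4 : a (p ^ 2 - d * q ^ 2) ≤ 1 := by
    rw [ha, ← hV.le_one]
    have e : algebraMap k K (p ^ 2 - d * q ^ 2) = (algebraMap k K p + algebraMap k K q * s) *
        (algebraMap k K p - algebraMap k K q * s) := by
      have := hS.sq
      rw [map_sub, map_mul, map_pow, map_pow, ← this]
      ring
    rw [e, map_mul]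
    exact mul_le_one₀ ht (V.abv.nonneg _) hst
  have h5 : a p ≤ (a 2)⁻¹ := by
    rw [map_mul] at h3
    rw [← one_div, le_div_iff₀ ha2, mul_comm]
    exact h3
  have hp0 : 0 ≤ a p := a.nonneg _
  have hq0 : 0 ≤ a q := a.nonneg _
  have h6 : a (d : k) * a q ^ 2 ≤ ((a 2)⁻¹) ^ 2 + 1 := by
    have e : (d : k) * q ^ 2 = p ^ 2 + -(p ^ 2 - d * q ^ 2) := by ring
    have h7 := a.add_le (p ^ 2) (-(p ^ 2 - d * q ^ 2))
    rw [← e, a.map_neg, map_mul, map_pow, map_pow] at h7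
    have h8 : a p ^ 2 ≤ ((a 2)⁻¹) ^ 2 := pow_le_pow_left₀ hp0 h5 2
    linarith
  have h9 : a q ≤ 1 + (((a 2)⁻¹) ^ 2 + 1) / a (d : k) := by
    have h10 : a q ^ 2 ≤ (((a 2)⁻¹) ^ 2 + 1) / a (d : k) := by
      rw [le_div_iff₀ had, mul_comm]
      exact h6
    nlinarith
  have e2 : algebraMap k K p + algebraMap k K q * s = p • (1 : K) + q • s := by
    rw [Algebra.smul_def, Algebra.smul_def, mul_one]
  rw [e2]
  refine (na_add_le BK a _ _).trans ?_
  rw [na_smul, na_smul]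
  exact add_le_add (mul_le_mul_of_nonneg_right h5 (na_nonneg _ _ _))
    (mul_le_mul_of_nonneg_right h9 (na_nonneg _ _ _))

/-- Elements of the ground field which are large above. -/
theorem exists_big_kf {v : Place k} {V : Place K} (hV : Bel v V) (b : ℝ) :
    ∃ γ : k, γ ≠ 0 ∧ b < V.abv (algebraMap k K γ) := by
  obtain ⟨x, hx⟩ := v.normalized.2.1
  have hx1 : 1 < v.abv x := by
    rw [hx]
    exact_mod_cast one_lt_qq v
  have hx0 : x ≠ 0 := by
    rintro rfl
    rw [map_zero] at hx1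
    linarith
  have h1 : 1 < V.abv (algebraMap k K x) := by
    by_contra h
    exact absurd ((hV.le_one x).mp (not_lt.mp h)) (not_le.mpr hx1)
  obtain ⟨m, hm⟩ := pow_unbounded_of_one_lt b h1
  exact ⟨x ^ m, pow_ne_zero _ hx0, by rw [map_pow, map_pow]; exact hm⟩

/-- **Elements of the special unitary group with a large trace**, function fields. -/
theorem s4F (hk : IsGlobalFunctionField k) (hS : SetF k K D d s)
    (hdeg : finrank K D = 3 ^ 2) (C : Cub K D)
    (f : D →ₐ[K] Matrix (Fin 3) (Fin 3) Ω) (B : Basis (Fin N) k D)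
    {P : Set (Place k)} (hP : P.Finite) (Sg : Finset (Place K)) (bel : Place K → Place k)
    (hbel : ∀ V ∈ Sg, Bel (bel V) V ∧ bel V ∉ Adiv k K D ∧ bel V ∉ P)
    {u : D} (hu : u * star u = 1) {ε : Place k → ℝ} (hε : ∀ p, 0 < ε p) :
    ∃ g ∈ CS D, (∀ p ∈ P, na B p.abv (g - 1) < ε p) ∧ ∀ V ∈ Sg,
      V.abv (C.N (u * g)) < V.abv (C.T (u * g)) ^ 3 ∨
        V.abv (C.N (u * g)) ^ 2 < V.abv (C.S (u * g)) ^ 3 := by
  classical
  have := hS.fin
  have := hS.cen
  have hsC : SCub C := sCub_of C hdeg hS.star_smul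
  have hfk : FiniteDimensional k K := Module.finite_of_finrank_pos (by rw [hS.rank]; norm_num)
  let BK := Module.finBasis k K
  have hT : C.T ≠ 0 := by
    intro h0
    obtain ⟨x, hx⟩ := H73.ND.exists_T_ne C (by
      have h20 : (2 : K) ≠ 0 := by
        rw [← map_ofNat (algebraMap k K) 2]
        exact (map_ne_zero _).mpr hS.two_ne
      obtain ⟨x0, b0, -, hb0⟩ := exists_nc3 hsC h20 hS.s_ne hS.star_s hdeg
      exact ⟨b0, x0, hb0⟩)
    exact hx (by rw [h0, LinearMap.zero_apply])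
  have hu0 : u ≠ 0 := un_ne hu
  obtain ⟨b, hb⟩ : ∃ b, b = C.N u := ⟨_, rfl⟩
  have hb0 : b ≠ 0 := by rw [hb]; exact C.N_ne_zero hu0
  have hγ : ∀ V : Place K, ∃ γ : k, V ∈ Sg → γ ≠ 0 ∧
      1 ≤ V.abv (algebraMap k K γ) ∧ V.abv b ≤ V.abv (algebraMap k K γ) ∧
      V.abv b⁻¹ ≤ V.abv (algebraMap k K γ) := by
    intro V
    by_cases hV : V ∈ Sg
    · obtain ⟨γ, h1, h2⟩ := exists_big_kf (hbel V hV).1 (max 1 (max (V.abv b) (V.abv b⁻¹)))
      exact ⟨γ, fun _ => ⟨h1, (le_max_left _ _).trans h2.le,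
        ((le_max_left _ _).trans (le_max_right _ _)).trans h2.le,
        ((le_max_right _ _).trans (le_max_right _ _)).trans h2.le⟩⟩
    · exact ⟨1, fun h => absurd h hV⟩
  choose γ hγ2 using hγ
  have hR1 : ∀ V : Place K, ∃ R1 : ℝ, V ∈ Sg → ∀ t : K, V.abv t ≤ 1 → V.abv (star t) ≤ 1 →
      na BK (bel V).abv t ≤ R1 := by
    intro V
    by_cases hV : V ∈ Sg
    · obtain ⟨R1, h⟩ := bdd_of_abv hS BK (hbel V hV).1
      exact ⟨R1, fun _ => h⟩
    · exact ⟨1, fun h => absurd h hV⟩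
  choose R1 hR1 using hR1
  obtain ⟨R, hR⟩ := (Sg.image fun V => (bel V).abv (γ V) * R1 V).exists_le
  have hR' : ∀ V ∈ Sg, (bel V).abv (γ V) * R1 V ≤ R := fun V hV =>
    hR _ (Finset.mem_image_of_mem _ hV)
  obtain ⟨g, hg, hg1, hg2⟩ := big_ff hk hS hdeg C f B BK hT hP (Sg.image bel)
    (by
      intro v hv
      obtain ⟨V, hV, rfl⟩ := Finset.mem_image.mp hv
      exact (hbel V hV).2.1)
    (by
      intro v hv
      obtain ⟨V, hV, rfl⟩ := Finset.mem_image.mp hv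
      exact (hbel V hV).2.2) hu0 hε R
  refine ⟨g, hg, hg1, fun V hV => ?_⟩
  have hNg : C.N g = 1 := cs_N C hg
  have hgu : g * star g = 1 := cs_un hg
  have hug : (u * g) * star (u * g) = 1 := un_mul hu hgu
  have hN : C.N (u * g) = b := by rw [C.N_mul, hNg, mul_one, hb]
  have hS1 : C.S (u * g) = b * star (C.T (u * g)) := by
    rw [hsC.S_eq hug, hN]
  obtain ⟨t, ht⟩ : ∃ t, t = C.T (u * g) := ⟨_, rfl⟩
  have hbig : R < na BK (bel V).abv t := by
    rw [ht]
    exact hg2 _ (Finset.mem_image_of_mem _ hV)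
  rw [hN, hS1, ← ht]
  obtain ⟨hγne, w1, w2, w3⟩ := hγ2 V hV
  have hγK : algebraMap k K (γ V) ≠ 0 := (map_ne_zero _).mpr hγne
  have hpos : 0 < V.abv (algebraMap k K (γ V)) := V.abv.pos hγK
  have key : V.abv (algebraMap k K (γ V)) < V.abv t ∨
      V.abv (algebraMap k K (γ V)) < V.abv (star t) := by
    by_contra hcon
    push Not at hcon
    have h3 : V.abv (t * (algebraMap k K (γ V))⁻¹) ≤ 1 := by
      rw [map_mul, map_inv₀, ← div_eq_mul_inv]
      exact (div_le_one hpos).mpr hcon.1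
    have h4 : V.abv (star (t * (algebraMap k K (γ V))⁻¹)) ≤ 1 := by
      rw [star_mul', star_inv₀, hS.star_algebraMap, map_mul, map_inv₀, ← div_eq_mul_inv]
      exact (div_le_one hpos).mpr hcon.2
    have h5 := hR1 V hV _ h3 h4
    have e : t = (γ V) • (t * (algebraMap k K (γ V))⁻¹) := by
      rw [Algebra.smul_def, mul_comm t, mul_inv_cancel_left₀ hγK]
    rw [e, na_smul] at hbig
    have h6 := mul_le_mul_of_nonneg_left h5 ((bel V).abv.nonneg (γ V))
    exact absurd (hbig.trans_le (h6.trans (hR' V hV))) (lt_irrefl _)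
  have h3 : ∀ {x : ℝ}, 1 ≤ x → x ≤ x ^ 3 := fun hx => le_self_pow₀ hx (by norm_num)
  rcases key with h | h
  · left
    exact (w2.trans_lt h).trans_le (h3 (w1.trans h.le))
  · right
    have h4 : V.abv b⁻¹ < V.abv (star t) ^ 3 :=
      (w3.trans_lt h).trans_le (h3 (w1.trans h.le))
    have hvb : 0 < V.abv b := V.abv.pos hb0
    rw [map_mul, mul_pow]
    rw [map_inv₀] at h4
    calc V.abv b ^ 2 = V.abv b ^ 3 * (V.abv b)⁻¹ := by
          field_simp
      _ < V.abv b ^ 3 * V.abv (star t) ^ 3 :=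
          mul_lt_mul_of_pos_left h4 (pow_pos hvb 3)

/-- The form with subgroups of units. -/
theorem s4F' (hk : IsGlobalFunctionField k) (hS : SetF k K D d s)
    (hdeg : finrank K D = 3 ^ 2) (C : Cub K D)
    (f : D →ₐ[K] Matrix (Fin 3) (Fin 3) Ω) (Sg : Finset (Place K))
    (hSg : ∀ V ∈ Sg, ∃ v : Place k, Bel v V ∧ v ∉ Adiv k K D)
    {u : D} (hu : u * star u = 1) :
    ∃ g : SUA f, ∀ V ∈ Sg,
      V.abv (C.N (u * ((g : Dˣ) : D))) < V.abv (C.T (u * ((g : Dˣ) : D))) ^ 3 ∨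
        V.abv (C.N (u * ((g : Dˣ) : D))) ^ 2 < V.abv (C.S (u * ((g : Dˣ) : D))) ^ 3 := by
  classical
  have := hS.fin
  have hfk : FiniteDimensional k K := Module.finite_of_finrank_pos (by rw [hS.rank]; norm_num)
  have hfD : FiniteDimensional k D := FiniteDimensional.trans k K D
  rcases Sg.eq_empty_or_nonempty with rfl | ⟨V0, hV0⟩
  · exact ⟨1, fun V hV => absurd hV (Finset.notMem_empty V)⟩
  obtain ⟨v0, -⟩ := hSg V0 hV0
  have h1 : ∀ V : Place K, ∃ v : Place k, V ∈ Sg → Bel v V ∧ v ∉ Adiv k K D := by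
    intro V
    by_cases hV : V ∈ Sg
    · obtain ⟨v, hv⟩ := hSg V hV
      exact ⟨v, fun _ => hv⟩
    · exact ⟨v0, fun h => absurd h hV⟩
  choose bel hbel using h1
  obtain ⟨g, hg, -, h⟩ := s4F hk hS hdeg C f (Module.finBasis k D)
    (Set.finite_empty (α := Place k)) Sg bel
    (fun V hV => ⟨(hbel V hV).1, (hbel V hV).2, fun h => h⟩) hu (ε := fun _ => 1)
    (fun _ => one_pos)
  have hg0 : g ≠ 0 := un_ne (cs_un hg)
  refine ⟨⟨Units.mk0 g hg0, cs_un hg, cs_det f hg⟩, h⟩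

end div

end Vale.Agent.P011.H961
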