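import Vale.Agent.P011.H948.ChartC

/-!
`z = (x - 1) u` is never proportional to its conjugate, for `x`, `u` unitary, `N x = 1`, `T z = 0`
and `T x ≠ 3`. Any field, any characteristic.
-/

open Module

set_option linter.unusedSectionVars false
set_option linter.unusedVariables false

namespace Vale.Agent.P011.H961

open Vale.Agent.P011.H775 Vale.Agent.P011.H948

variable {K D : Type} [Field K] [StarRing K] [DivisionRing D] [StarRing D] [Algebra K D]
  {C : Cub K D}

theorem cubN_ne_zero (C : Cub K D) {x : D} (hx : x ≠ 0) : C.N x ≠ 0 := by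
  intro h
  have h1 := congrArg C.N (mul_inv_cancel₀ hx)
  rw [C.N_mul, h, zero_mul, C.N_one] at h1
  exact zero_ne_one h1

/-- An element with `x x^* = 1`, conjugate norm and trace, is central. -/
theorem central_of_recip (C : Cub K D) {u : D} {n t : K} (hn : n * n = 1) (hN : C.N u = n)
    (hT : C.T u = t) (hS : C.S u = n * t) : u = n • (1 : D) := by
  have hc := C.cayley u
  rw [hN, hT, hS] at hc
  have h1 : (u - n • (1 : D)) * (u * u + (n - t) • u + 1) = 0 := by
    rw [← hc]
    simp only [sub_mul, mul_add, smul_mul_assoc, mul_smul_comm, one_mul, mul_one, smul_add,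
      smul_smul, mul_assoc]
    match_scalars
    · ring
    · ring
    · linear_combination -hn
    · ring
  rcases mul_eq_zero.1 h1 with h2 | h2
  · exact sub_eq_zero.1 h2
  · have h3 : u * u = (t - n) • u - 1 := by
      rw [← sub_eq_zero, ← h2]
      module
    have h4 := C.adj_eq u
    rw [h3, hT, hS] at h4
    have h5 := congrArg C.T h4
    simp only [map_add, map_sub, map_smul, smul_eq_mul, C.T_one, hT] at h5
    have h6 : C.T (C.adj u) = n * t := hS
    rw [h6] at h5
    have h7 : t = 3 * n := by linear_combination (-n) * h5 - t * hn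
    have h8 : (u - n • (1 : D)) * (u - n • (1 : D)) = 0 := by
      simp only [sub_mul, mul_sub, smul_mul_assoc, mul_smul_comm, one_mul, mul_one, h3, smul_smul,
        hn, h7]
      match_scalars
      · ring
      · linear_combination hn
    exact sub_eq_zero.1 (mul_self_eq_zero.1 h8)

/-- **`z = (x - 1) u` is not proportional to its conjugate.** -/
theorem nd_star (h : SCub C) {x u : D} (hx : x * star x = 1) (hxN : C.N x = 1)
    (hx3 : C.T x ≠ 3) (hu : u * star u = 1) (hT : C.T ((x - 1) * u) = 0) (e : K) :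
    (x - 1) * u ≠ e • star ((x - 1) * u) := by
  intro hz
  have hu0 : u ≠ 0 := by
    rintro rfl
    rw [zero_mul] at hu
    exact zero_ne_one hu
  have hx1 : x - 1 ≠ 0 := by
    intro h0
    apply hx3
    rw [sub_eq_zero.1 h0, C.T_one]
  obtain ⟨z, hzd⟩ : ∃ z, z = (x - 1) * u := ⟨_, rfl⟩
  rw [← hzd] at hz hT
  have hz0 : z ≠ 0 := by
    rw [hzd]
    exact mul_ne_zero hx1 hu0
  have hsx : star x * x = 1 := by
    rw [eq_inv_of_mul_eq_one_right hx, inv_mul_cancel₀ (left_ne_zero_of_mul_eq_one hx)]
  -- `e e^* = 1`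
  have he : e * star e = 1 := by
    have h1 : z = (e * star e) • z := by
      have h0 : star z = star e • z := by
        conv_lhs => rw [hz]
        rw [h.smul, star_star]
      rw [h0, smul_smul] at hz
      exact hz
    have h2 : (1 - e * star e) • z = 0 := by
      rw [sub_smul, one_smul, ← h1, sub_self]
    exact (sub_eq_zero.1 ((smul_eq_zero.1 h2).resolve_right hz0)).symm
  have hν : C.N u * star (C.N u) = 1 := by
    rw [← h.N, ← C.N_mul, hu, C.N_one]
  obtain ⟨ν, hνd⟩ : ∃ ν, ν = C.N u := ⟨_, rfl⟩
  rw [← hνd] at hν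
  have hν0 : ν ≠ 0 := left_ne_zero_of_mul_eq_one hν
  -- `ν ^ 2 = -e ^ 3`
  have hν2 : ν * ν = -e ^ 3 := by
    have h1 : star z = -(star u * star x * (x - 1)) := by
      rw [hzd, star_mul, star_sub, star_one, mul_assoc, mul_sub (star x), hsx, mul_one, ← mul_neg,
        neg_sub]
    have h2 : C.N (star z) = -(star ν * C.N (x - 1)) := by
      rw [h1, C.N_neg, C.N_mul, C.N_mul, h.N, h.N, hxN, star_one, mul_one, ← hνd]
    have h3 : C.N z = C.N (x - 1) * ν := by rw [hzd, C.N_mul, ← hνd]
    have h4 := congrArg C.N hz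
    rw [C.N_smul, h2, h3] at h4
    have h5 : C.N (x - 1) ≠ 0 := cubN_ne_zero C hx1
    have h6 : ν = -(e ^ 3 * star ν) := by
      apply mul_left_cancel₀ h5
      linear_combination h4
    calc ν * ν = -(e ^ 3 * star ν) * ν := by rw [← h6]
      _ = -(e ^ 3 * (ν * star ν)) := by ring
      _ = -e ^ 3 := by rw [hν, mul_one]
  obtain ⟨c, hcd⟩ : ∃ c, c = ν * star e := ⟨_, rfl⟩
  have hc2 : c * c = -e := by
    have : c * c = ν * ν * (star e * star e) := by rw [hcd]; ring
    rw [this, hν2]
    linear_combination (-e * (e * star e + 1)) * he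
  have hc1 : c * star c = 1 := by
    rw [hcd, star_mul', star_star]
    linear_combination (e * star e) * hν + he
  have hc3 : c * star e = -star c := by
    linear_combination (-c * star e) * hc1 + (star e * star c) * hc2 - star c * he
  have hc0 : star c ≠ 0 := right_ne_zero_of_mul_eq_one hc1
  obtain ⟨u', hu'⟩ : ∃ u', u' = star c • u := ⟨_, rfl⟩
  obtain ⟨y, hy⟩ : ∃ y, y = star c • z := ⟨_, rfl⟩
  have hy0 : y ≠ 0 := by
    rw [hy]
    exact smul_ne_zero hc0 hz0
  have hyx : (x - 1) * u' = y := by
    rw [hu', hy, hzd, mul_smul_comm]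
  have hsy : star y = -y := by
    have h1 : star z = star e • z := by
      conv_lhs => rw [hz]
      rw [h.smul, star_star]
    rw [hy, h.smul, star_star, h1, smul_smul, hc3, neg_smul]
  have huu : u' * star u' = 1 := by
    rw [hu', h.smul, star_star, smul_mul_smul_comm, hu, mul_comm, hc1, one_smul]
  have hxu : x * u' = u' + y := by
    rw [← hyx, sub_mul, one_mul]
    abel
  have h1 : (u' + y) * (star u' - y) = 1 := by
    have h2 : x * u' * star (x * u') = 1 := by
      rw [star_mul, mul_assoc, ← mul_assoc u', huu, one_mul, hx]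
    rwa [hxu, star_add, hsy, ← sub_eq_add_neg] at h2
  have h2 : y * star u' = (x * u') * y := by
    rw [hxu, add_mul]
    rw [add_mul, mul_sub, mul_sub, huu] at h1
    have h3 : y * star u' - (u' * y + y * y) =
        1 - u' * y + (y * star u' - y * y) - 1 := by abel
    rw [← sub_eq_zero, h3, h1, sub_self]
  have hTy : C.T y = 0 := by rw [hy, map_smul, hT, smul_zero]
  have hTx : C.T (x * u') = C.T u' := by
    rw [hxu, map_add, hTy, add_zero]
  have hTs : C.T (star u') = C.T u' := by
    have h3 : star u' = y⁻¹ * (x * u' * y) := by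
      rw [← h2, inv_mul_cancel_left₀ hy0]
    rw [h3, C.T_comm, mul_assoc, mul_inv_cancel₀ hy0, mul_one, hTx]
  have hNs : C.N (star u') = C.N u' := by
    have h3 := congrArg C.N h2
    rw [C.N_mul, C.N_mul, C.N_mul, hxN, one_mul, mul_comm] at h3
    exact mul_right_cancel₀ (cubN_ne_zero C hy0) h3
  have hnn : C.N u' * C.N u' = 1 := by
    have h3 := congrArg C.N huu
    rwa [C.N_mul, hNs, C.N_one] at h3
  have hadj : C.adj u' = C.N u' • star u' := by
    have h3 := C.adj_mul u'
    have h4 : C.adj u' * u' * star u' = C.N u' • star u' := by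
      rw [h3, smul_mul_assoc, one_mul]
    rwa [mul_assoc, huu, mul_one] at h4
  have hS : C.S u' = C.N u' * C.T u' := by
    rw [Cub.S, hadj, map_smul, smul_eq_mul, hTs]
  have hcen := central_of_recip C hnn rfl rfl hS
  have h3 : C.N u' * (C.T x - 3) = 0 := by
    have h4 := hTy
    rw [← hyx, hcen, mul_smul_comm, mul_one, map_smul, map_sub, C.T_one, smul_eq_mul] at h4
    exact h4
  have h5 : C.N u' ≠ 0 := left_ne_zero_of_mul_eq_one hnn
  exact hx3 (sub_eq_zero.1 ((mul_eq_zero.1 h3).resolve_left h5))

end Vale.Agent.P011.H961
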