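import Vale.Agent.P011.H961.Big
import Vale.Agent.P011.H948.SIalg

/-!
# Products of commutators of unitary elements, field-general facts
-/

open Module

set_option linter.unusedSectionVars false

namespace Vale.Agent.P011.H961

open Vale.Agent.P011.H182 Vale.Agent.P011.H775 Vale.Agent.P011.H948

section un

variable {D : Type} [DivisionRing D] [StarRing D]

theorem un_mul {y z : D} (hy : y * star y = 1) (hz : z * star z = 1) :
    (y * z) * star (y * z) = 1 := by
  rw [star_mul, mul_assoc, ← mul_assoc z, hz, one_mul, hy]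

theorem un_star {y : D} (hy : y * star y = 1) : y⁻¹ * star y⁻¹ = 1 := by
  rw [un_inv hy, star_star, ← un_inv hy, inv_mul_cancel₀ (un_ne hy)]

theorem un_comm {y z : D} (hy : y * star y = 1) (hz : z * star z = 1) :
    (y * z * y⁻¹ * z⁻¹) * star (y * z * y⁻¹ * z⁻¹) = 1 :=
  un_mul (un_mul (un_mul hy hz) (un_star hy)) (un_star hz)

end un

section gu

variable {K D : Type} [Field K] [DivisionRing D] [StarRing D] [Algebra K D]

theorem cs_N {K D : Type} [Field K] [DivisionRing D] [StarRing D] [Algebra K D] (C : Cub K D)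
    {g : D} (hg : g ∈ CS D) : C.N g = 1 := by
  unfold CS at hg
  induction hg using Submonoid.closure_induction with
  | mem x hx =>
    obtain ⟨y, z, hy, hz, rfl⟩ := hx
    have h1 := C.N_ne_zero (un_ne hy)
    have h2 := C.N_ne_zero (un_ne hz)
    rw [C.N_mul, C.N_mul, C.N_mul, C.N_inv, C.N_inv]
    field_simp
  | one => exact C.N_one
  | mul x y _ _ hx hy => rw [C.N_mul, hx, hy, mul_one]

theorem cs_un {g : D} (hg : g ∈ CS D) : g * star g = 1 := by
  unfold CS at hg
  induction hg using Submonoid.closure_induction with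
  | mem x hx =>
    obtain ⟨y, z, hy, hz, rfl⟩ := hx
    exact un_comm hy hz
  | one => rw [star_one, one_mul]
  | mul x y _ _ hx hy => exact un_mul hx hy

theorem cs_det {Ω : Type} [Field Ω] [Algebra K Ω] {n : ℕ}
    (f : D →ₐ[K] Matrix (Fin n) (Fin n) Ω) {g : D} (hg : g ∈ CS D) : (f g).det = 1 := by
  unfold CS at hg
  induction hg using Submonoid.closure_induction with
  | mem x hx =>
    obtain ⟨y, z, hy, hz, rfl⟩ := hx
    have h1 : ∀ x : D, x ≠ 0 → (f x).det * (f x⁻¹).det = 1 := by
      intro x hx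
      rw [← Matrix.det_mul, ← map_mul, mul_inv_cancel₀ hx, map_one, Matrix.det_one]
    rw [map_mul, map_mul, map_mul, Matrix.det_mul, Matrix.det_mul, Matrix.det_mul]
    calc (f y).det * (f z).det * (f y⁻¹).det * (f z⁻¹).det
        = ((f y).det * (f y⁻¹).det) * ((f z).det * (f z⁻¹).det) := by ring
      _ = 1 := by rw [h1 y (un_ne hy), h1 z (un_ne hz), one_mul]
  | one => rw [map_one, Matrix.det_one]
  | mul x y _ _ hx hy => rw [map_mul, Matrix.det_mul, hx, hy, one_mul]

/-- If the conjugates of every noncentral element generate the algebra, the commutators of unitary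
elements span it. -/
theorem span_cs_of {x0 b0 : D} (hx0 : x0 * star x0 = 1) (hb0 : b0 * x0 ≠ x0 * b0)
    (hgen : ∀ x a : D, a * x ≠ x * a →
      Algebra.adjoin K {y | ∃ b : D, b * star b = 1 ∧ y = b * x * b⁻¹} = ⊤) :
    Submodule.span K (CS D : Set D) = ⊤ := by
  -- a noncentral commutator
  obtain ⟨y, a, hy, ha⟩ : ∃ y a : D, y * star y = 1 ∧
      a * (y * x0 * y⁻¹ * x0⁻¹) ≠ (y * x0 * y⁻¹ * x0⁻¹) * a := by
    by_contra hcon
    push Not at hcon
    have h1 : ∀ w ∈ Algebra.adjoin K {y | ∃ b : D, b * star b = 1 ∧ y = b * x0 * b⁻¹},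
        x0 * w = w * x0 := by
      intro w hw
      induction hw using Algebra.adjoin_induction with
      | mem y hy =>
        obtain ⟨b, hb, rfl⟩ := hy
        have h2 := hcon b x0 hb
        have hx00 : x0 ≠ 0 := un_ne hx0
        have e : b * x0 * b⁻¹ = (b * x0 * b⁻¹ * x0⁻¹) * x0 := by
          rw [inv_mul_cancel_right₀ hx00]
        calc x0 * (b * x0 * b⁻¹) = x0 * ((b * x0 * b⁻¹ * x0⁻¹) * x0) := by rw [← e]
          _ = (x0 * (b * x0 * b⁻¹ * x0⁻¹)) * x0 := (mul_assoc x0 _ x0).symm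
          _ = ((b * x0 * b⁻¹ * x0⁻¹) * x0) * x0 := by rw [h2]
          _ = (b * x0 * b⁻¹) * x0 := by rw [← e]
      | algebraMap r => exact (Algebra.commutes r x0).symm
      | add y z _ _ hy hz => rw [mul_add, add_mul, hy, hz]
      | mul y z _ _ hy hz => rw [← mul_assoc, hy, mul_assoc, hz, mul_assoc]
    rw [hgen x0 b0 hb0] at h1
    exact hb0 (h1 b0 Algebra.mem_top).symm
  have h1 := hgen _ a ha
  have h2 : y * x0 * y⁻¹ * x0⁻¹ ∈ CS D := Submonoid.subset_closure ⟨y, x0, hy, hx0, rfl⟩
  have h3 : Algebra.adjoin K {z | ∃ b : D, b * star b = 1 ∧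
      z = b * (y * x0 * y⁻¹ * x0⁻¹) * b⁻¹} ≤ Algebra.adjoin K (CS D : Set D) := by
    refine Algebra.adjoin_mono ?_
    rintro z ⟨b, hb, rfl⟩
    exact cs_conj hb h2
  rw [h1, top_le_iff] at h3
  have h4 := Algebra.adjoin_eq_span K (CS D : Set D)
  rw [h3, Submonoid.closure_eq, Algebra.top_toSubmodule] at h4
  exact h4.symm

end gu

end Vale.Agent.P011.H961
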