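import Vale.Agent.P011.H961.S4Val
import Vale.Agent.P011.H961.CSg
import Vale.Agent.P011.H182.Strong
import Vale.Agent.P011.H182.WAU

/-!
# Large traces, number fields

Given finitely many finite places outside `Tdiv` and a nonzero element `u`, there is an element `g`
of the special unitary group, close to one at finitely many other places, such that the trace of
`u * g` is large at the given places.
-/

open Module NumberField IsDedekindDomain

set_option linter.unusedSectionVars false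

namespace Vale.Agent.P011.H961

open Vale.Agent.P011.Arith Vale.Agent.P011.Even Vale.Agent.P011.Two Vale.Agent.P011.One
  Vale.Agent.P011.H182 Vale.Agent.P011.H775 Vale.Agent.P011.H948

section gu

variable {K D : Type} [Field K] [DivisionRing D] [StarRing D] [Algebra K D]
  {Ω : Type} [Field Ω] [Algebra K Ω] {n : ℕ} (f : D →ₐ[K] Matrix (Fin n) (Fin n) Ω)

theorem cs_gu {g : D} (hg : g ∈ CS D) : g ∈ GU f := by
  unfold CS at hg
  induction hg using Submonoid.closure_induction with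
  | mem x hx =>
    obtain ⟨y, z, hy, hz, rfl⟩ := hx
    exact gu_comm hy hz
  | one => exact gu_one
  | mul x y _ _ hx hy => exact gu_mul hx hy

end gu

section nf

variable {k K D : Type} [Field k] [NumberField k] [Field K] [NumberField K] [StarRing K]
  [DivisionRing D] [StarRing D] [Algebra k K] [Algebra k D] [Algebra K D] [IsScalarTower k K D]
  {d : kˣ} {s : K} {N M : ℕ} {Ω : Type} [Field Ω] [Algebra K Ω] {n : ℕ}

/-- The products of commutators of unitary elements span the algebra. -/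
theorem span_cs (hS : Setting k K D d s) (B : Basis (Fin N) k D) (p : Pl k) {x0 b0 : D}
    (hx0 : x0 * star x0 = 1) (hb0 : b0 * x0 ≠ x0 * b0) :
    Submodule.span K (CS D : Set D) = ⊤ := by
  refine span_cs_of hx0 hb0 fun x a hxa => ?_
  have hcharD : CharZero D := charZero_of_injective_algebraMap (algebraMap k D).injective
  exact adjoin_conj hS B p one_pos (A := {a : D | a * star a = 1})
    (by rw [Set.mem_ofPred_eq, star_one, one_mul])
    (fun a ha b hb => by
      rw [Set.mem_ofPred_eq] at ha hb ⊢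
      rw [star_mul, mul_assoc, ← mul_assoc b, hb, one_mul, ha])
    (by rw [Set.mem_ofPred_eq, zero_mul]; exact zero_ne_one)
    (fun y z hy hz _ => un_comm (cy_mul_star hy) (cy_mul_star hz)) hxa

/-- **Large values of linear forms**, number fields. -/
theorem big_nf (f : D →ₐ[K] Matrix (Fin n) (Fin n) Ω) (B : Basis (Fin N) k D)
    (BK : Basis (Fin M) k K) (hS : Setting k K D d s) (hn : 3 ≤ n) (hdeg : finrank K D = n ^ 2)
    {T : D →ₗ[K] K} (hT : T ≠ 0) {P : Set (Pl k)} (hP : P.Finite)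
    (T' : Finset (HeightOneSpectrum (𝓞 k)))
    (hTd : ∀ v ∈ T', (Sum.inl v : Pl k) ∉ Tdiv k K D) (hTP : ∀ v ∈ T', (Sum.inl v : Pl k) ∉ P)
    {u : D} (hu : u ≠ 0) {ε : Pl k → ℝ} (hε : ∀ p, 0 < ε p) (R : ℝ) :
    ∃ g ∈ CS D, (∀ p ∈ P, na B (plAbv p) (g - 1) < ε p) ∧
      ∀ v ∈ T', R < na BK (fa v) (T (u * g)) := by
  classical
  have := hS.fin
  have hst : ∀ (c : k) (x : D), star (c • x) = c • star x :=
    fun c x => (Setting.sig hS).map_smul c x
  rcases T'.eq_empty_or_nonempty with rfl | ⟨q, hq⟩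
  · refine ⟨1, (CS D).one_mem, fun p _ => ?_, fun v hv => absurd hv (Finset.notMem_empty v)⟩
    rw [sub_self, na_zero]
    exact hε p
  -- a noncentral element
  obtain ⟨x0, b0, hx0, hb0⟩ : ∃ x0 b0 : D, x0 * star x0 = 1 ∧ b0 * x0 ≠ x0 * b0 := by
    obtain ⟨R, -, g, hg, z, hz⟩ := unb hS hn hdeg f B (hTd q hq)
    obtain ⟨m, hm⟩ := hz (na B (fa q) z)
    refine ⟨g m, z, (wd_gu (hg m)).1, fun hcon => ?_⟩
    have h0 : g m ≠ 0 := gu_ne (wd_gu (hg m))
    rw [← hcon, mul_inv_cancel_right₀ h0] at hm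
    exact lt_irrefl _ hm
  have hspan := span_cs (K := K) hS B (Sum.inl q) hx0 hb0
  obtain ⟨g, hg, h1, h2⟩ := big_all B BK (fun p : Pl k => plAbv p) hst
    (fun P hP u hu ε hε => wa_unitary (B := B) hS hP hu hε) hspan hT hP hu
    (T'.map ⟨Sum.inl, Sum.inl_injective⟩)
    (by
      intro v hv
      obtain ⟨w, hw, rfl⟩ := Finset.mem_map.mp hv
      obtain ⟨R, -, g, hg, z, hz⟩ := unb hS hn hdeg f B (hTd w hw)
      refine ⟨z, fun R' => ?_⟩
      obtain ⟨m, hm⟩ := hz R'
      exact ⟨g m, (wd_gu (hg m)).1, hm⟩)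
    (by
      intro v hv
      obtain ⟨w, hw, rfl⟩ := Finset.mem_map.mp hv
      exact hTP w hw) ε hε R
  exact ⟨g, hg, h1, fun v hv => h2 _ (Finset.mem_map_of_mem _ hv)⟩

/-- **Elements of the special unitary group with a large trace**: `u * g` has a root which is not
integral at the given places. -/
theorem s4 (hS : Setting k K D d s) (hdeg : finrank K D = 3 ^ 2) (C : Cub K D)
    (f : D →ₐ[K] Matrix (Fin 3) (Fin 3) Ω) (B : Basis (Fin N) k D)
    {P : Set (Pl k)} (hP : P.Finite)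
    (Sg : Finset (HeightOneSpectrum (𝓞 K))) (hSg : ∀ V ∈ Sg, ∀ v : HeightOneSpectrum (𝓞 k),
      V.asIdeal.comap (algebraMap (𝓞 k) (𝓞 K)) = v.asIdeal →
        (Sum.inl v : Pl k) ∉ Tdiv k K D ∧ (Sum.inl v : Pl k) ∉ P)
    {u : D} (hu : u * star u = 1) {ε : Pl k → ℝ} (hε : ∀ p, 0 < ε p) :
    ∃ g ∈ GU f, (∀ p ∈ P, na B (plAbv p) (g - 1) < ε p) ∧ ∀ V ∈ Sg,
      V.valuation K (C.N (u * g)) < V.valuation K (C.T (u * g)) ^ 3 ∨
        V.valuation K (C.N (u * g)) ^ 2 < V.valuation K (C.S (u * g)) ^ 3 := by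
  classical
  have := hS.fin
  have := hS.cen
  have hsC : SCub C := sCub_of C hdeg hS.star_smul
  have hfk : FiniteDimensional k K := Module.finite_of_finrank_pos (by rw [hS.rank]; norm_num)
  let BK := Module.finBasis k K
  have hT : C.T ≠ 0 := by
    intro h0
    have h1 := C.T_one
    rw [h0, LinearMap.zero_apply] at h1
    have h3 : (3 : K) ≠ 0 := by
      have : CharZero K := charZero_of_injective_algebraMap (algebraMap k K).injective
      exact three_ne_zero
    exact h3 h1.symm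
  have hu0 : u ≠ 0 := un_ne hu
  obtain ⟨b, hb⟩ : ∃ b, b = C.N u := ⟨_, rfl⟩
  have hb0 : b ≠ 0 := by rw [hb]; exact C.N_ne_zero hu0
  obtain ⟨γ0, hγ0, h0⟩ := exists_big_k (k := k) b
  obtain ⟨γ1, hγ1, h1⟩ := exists_big_k (k := k) b⁻¹
  obtain ⟨γ, hγ⟩ : ∃ γ, γ = γ0 * γ1 := ⟨_, rfl⟩
  have hγne : γ ≠ 0 := by rw [hγ]; exact mul_ne_zero hγ0 hγ1
  have hγ2 : ∀ V : HeightOneSpectrum (𝓞 K), 1 ≤ V.valuation K (algebraMap k K γ) ∧
      V.valuation K b ≤ V.valuation K (algebraMap k K γ) ∧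
      V.valuation K b⁻¹ ≤ V.valuation K (algebraMap k K γ) := by
    intro V
    rw [hγ, map_mul, map_mul]
    exact ⟨one_le_mul (h0 V).1 (h1 V).1, (h0 V).2.trans (le_mul_of_one_le_right' (h1 V).1),
      (h1 V).2.trans (le_mul_of_one_le_left' (h0 V).1)⟩
  choose bel hbel using fun V : HeightOneSpectrum (𝓞 K) => exists_below (F := k) V
  choose R1 hR1 using fun V : HeightOneSpectrum (𝓞 K) => bdd_of_val BK hS (hbel V)
  obtain ⟨R, hR⟩ := (Sg.image fun V => fa (bel V) γ * R1 V).exists_le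
  have hR' : ∀ V ∈ Sg, fa (bel V) γ * R1 V ≤ R := fun V hV =>
    hR _ (Finset.mem_image_of_mem _ hV)
  obtain ⟨g, hg, hg1, hg2⟩ := big_nf f B BK hS le_rfl hdeg hT hP (Sg.image bel)
    (by
      intro v hv
      obtain ⟨V, hV, rfl⟩ := Finset.mem_image.mp hv
      exact (hSg V hV _ (hbel V)).1)
    (by
      intro v hv
      obtain ⟨V, hV, rfl⟩ := Finset.mem_image.mp hv
      exact (hSg V hV _ (hbel V)).2) hu0 hε R
  have hgU := cs_gu f hg
  refine ⟨g, hgU, hg1, fun V hV => ?_⟩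
  have hug : (u * g) * star (u * g) = 1 := un_mul hu hgU.1
  have hNg : C.N g = 1 := cs_N C hg
  have hN : C.N (u * g) = b := by rw [C.N_mul, hNg, mul_one, hb]
  have hS1 : C.S (u * g) = b * star (C.T (u * g)) := by
    rw [hsC.S_eq hug, hN]
  obtain ⟨t, ht⟩ : ∃ t, t = C.T (u * g) := ⟨_, rfl⟩
  have hbig : R < na BK (fa (bel V)) t := by
    rw [ht]
    exact hg2 _ (Finset.mem_image_of_mem _ hV)
  rw [hN, hS1, ← ht]
  have hγK : algebraMap k K γ ≠ 0 := (map_ne_zero _).mpr hγne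
  obtain ⟨w1, w2, w3⟩ := hγ2 V
  have key : V.valuation K (algebraMap k K γ) < V.valuation K t ∨
      V.valuation K (algebraMap k K γ) < V.valuation K (star t) := by
    by_contra hcon
    push Not at hcon
    have h3 : V.valuation K (t * (algebraMap k K γ)⁻¹) ≤ 1 := by
      rw [map_mul, map_inv₀]
      exact mul_inv_le_one_of_le₀ hcon.1 zero_le
    have h4 : V.valuation K (star (t * (algebraMap k K γ)⁻¹)) ≤ 1 := by
      have hsp : star (algebraMap k K γ) = algebraMap k K γ := (hS.fix _).2 ⟨γ, rfl⟩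
      rw [star_mul', star_inv₀, hsp, map_mul, map_inv₀]
      exact mul_inv_le_one_of_le₀ hcon.2 zero_le
    have h5 := hR1 V _ h3 h4
    have e : t = γ • (t * (algebraMap k K γ)⁻¹) := by
      rw [Algebra.smul_def, mul_comm t, mul_inv_cancel_left₀ hγK]
    rw [e, na_smul] at hbig
    have h6 := mul_le_mul_of_nonneg_left h5 ((fa (bel V)).nonneg γ)
    exact absurd (hbig.trans_le (h6.trans (hR' V hV))) (lt_irrefl _)
  have h3 : ∀ {x : WithZero (Multiplicative ℤ)}, 1 ≤ x → x ≤ x ^ 3 := fun hx =>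
    le_self_pow₀ hx (by norm_num)
  rcases key with h | h
  · left
    exact (w2.trans_lt h).trans_le (h3 (w1.trans h.le))
  · right
    have h4 : V.valuation K b⁻¹ < V.valuation K (star t) ^ 3 :=
      (w3.trans_lt h).trans_le (h3 (w1.trans h.le))
    have hvb : V.valuation K b ≠ 0 := (Valuation.ne_zero_iff _).mpr hb0
    rw [map_mul, mul_pow]
    rw [map_inv₀] at h4
    calc V.valuation K b ^ 2 = V.valuation K b ^ 3 * (V.valuation K b)⁻¹ := by
          rw [pow_succ (V.valuation K b) 2, mul_assoc, mul_inv_cancel₀ hvb, mul_one]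
      _ < V.valuation K b ^ 3 * V.valuation K (star t) ^ 3 :=
          mul_lt_mul_of_pos_left h4 (pow_pos (zero_lt_iff.mpr hvb) 3)

/-- The form with subgroups of units. -/
theorem s4' (hS : Setting k K D d s) (hdeg : finrank K D = 3 ^ 2) (C : Cub K D)
    (f : D →ₐ[K] Matrix (Fin 3) (Fin 3) Ω)
    (Sg : Finset (HeightOneSpectrum (𝓞 K))) (hSg : ∀ V ∈ Sg, ∀ v : HeightOneSpectrum (𝓞 k),
      V.asIdeal.comap (algebraMap (𝓞 k) (𝓞 K)) = v.asIdeal → (Sum.inl v : Pl k) ∉ Tdiv k K D)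
    {u : D} (hu : u * star u = 1) :
    ∃ g : SUD f, ∀ V ∈ Sg,
      V.valuation K (C.N (u * ((g : Dˣ) : D))) < V.valuation K (C.T (u * ((g : Dˣ) : D))) ^ 3 ∨
      V.valuation K (C.N (u * ((g : Dˣ) : D))) ^ 2 < V.valuation K (C.S (u * ((g : Dˣ) : D))) ^ 3 := by
  have := hS.fin
  have hfk : FiniteDimensional k K := Module.finite_of_finrank_pos (by rw [hS.rank]; norm_num)
  have hfD : FiniteDimensional k D := FiniteDimensional.trans k K D
  obtain ⟨g, hg, -, h⟩ := s4 hS hdeg C f (Module.finBasis k D) (Set.finite_empty (α := Pl k)) Sg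
    (fun V hV v hv => ⟨hSg V hV v hv, fun h => h⟩) hu (ε := fun _ => 1) (fun _ => one_pos)
  obtain ⟨g', hg', rfl⟩ := exists_SUD hg
  exact ⟨⟨g', hg'⟩, h⟩

end nf

end Vale.Agent.P011.H961
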