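import Vale.Agent.P011.H961.R5TwoLoc
import Vale.Agent.P011.H698.Bd

/-!
# Characteristic two: quaternion algebras over symmetric subfields, letters
-/

open Module

set_option linter.unusedSectionVars false

namespace Vale.Agent.P011.H961.C2

open Vale.Agent.P011.H738 Vale.Agent.P011.H271 Vale.Agent.P011.H698

variable {k D : Type} [Field k] [DivisionRing D] [StarRing D] [Algebra k D]
    {F : Type} [Field F] [Algebra k F]

/-- A quaternion algebra over the symmetric subfield `F` of characteristic two, with generators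
`i` (`i * i = i + δ`, `star i = i + 1`) and `j` (`j * j = β`, `star j = j`); the involution is the
canonical one. -/
structure QFr2 (ι : F →ₐ[k] D) (δ β : F) (i j : D) : Prop where
  sym : ∀ x, star (ι x) = ι x
  si : star i = i + 1
  sj : star j = j
  ii : i * i = i + ι δ
  jj : j * j = ι β
  b0 : β ≠ 0
  ji : j * i = (i + 1) * j
  ci : ∀ x, ι x * i = i * ι x
  cj : ∀ x, ι x * j = j * ι x

/-- The element `u = p₀ + p₁ i + (p₂ + p₃ i) j` of norm one. -/
structure QElt2 (ι : F →ₐ[k] D) (δ β : F) (i j : D) (p₀ p₁ p₂ p₃ : F) (u : D) : Prop where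
  fr : QFr2 ι δ β i j
  nrm : p₀ ^ 2 + p₀ * p₁ + δ * p₁ ^ 2 + β * (p₂ ^ 2 + p₂ * p₃ + δ * p₃ ^ 2) = 1
  eq : u = ι p₀ + ι p₁ * i + (ι p₂ + ι p₃ * i) * j

/-- `Q` contains the elements of norm one of the quaternion algebras over symmetric subfields which
are close to one at the places of `T` and at the ramified places. -/
def HQ2 {N : ℕ} (B : Basis (Fin N) k D) (Q : Set D) (T : Finset (Place k)) (ε : ℝ) : Prop :=
  ∀ (F : Type) [Field F] [GFF F] [Algebra k F] (ι : F →ₐ[k] D) (δ β : F) (i j : D)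
    (p₀ p₁ p₂ p₃ : F) (u : D), QElt2 ι δ β i j p₀ p₁ p₂ p₃ u →
    (∀ v ∈ T, Sm B v ε (u - 1)) → (∀ ω : Place F, ¬ LN2 ω δ β → ω.abv p₁ < 1) → u ∈ Q

variable (D) in
/-- The elements `j` with `star j = j + 1` and `j * j = j + δ`. -/
def Xs2 (δ : k) : Set D := {j | star j = j + 1 ∧ j * j = j + algebraMap k D δ}

end Vale.Agent.P011.H961.C2
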