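import Vale.Agent.P011.H961.R5TwoU
import Vale.Agent.P011.H707.C2.Defs

/-!
# Doubling over function fields of characteristic two: the step, in the letters of the reduction
-/

open Module

set_option linter.unusedSectionVars false

namespace Vale.Agent.P011.H961.C2

open Vale.Agent.P011.H738 Vale.Agent.P011.H271 Vale.Agent.P011.H698
open Vale.Agent.P011.H706.C2 (HQ1F2)
open Vale.Agent.P011.H707.C2 (Un Xs)

section cent

variable {A : Type} [Ring A]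

/-- The centralizer of a conjugate of `I` is a division ring if the one of `I` is. -/
theorem cent_conj {I : A} (hC : ∀ x : A, x * I = I * x → x ≠ 0 → IsUnit x) (g : Aˣ) (x : A)
    (hx : x * (g * I * ((g⁻¹ : Aˣ) : A)) = g * I * ((g⁻¹ : Aˣ) : A) * x) (h0 : x ≠ 0) :
    IsUnit x := by
  have h1 : IsUnit (((g⁻¹ : Aˣ) : A) * x * g) := by
    refine hC _ ?_ fun h2 => h0 ?_
    · calc ((g⁻¹ : Aˣ) : A) * x * g * I
          = ((g⁻¹ : Aˣ) : A) * (x * (g * I * ((g⁻¹ : Aˣ) : A))) * g := by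
            simp only [mul_assoc, Units.inv_mul, mul_one]
        _ = ((g⁻¹ : Aˣ) : A) * (g * I * ((g⁻¹ : Aˣ) : A) * x) * g := by rw [hx]
        _ = I * (((g⁻¹ : Aˣ) : A) * x * g) := by
            simp only [← mul_assoc, Units.inv_mul, one_mul]
    · calc x = g * (((g⁻¹ : Aˣ) : A) * x * g) * ((g⁻¹ : Aˣ) : A) := by
            simp only [← mul_assoc, Units.mul_inv, one_mul]
            rw [mul_assoc, Units.mul_inv, mul_one]
        _ = 0 := by rw [h2, mul_zero, zero_mul]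
  have h2 : x = g * (((g⁻¹ : Aˣ) : A) * x * g) * ((g⁻¹ : Aˣ) : A) := by
    simp only [← mul_assoc, Units.mul_inv, one_mul]
    rw [mul_assoc, Units.mul_inv, mul_one]
  rw [h2]
  exact (g.isUnit.mul h1).mul (g⁻¹).isUnit

/-- The same with an explicit inverse. -/
theorem cent_conj' {I : A} (hC : ∀ x : A, x * I = I * x → x ≠ 0 → IsUnit x) {g g' : A}
    (h1 : g * g' = 1) (h2 : g' * g = 1) (x : A) (hx : x * (g * I * g') = g * I * g' * x)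
    (h0 : x ≠ 0) : IsUnit x :=
  cent_conj hC ⟨g, g', h1, h2⟩ x hx h0

end cent

variable {k A : Type} [Field k] [GFF k] [Ring A] [StarRing A] [Nontrivial A] [Algebra k A]

/-- **(R5) STEP in characteristic two**, in the letters of the reduction. -/
theorem step2X (h2 : (2 : k) = 0) (hst : ∀ (c : k) (x : A), star (c • x) = c • star x)
    (hA : ∀ x : A, star x * x = 0 → x = 0) {N : ℕ} (B : Basis (Fin N) k A) (ν : k) (I : A)
    {Q : Set A} (h1Q : (1 : A) ∈ Q) {T₀ : Finset (Place k)} {ε₀ : ℝ} (hε₀ : 0 < ε₀)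
    (hQ : HQ1F2 k B T₀ ε₀ Q) {S₀ : Finset (Place k)} (hT₀ : T₀ ⊆ S₀)
    (hS₀ : S₀.Nonempty) (hgood : ∀ v ∉ S₀, v.abv ν ≤ 1 ∧ Gd B v) {θ : ℝ} (hθ : 0 < θ) :
    ∃ κ : ℝ, 0 < κ ∧ ∀ i₁ ∈ Xs A ν, ∀ i₂ ∈ Xs A ν,
      (∀ x : A, x * i₁ = i₁ * x → x ≠ 0 → IsUnit x) →
      (∀ v ∈ S₀, Sm B v κ (i₁ - I) ∧ Sm B v κ (i₂ - I)) →
      (∀ v ∉ S₀, ¬ Spl2 v ν → Un B v (i₁ + i₂ + 1)) →
      ∃ x ∈ Q, x * i₁ = i₂ * x ∧ ∀ v ∈ S₀, Sm B v θ (x - 1) := by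
  obtain ⟨κ, hκ, h⟩ := step2R h2 hst hA B ν I h1Q hε₀ hQ hS₀ hT₀ hgood hθ
  refine ⟨κ, hκ, fun i₁ h1 i₂ h3 hC hn hu => h i₁ i₂ h1.1 h1.2 h3.1 h3.2 hC hn
    fun v hv hs => ⟨(hu v hv hs).1, fun w hw1 hw2 => ?_⟩⟩
  obtain ⟨-, y, hy1, hy2, hy⟩ := hu v hv hs
  have e : w = y := by
    calc w = w * ((i₁ + i₂ + 1) * y) := by rw [hy1, mul_one]
      _ = y := by rw [← mul_assoc, hw2, one_mul]
  rw [e]
  exact hy

/-- **(R5) STEP in characteristic two**, for anisotropic involutions of the second kind. -/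
theorem step2A {k K A : Type} [Field k] [GFF k] [Field K] [StarRing K] [Ring A] [StarRing A]
    [Algebra k K] [Algebra k A] [Algebra K A] [IsScalarTower k K A] [StarModule K A] {n : ℕ}
    (h2 : (2 : k) = 0) (hA : Anis k K A n) {N : ℕ} (B : Basis (Fin N) k A) (ν : k) (I : A)
    {Q : Set A} (h1Q : (1 : A) ∈ Q) {T₀ : Finset (Place k)} {ε₀ : ℝ} (hε₀ : 0 < ε₀)
    (hQ : HQ1F2 k B T₀ ε₀ Q) {S₀ : Finset (Place k)} (hT₀ : T₀ ⊆ S₀)
    (hS₀ : S₀.Nonempty) (hgood : ∀ v ∉ S₀, v.abv ν ≤ 1 ∧ Gd B v) {θ : ℝ} (hθ : 0 < θ) :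
    ∃ κ : ℝ, 0 < κ ∧ ∀ i₁ ∈ Xs A ν, ∀ i₂ ∈ Xs A ν,
      (∀ x : A, x * i₁ = i₁ * x → x ≠ 0 → IsUnit x) →
      (∀ v ∈ S₀, Sm B v κ (i₁ - I) ∧ Sm B v κ (i₂ - I)) →
      (∀ v ∉ S₀, ¬ Spl2 v ν → Un B v (i₁ + i₂ + 1)) →
      ∃ x ∈ Q, x * i₁ = i₂ * x ∧ ∀ v ∈ S₀, Sm B v θ (x - 1) := by
  have _ := hA.simple
  have _ : Nontrivial A := IsSimpleRing.instNontrivial
  refine step2X h2 (fun c x => ?_) hA.anisotropic B ν I h1Q hε₀ hQ hT₀ hS₀ hgood hθ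
  rw [← algebraMap_smul K c x, star_smul, (hA.fixed _).mpr ⟨c, rfl⟩, algebraMap_smul]

end Vale.Agent.P011.H961.C2
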