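import Vale.Agent.P011.H976.FF.QuatF
import Vale.Agent.P011.H63.FBase

/-!
# The quaternion algebra of two antisymmetric square roots of one element
-/

open Module Polynomial

set_option linter.unusedSectionVars false

namespace Vale.Agent.P011.H961.R5

open Vale.Agent.P011.H976.FF
open Vale.Agent.P011.H63.FB (incF)

variable {k D : Type} [Field k] [DivisionRing D] [StarRing D] [Algebra k D]

/-- Two antisymmetric square roots of `δ`. -/
structure Two (δ : kˣ) (a b : D) : Prop where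
  sa : star a = -a
  sb : star b = -b
  aa : a * a = algebraMap k D δ
  bb : b * b = algebraMap k D δ

namespace Two

variable {δ : kˣ} {a b : D} (h : Two δ a b)

include h

theorem a0 : a ≠ 0 := by
  rintro rfl
  have := h.aa
  rw [mul_zero, eq_comm, map_eq_zero] at this
  exact δ.ne_zero this

theorem za : (a + b) * a = b * (a + b) := by
  rw [add_mul, mul_add, h.aa, h.bb, add_comm]

theorem zb : (a + b) * b = a * (a + b) := by
  rw [add_mul, mul_add, h.aa, h.bb, add_comm]

theorem zza : (a + b) * (a + b) * a = a * ((a + b) * (a + b)) := by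
  rw [mul_assoc, h.za, ← mul_assoc, h.zb, mul_assoc]

theorem zzb : (a + b) * (a + b) * b = b * ((a + b) * (a + b)) := by
  rw [mul_assoc, h.zb, ← mul_assoc, h.za, mul_assoc]

theorem sz : star (a + b) = -(a + b) := by
  rw [star_add, h.sa, h.sb, neg_add]

theorem szz : star ((a + b) * (a + b)) = (a + b) * (a + b) := by
  rw [star_mul, h.sz, neg_mul_neg]

theorem zz : (a + b) * (a + b) = 2 * algebraMap k D δ + (a * b + b * a) := by
  rw [add_mul, mul_add, mul_add, h.aa, h.bb, two_mul]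
  abel

theorem sj : star (a * b - b * a) = -(a * b - b * a) := by
  rw [star_sub, star_mul, star_mul, h.sa, h.sb, neg_mul_neg, neg_mul_neg, neg_sub]

theorem aj : a * (a * b - b * a) = -((a * b - b * a) * a) := by
  have h1 : a * (a * b) = b * (a * a) := by
    rw [← mul_assoc, h.aa, Algebra.commutes]
  rw [mul_sub, sub_mul, h1]
  simp only [mul_assoc]
  abel

theorem jj : (a * b - b * a) * (a * b - b * a) =
    (a + b) * (a + b) * ((a + b) * (a + b) - 4 * algebraMap k D δ) := by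
  rw [h.zz]
  obtain ⟨e, he⟩ : ∃ e, e = algebraMap k D (δ : k) := ⟨_, rfl⟩
  have hc : ∀ x : D, e * x = x * e := fun x => by rw [he]; exact Algebra.commutes _ _
  have h1 : a * b * (b * a) = e * e := by
    rw [mul_assoc, ← mul_assoc b b a, h.bb, ← he, hc a, ← mul_assoc, h.aa, ← he]
  have h2 : b * a * (a * b) = e * e := by
    rw [mul_assoc, ← mul_assoc a a b, h.aa, ← he, hc b, ← mul_assoc, h.bb, ← he]
  rw [← he]
  have l : (a * b - b * a) * (a * b - b * a) =
      a * b * (a * b) + b * a * (b * a) - a * b * (b * a) - b * a * (a * b) := by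
    noncomm_ring
  have r : (2 * e + (a * b + b * a)) * (2 * e + (a * b + b * a) - 4 * e) =
      a * b * (a * b) + b * a * (b * a) + (a * b * (b * a) + b * a * (a * b)) - 4 * (e * e) +
        2 * (e * (a * b + b * a) - (a * b + b * a) * e) := by
    noncomm_ring
  rw [l, r, h1, h2, hc (a * b + b * a)]
  noncomm_ring

/-- The first product. -/
theorem two_za : 2 * ((a + b) * a) = (a + b) * (a + b) - (a * b - b * a) := by
  rw [h.zz, add_mul, h.aa]
  noncomm_ring

end Two

variable {F : Type} [Field F] [Algebra k F] {δ : kˣ} {a b : D}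

/-- The elements of the field commute with `a`, and they are symmetric. -/
theorem field_comm {ι : F →ₐ[k] D} {γ : F} (hgen : ∀ x : F, ∃ p : k[X], x = aeval γ p) {a : D}
    (ha : ι γ * a = a * ι γ) (x : F) : ι x * a = a * ι x := by
  obtain ⟨p, rfl⟩ := hgen x
  rw [← aeval_algHom_apply]
  induction p using Polynomial.induction_on' with
  | add p q hp hq => rw [map_add, add_mul, mul_add, hp, hq]
  | monomial n c =>
    have hp : ι γ ^ n * a = a * ι γ ^ n := (Commute.pow_left (show Commute (ι γ) a from ha) n)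
    rw [aeval_monomial, mul_assoc, hp, ← mul_assoc, Algebra.commutes, mul_assoc]

theorem field_sym (hst : ∀ (c : k) (x : D), star (c • x) = c • star x) {ι : F →ₐ[k] D} {γ : F}
    (hgen : ∀ x : F, ∃ p : k[X], x = aeval γ p) (hs : star (ι γ) = ι γ) (x : F) :
    star (ι x) = ι x := by
  obtain ⟨p, rfl⟩ := hgen x
  rw [← aeval_algHom_apply]
  induction p using Polynomial.induction_on' with
  | add p q hp hq => rw [map_add, star_add, hp, hq]
  | monomial n c =>
    rw [aeval_monomial, ← Algebra.smul_def, hst, star_pow, hs]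

/-- The frame. -/
theorem exists_frame (hst : ∀ (c : k) (x : D), star (c • x) = c • star x) (h : Two δ a b)
    {ι : F →ₐ[k] D} {γ : F} (hγ : ι γ = (a + b) * (a + b))
    (hgen : ∀ x : F, ∃ p : k[X], x = aeval γ p) {β : Fˣ}
    (hβ : (β : F) = γ * (γ - 4 * algebraMap k F δ)) :
    QFrF ι (incF k F δ) β a (a * b - b * a) := by
  have hca : ∀ x : F, ι x * a = a * ι x := field_comm hgen (by rw [hγ, h.zza])
  have hcb : ∀ x : F, ι x * b = b * ι x := field_comm hgen (by rw [hγ, h.zzb])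
  refine ⟨field_sym hst hgen (by rw [hγ, h.szz]), h.sa, h.sj, ?_, ?_, h.aj, hca, ?_⟩
  · rw [h.aa]
    change _ = ι (algebraMap k F δ)
    rw [AlgHom.commutes]
  · rw [h.jj, hβ, map_mul, map_sub, map_mul, hγ, AlgHom.commutes, map_ofNat]
  · intro x
    rw [mul_sub, sub_mul, ← mul_assoc, hca, mul_assoc, hcb, ← mul_assoc, ← mul_assoc (ι x) b a,
      hcb, mul_assoc b, hca, ← mul_assoc]

/-- The element which conjugates `a` to `b`. -/
theorem exists_elt (hst : ∀ (c : k) (x : D), star (c • x) = c • star x) (h2 : (2 : k) ≠ 0)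
    (h : Two δ a b) {ι : F →ₐ[k] D} {γ : F} (hγ : ι γ = (a + b) * (a + b)) (hz : a + b ≠ 0)
    (hgen : ∀ x : F, ∃ p : k[X], x = aeval γ p) {β : Fˣ}
    (hβ : (β : F) = γ * (γ - 4 * algebraMap k F δ)) {p₀ p₁ : F}
    (hp : p₀ ^ 2 - algebraMap k F δ * p₁ ^ 2 = γ / (4 * algebraMap k F δ)) :
    ∃ ν : D, QEltF ι (incF k F δ) β a (a * b - b * a) p₀ p₁ (-(p₀ / γ)) (p₁ / γ) ν ∧
      ν * a = b * ν ∧ ν = 2 * ((a + b)⁻¹ * (a * (ι p₀ + ι p₁ * a))) := by
  have hfr := exists_frame hst h hγ hgen hβ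
  have hca := hfr.ci
  have h2F : (2 : F) ≠ 0 := by
    rw [← map_ofNat (algebraMap k F) 2]
    exact (_root_.map_ne_zero _).mpr h2
  have h2D : (2 : D) ≠ 0 := by
    rw [← map_ofNat (algebraMap k D) 2]
    exact (_root_.map_ne_zero _).mpr h2
  have hγ0 : γ ≠ 0 := by
    rintro rfl
    rw [map_zero] at hγ
    exact mul_ne_zero hz hz hγ.symm
  have hδ0 : algebraMap k F (δ : k) ≠ 0 := (_root_.map_ne_zero _).mpr δ.ne_zero
  have h4F : (4 : F) ≠ 0 := by
    have : (4 : F) = 2 * 2 := by norm_num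
    rw [this]
    exact mul_ne_zero h2F h2F
  obtain ⟨j, hj⟩ : ∃ j, j = a * b - b * a := ⟨_, rfl⟩
  obtain ⟨z, hzd⟩ : ∃ z, z = a + b := ⟨_, rfl⟩
  have hzz : z * z = ι γ := by rw [hγ, hzd]
  have hza : 2 * (z * a) = ι γ - j := by rw [hγ, hzd, hj, h.two_za]
  have hzab : z * a = b * z := by rw [hzd, h.za]
  have hcz : ∀ x : F, ι x * z = z * ι x := by
    refine field_comm hgen ?_
    rw [← hzz, mul_assoc]
  rw [← hj] at hfr ⊢
  rw [← hzd] at hz ⊢
  have haa : a * a = ι (algebraMap k F δ) := by rw [h.aa, AlgHom.commutes]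
  -- the element
  obtain ⟨x, hx⟩ : ∃ x : F, x = 2 * algebraMap k F δ * p₁ / γ := ⟨_, rfl⟩
  obtain ⟨y, hy⟩ : ∃ y : F, y = 2 * p₀ / γ := ⟨_, rfl⟩
  have hi2 : ∀ u v : D, 2 * u = 2 * v → u = v := fun u v huv => mul_left_cancel₀ h2D huv
  have h2c : ∀ u : D, 2 * u = u * 2 := fun u => by rw [two_mul, mul_two]
  have hι2 : ι (2 : F) = 2 := map_ofNat ι 2
  refine ⟨z * (ι x + ι y * a), ⟨hfr, ?_, ?_⟩, ?_, ?_⟩
  · -- the norm
    have e : p₀ ^ 2 - (incF k F δ : Fˣ) * p₁ ^ 2 - β * (-(p₀ / γ)) ^ 2 +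
        (incF k F δ : Fˣ) * β * (p₁ / γ) ^ 2 =
        (p₀ ^ 2 - algebraMap k F δ * p₁ ^ 2) * (1 - β / γ ^ 2) := by
      change p₀ ^ 2 - algebraMap k F δ * p₁ ^ 2 - β * (-(p₀ / γ)) ^ 2 +
        algebraMap k F δ * β * (p₁ / γ) ^ 2 = _
      field_simp
      ring
    rw [e, hp, hβ]
    field_simp
    ring
  · -- the expansion
    have e1 : z * (ι y * a) = ι p₀ + ι (-(p₀ / γ)) * j := by
      apply hi2
      have h3 : 2 * (z * (ι y * a)) = ι y * (2 * (z * a)) := by
        rw [← mul_assoc z, ← hcz, mul_assoc, ← mul_assoc 2, h2c (ι y), mul_assoc]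
      rw [h3, hza, hy, mul_sub, ← map_mul]
      have h4 : 2 * p₀ / γ * γ = 2 * p₀ := by field_simp
      rw [h4, mul_add, map_neg, neg_mul, mul_neg, ← sub_eq_add_neg, map_mul, hι2,
        mul_div_assoc, map_mul, hι2, mul_assoc]
    have e2 : z * ι x = ι p₁ * a + ι (p₁ / γ) * (a * j) := by
      apply hi2
      have hai : a * ι ((algebraMap k F δ)⁻¹) * a = 1 := by
        rw [← hca, mul_assoc, haa, ← map_mul, inv_mul_cancel₀ hδ0, map_one]
      have h3 : 2 * (z * ι x) = 2 * (z * a) * a * ι (x * (algebraMap k F δ)⁻¹) := by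
        have h5 : a * a * ι (x * (algebraMap k F δ)⁻¹) = ι x := by
          rw [haa, ← map_mul]
          congr 1
          field_simp
        have h9 : 2 * (z * a) * a * ι (x * (algebraMap k F δ)⁻¹) =
            2 * (z * (a * a * ι (x * (algebraMap k F δ)⁻¹))) := by
          simp only [mul_assoc]
        rw [h9, h5]
      have h6 : x * (algebraMap k F δ)⁻¹ = 2 * p₁ / γ := by
        rw [hx]
        field_simp
      rw [h3, hza, h6, sub_mul, sub_mul]
      have h7 : ι γ * a * ι (2 * p₁ / γ) = 2 * (ι p₁ * a) := by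
        rw [hca, mul_assoc, ← map_mul]
        have : γ * (2 * p₁ / γ) = 2 * p₁ := by field_simp
        rw [this, ← hca, map_mul, hι2, mul_assoc]
      have h8 : j * a * ι (2 * p₁ / γ) = -(2 * (ι (p₁ / γ) * (a * j))) := by
        have hja : j * a = -(a * j) := by rw [hfr.ij, neg_neg]
        rw [hja, neg_mul, mul_assoc, ← hfr.cj, ← mul_assoc, ← hca, mul_assoc,
          mul_div_assoc, map_mul, hι2, mul_assoc]
      rw [h7, h8, sub_neg_eq_add, mul_add]
    change z * (ι x + ι y * a) = ι p₀ + ι p₁ * a + ι (-(p₀ / γ)) * j + ι (p₁ / γ) * (a * j)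
    rw [mul_add, e1, e2]
    abel
  · -- the conjugation
    have h3 : (ι x + ι y * a) * a = a * (ι x + ι y * a) := by
      rw [add_mul, mul_add, ← mul_assoc a (ι y) a, ← hca, ← hca]
    rw [mul_assoc, h3, ← mul_assoc, hzab, mul_assoc]
  · -- the second form
    have h3 : a * (ι p₀ + ι p₁ * a) = ι p₀ * a + ι (algebraMap k F δ * p₁) := by
      rw [mul_add, ← hca, ← mul_assoc a, ← hca, mul_assoc, haa, ← map_mul, mul_comm p₁]
    have h4 : z * (2 * (z⁻¹ * (a * (ι p₀ + ι p₁ * a)))) =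
        z * (z * (ι x + ι y * a)) := by
      rw [← mul_assoc z 2, ← h2c, mul_assoc, ← mul_assoc z z⁻¹, mul_inv_cancel₀ hz, one_mul, h3,
        ← mul_assoc z z, hzz, mul_add, mul_add, ← mul_assoc (ι γ), ← map_mul, ← map_mul, hx, hy]
      have h5 : γ * (2 * algebraMap k F δ * p₁ / γ) = 2 * (algebraMap k F δ * p₁) := by
        field_simp
      have h6 : γ * (2 * p₀ / γ) = 2 * p₀ := by field_simp
      rw [h5, h6, map_mul ι 2 (algebraMap k F δ * p₁), hι2, map_mul ι 2 p₀, hι2, mul_assoc,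
        add_comm]
    exact (mul_left_cancel₀ hz h4).symm

end Vale.Agent.P011.H961.R5
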