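import Vale.Agent.P011.H63.FBase
import Vale.Agent.P011.H698.DensFF

/-!
# Approximation on a norm conic over a global function field
-/

open Module

set_option linter.unusedSectionVars false

namespace Vale.Agent.P011.H961

open Vale.Agent.P011.H738 Vale.Agent.P011.H271 Vale.Agent.P011.H63.FB

variable {F : Type} [Field F] [GFF F]

/-- The first coordinate of `(x + y √d) (a + b √d) / (a - b √d)`. -/
theorem norm_conic {L : Type*} [Field L] {d x y a b c : L} (h : x ^ 2 - d * y ^ 2 = c)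
    (h0 : a ^ 2 - d * b ^ 2 ≠ 0) :
    ((x * (a ^ 2 + d * b ^ 2) + 2 * d * y * a * b) / (a ^ 2 - d * b ^ 2)) ^ 2 -
      d * ((y * (a ^ 2 + d * b ^ 2) + 2 * x * a * b) / (a ^ 2 - d * b ^ 2)) ^ 2 = c := by
  rw [← h]
  field_simp
  ring

/-- **Approximation on a norm conic.** -/
theorem norm_nearF (h2 : (2 : F) ≠ 0) {d : Fˣ} {c x y : F} (h : x ^ 2 - d * y ^ 2 = c)
    {S : Set (Place F)} (hS : S.Finite) (hd : ∀ ω ∈ S, d ∉ LSF ω)
    (hc : ∀ ω ∈ S, ω.abv (c - 1) < 1) :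
    ∃ p₀ p₁ : F, p₀ ^ 2 - d * p₁ ^ 2 = c ∧ ∀ ω ∈ S, ω.abv (2 - 2 * p₀) < 1 := by
  classical
  rcases S.eq_empty_or_nonempty with rfl | ⟨ω0, hω0⟩
  · exact ⟨x, y, h, fun ω hω => absurd hω (Set.notMem_empty ω)⟩
  -- the local solutions
  have hloc : ∀ ω : Place F, ∃ (a b : ω.comp), ω ∈ S →
      a ^ 2 - algebraMap F ω.comp d * b ^ 2 ≠ 0 ∧
      ‖(algebraMap F ω.comp x * (a ^ 2 + algebraMap F ω.comp d * b ^ 2) +
        2 * algebraMap F ω.comp d * algebraMap F ω.comp y * a * b) /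
        (a ^ 2 - algebraMap F ω.comp d * b ^ 2) - 1‖ < 1 := by
    intro ω
    by_cases hω : ω ∈ S
    swap
    · exact ⟨0, 0, fun h => absurd h hω⟩
    obtain ⟨D, hD⟩ : ∃ D, D = algebraMap F ω.comp (d : F) := ⟨_, rfl⟩
    obtain ⟨X, hX⟩ : ∃ X, X = algebraMap F ω.comp x := ⟨_, rfl⟩
    obtain ⟨Y, hY⟩ : ∃ Y, Y = algebraMap F ω.comp y := ⟨_, rfl⟩
    rw [← hD, ← hX, ← hY]
    have hns : ¬ IsSquare D := by
      rw [hD]
      exact hd ω hω
    have hne : ∀ a b : ω.comp, a ≠ 0 ∨ b ≠ 0 → a ^ 2 - D * b ^ 2 ≠ 0 := by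
      intro a b hab h0
      by_cases hb : b = 0
      · rw [hb, zero_pow two_ne_zero, mul_zero, sub_zero] at h0
        rcases hab with ha | hb'
        · exact ha (pow_eq_zero_iff two_ne_zero |>.mp h0)
        · exact hb' hb
      · refine hns ⟨a / b, ?_⟩
        field_simp
        linear_combination -h0
    have hN : X ^ 2 - D * Y ^ 2 = algebraMap F ω.comp c := by
      rw [hX, hY, hD, ← h]
      simp only [map_sub, map_mul, map_pow]
    have hcn : ‖algebraMap F ω.comp c - 1‖ < 1 := by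
      rw [← map_one (algebraMap F ω.comp), ← map_sub, norm_alg]
      exact hc ω hω
    -- the square root near one
    obtain ⟨c0, hc0, hc1⟩ : ∃ c0 : ω.comp, c0 ^ 2 = algebraMap F ω.comp c ∧ ‖c0 - 1‖ < 1 := by
      obtain ⟨e, he⟩ := isSquare_of_near ω h2 hcn
      have h3 : (e - 1) * (e + 1) = algebraMap F ω.comp c - 1 := by
        rw [he]
        ring
      have h4 : ‖e - 1‖ * ‖e + 1‖ < 1 := by
        rw [← norm_mul, h3]
        exact hcn
      by_cases h5 : ‖e - 1‖ < 1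
      · exact ⟨e, by rw [he, sq], h5⟩
      · refine ⟨-e, by rw [he]; ring, ?_⟩
        have h6 : -e - 1 = -(e + 1) := by ring
        rw [h6, norm_neg]
        by_contra h7
        rw [not_lt] at h5 h7
        nlinarith [norm_nonneg (e - 1), norm_nonneg (e + 1)]
    by_cases hab : c0 + X = 0 ∧ Y = 0
    · refine ⟨0, 1, fun _ => ⟨hne 0 1 (Or.inr one_ne_zero), ?_⟩⟩
      have hX' : X = -c0 := by linear_combination hab.1
      have hD0 : D ≠ 0 := by
        rintro rfl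
        exact hns IsSquare.zero
      have e : (X * (0 ^ 2 + D * 1 ^ 2) + 2 * D * Y * 0 * 1) / (0 ^ 2 - D * 1 ^ 2) = c0 := by
        rw [hX', hab.2, div_eq_iff (hne 0 1 (Or.inr one_ne_zero))]
        ring
      rw [e]
      exact hc1
    · have hab' : c0 + X ≠ 0 ∨ -Y ≠ 0 := by
        by_contra hcon
        push Not at hcon
        exact hab ⟨hcon.1, neg_eq_zero.mp hcon.2⟩
      have h0 := hne _ _ hab'
      refine ⟨c0 + X, -Y, fun _ => ⟨h0, ?_⟩⟩
      have e : (X * ((c0 + X) ^ 2 + D * (-Y) ^ 2) + 2 * D * Y * (c0 + X) * -Y) /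
          ((c0 + X) ^ 2 - D * (-Y) ^ 2) = c0 := by
        rw [div_eq_iff h0]
        have h3 : X ^ 2 - D * Y ^ 2 = c0 ^ 2 := by rw [hN, hc0]
        linear_combination (X + c0) * h3
      rw [e]
      exact hc1
  choose a b hab using hloc
  -- the neighbourhoods
  have hnb : ∀ ω : Place F, ∃ δ : ℝ, 0 < δ ∧ (ω ∈ S → ∀ a' b' : ω.comp, ‖a' - a ω‖ < δ →
      ‖b' - b ω‖ < δ → a' ^ 2 - algebraMap F ω.comp d * b' ^ 2 ≠ 0 ∧
      ‖(algebraMap F ω.comp x * (a' ^ 2 + algebraMap F ω.comp d * b' ^ 2) +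
        2 * algebraMap F ω.comp d * algebraMap F ω.comp y * a' * b') /
        (a' ^ 2 - algebraMap F ω.comp d * b' ^ 2) - 1‖ < 1) := by
    intro ω
    by_cases hω : ω ∈ S
    swap
    · exact ⟨1, one_pos, fun h => absurd h hω⟩
    obtain ⟨h0, h1⟩ := hab ω hω
    have hden : ContinuousAt (fun p : ω.comp × ω.comp =>
        p.1 ^ 2 - algebraMap F ω.comp d * p.2 ^ 2) (a ω, b ω) := by fun_prop
    have hnum : ContinuousAt (fun p : ω.comp × ω.comp =>
        algebraMap F ω.comp x * (p.1 ^ 2 + algebraMap F ω.comp d * p.2 ^ 2) +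
        2 * algebraMap F ω.comp d * algebraMap F ω.comp y * p.1 * p.2) (a ω, b ω) := by fun_prop
    have hf : ContinuousAt (fun p : ω.comp × ω.comp =>
        ‖(algebraMap F ω.comp x * (p.1 ^ 2 + algebraMap F ω.comp d * p.2 ^ 2) +
        2 * algebraMap F ω.comp d * algebraMap F ω.comp y * p.1 * p.2) /
        (p.1 ^ 2 - algebraMap F ω.comp d * p.2 ^ 2) - 1‖) (a ω, b ω) :=
      ((hnum.div hden h0).sub continuousAt_const).norm
    have hev : ∀ᶠ p : ω.comp × ω.comp in nhds (a ω, b ω),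
        p.1 ^ 2 - algebraMap F ω.comp d * p.2 ^ 2 ≠ 0 ∧
        ‖(algebraMap F ω.comp x * (p.1 ^ 2 + algebraMap F ω.comp d * p.2 ^ 2) +
        2 * algebraMap F ω.comp d * algebraMap F ω.comp y * p.1 * p.2) /
        (p.1 ^ 2 - algebraMap F ω.comp d * p.2 ^ 2) - 1‖ < 1 :=
      (hden.eventually_ne h0).and (hf.eventually (gt_mem_nhds h1))
    obtain ⟨δ, hδ, h3⟩ := Metric.eventually_nhds_iff.mp hev
    refine ⟨δ, hδ, fun _ a' b' ha' hb' => h3 (y := (a', b')) ?_⟩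
    rw [Prod.dist_eq]
    exact max_lt (by rw [dist_eq_norm]; exact ha') (by rw [dist_eq_norm]; exact hb')
  choose δ hδ hδS using hnb
  obtain ⟨δ0, hδ0, hδ0S⟩ : ∃ δ0 : ℝ, 0 < δ0 ∧ ∀ ω ∈ S, δ0 ≤ δ ω := by
    obtain ⟨ω1, hω1, hmin⟩ := Set.exists_min_image S δ hS ⟨ω0, hω0⟩
    exact ⟨δ ω1, hδ ω1, hmin⟩
  obtain ⟨a1, ha1⟩ := H698.place_weak hS.toFinset (fun ω => a ω) hδ0
  obtain ⟨b1, hb1⟩ := H698.place_weak hS.toFinset (fun ω => b ω) hδ0
  have hkey : ∀ ω ∈ S, a1 ^ 2 - d * b1 ^ 2 ≠ 0 ∧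
      ω.abv ((x * (a1 ^ 2 + d * b1 ^ 2) + 2 * d * y * a1 * b1) / (a1 ^ 2 - d * b1 ^ 2) - 1) < 1 := by
    intro ω hω
    have h3 := ha1 ⟨ω, hS.mem_toFinset.mpr hω⟩
    have h4 := hb1 ⟨ω, hS.mem_toFinset.mpr hω⟩
    obtain ⟨h5, h6⟩ := hδS ω hω _ _ (h3.trans_le (hδ0S ω hω)) (h4.trans_le (hδ0S ω hω))
    have e1 : algebraMap F ω.comp a1 ^ 2 - algebraMap F ω.comp d * algebraMap F ω.comp b1 ^ 2 =
        algebraMap F ω.comp (a1 ^ 2 - d * b1 ^ 2) := by
      simp only [map_sub, map_mul, map_pow]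
    have e2 : (algebraMap F ω.comp x * (algebraMap F ω.comp a1 ^ 2 +
        algebraMap F ω.comp d * algebraMap F ω.comp b1 ^ 2) +
        2 * algebraMap F ω.comp d * algebraMap F ω.comp y * algebraMap F ω.comp a1 *
          algebraMap F ω.comp b1) /
        (algebraMap F ω.comp a1 ^ 2 - algebraMap F ω.comp d * algebraMap F ω.comp b1 ^ 2) - 1 =
        algebraMap F ω.comp ((x * (a1 ^ 2 + d * b1 ^ 2) + 2 * d * y * a1 * b1) /
          (a1 ^ 2 - d * b1 ^ 2) - 1) := by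
      simp only [map_sub, map_mul, map_pow, map_add, map_div₀, map_ofNat, map_one]
    refine ⟨fun h0 => h5 ?_, ?_⟩
    · rw [e1, h0, map_zero]
    · rw [e2, norm_alg] at h6
      exact h6
  obtain ⟨h0, -⟩ := hkey ω0 hω0
  refine ⟨_, _, norm_conic h h0, fun ω hω => ?_⟩
  have h3 := (hkey ω hω).2
  have e : 2 - 2 * ((x * (a1 ^ 2 + d * b1 ^ 2) + 2 * d * y * a1 * b1) / (a1 ^ 2 - d * b1 ^ 2)) =
      -2 * ((x * (a1 ^ 2 + d * b1 ^ 2) + 2 * d * y * a1 * b1) / (a1 ^ 2 - d * b1 ^ 2) - 1) := by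
    ring
  rw [e, map_mul, AbsoluteValue.map_neg, abv_two ω h2, one_mul]
  exact h3

end Vale.Agent.P011.H961
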