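import Vale.Agent.P011.H519.R2Spec
import Vale.Agent.P011.H279.R2Base
import Vale.Agent.P011.H167.LfD
import Vale.Agent.P011.H961.NormNearF
import Vale.Agent.P011.Two.Step

/-!
# Rank two over function fields: rotations

If the product of two unit vectors is, at every place where the centre does not split, either a
unit or nearly unitary, then the lines of the two vectors are in one orbit.
-/

open Module Polynomial

set_option linter.unusedSectionVars false

namespace Vale.Agent.P011.H961.SF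

open Vale.Agent.P011.H738 Vale.Agent.P011.H271 Vale.Agent.P011.H182 Vale.Agent.P011.H305
  Vale.Agent.P011.H158.N4 Vale.Agent.P011.H63.FB Vale.Agent.P011.H279.RB
open Vale.Agent.P011.Two (hh An hh_add_left hh_sub_left hh_smul_left hh_add_right hh_sub_right
  hh_smul_right hh_star exists_basis)
open Vale.Agent.P011.H519.R2 (PlaneEltF HQF)
open Vale.Agent.P011.Arith (NF)
open Vale.Agent.P011.Even (inc)
open Vale.Agent.P011.H929.FF (star_k star_delta)
open Vale.Agent.P011.H271.S3 (Ab)

section plane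

variable {k K D : Type} [Field k] [Field K] [StarRing K]
  [DivisionRing D] [StarRing D] [Algebra k K] [Algebra k D] [Algebra K D] [IsScalarTower k K D]
  {d : kˣ} {s : K}

theorem sq_sDF (hS : SetF k K D d s) :
    algebraMap K D s * algebraMap K D s = algebraMap k D d := by
  rw [← map_mul, ← sq, hS.sq, ← IsScalarTower.algebraMap_apply]

variable {F : Type} [Field F] [Algebra k F] (ι : F →ₐ[k] D)

/-- The element `p₀ + p₁ s` -/
def lcF (s : K) (p₀ p₁ : F) : D := ι p₀ + ι p₁ * algebraMap K D s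

theorem lcF_mul (hS : SetF k K D d s) (p₀ p₁ q₀ q₁ : F) :
    lcF ι s p₀ p₁ * lcF ι s q₀ q₁ =
      lcF ι s (p₀ * q₀ + algebraMap k F d * (p₁ * q₁)) (p₀ * q₁ + p₁ * q₀) := by
  unfold lcF
  have hc : ∀ x : D, algebraMap K D s * x = x * algebraMap K D s := fun x =>
    Algebra.commutes s x
  have h1 : ι p₁ * algebraMap K D s * (ι q₁ * algebraMap K D s) =
      algebraMap k D d * (ι p₁ * ι q₁) := by
    rw [mul_assoc, ← mul_assoc (algebraMap K D s), hc (ι q₁), mul_assoc (ι q₁), sq_sDF hS,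
      ← mul_assoc, Algebra.commutes]
  simp only [map_add, map_mul, AlgHom.commutes]
  rw [add_mul, mul_add, mul_add, h1, mul_assoc (ι p₁) (algebraMap K D s) (ι q₀), hc (ι q₀)]
  noncomm_ring

theorem lcF_zero_right (p : F) : lcF ι s p 0 = ι p := by simp [lcF]

theorem lcF_add (p₀ p₁ q₀ q₁ : F) :
    lcF ι s p₀ p₁ + lcF ι s q₀ q₁ = lcF ι s (p₀ + q₀) (p₁ + q₁) := by
  unfold lcF
  rw [map_add, map_add, add_mul]
  abel

theorem lcF_neg (p₀ p₁ : F) : -lcF ι s p₀ p₁ = lcF ι s (-p₀) (-p₁) := by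
  unfold lcF
  rw [map_neg, map_neg, neg_mul]
  abel

theorem lcF_one : lcF ι s (1 : F) 0 = 1 := by simp [lcF]

/-- Existence of the plane elements. -/
theorem exists_rotF (hS : SetF k K D d s) {g : D} (hg : star g = g) (han : An g)
    (sym : ∀ x, star (ι x) = ι x) (b : Fˣ) (p₀ p₁ q₀ q₁ : F) {y w : D × D}
    (yy : hh g y y = 1) (yw : hh g y w = 0) (ww : hh g w w = ι b)
    (nrm : p₀ ^ 2 - algebraMap k F d * p₁ ^ 2 + b * (q₀ ^ 2 - algebraMap k F d * q₁ ^ 2) = 1) :
    ∃ u : (D × D) ≃ₗ[D] (D × D), PlaneEltF d s g ι b p₀ p₁ q₀ q₁ y w u := by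
  have hy : y ≠ 0 := by
    rintro rfl
    simp [hh] at yy
  have hw : w ≠ 0 := by
    rintro rfl
    have : ι (b : F) ≠ 0 := by
      rw [ne_eq, map_eq_zero]
      exact b.ne_zero
    apply this
    rw [← ww]
    simp [hh]
  obtain ⟨E, hE⟩ := exists_basis hg han hy hw yw
  set P := lcF ι s p₀ p₁ with hP
  set Q := lcF ι s q₀ q₁ with hQ
  set P' := lcF ι s p₀ (-p₁) with hP'
  set R := lcF ι s (-(b * q₀)) (b * q₁) with hR
  have e1 : P * P' - Q * R = 1 := by
    rw [sub_eq_add_neg, hP, hP', hQ, hR, lcF_mul ι hS, lcF_mul ι hS, lcF_neg, lcF_add,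
      ← lcF_one ι (s := s)]
    congr 1
    · linear_combination nrm
    · ring
  have e1' : P' * P - R * Q = 1 := by
    rw [sub_eq_add_neg, hP, hP', hQ, hR, lcF_mul ι hS, lcF_mul ι hS, lcF_neg, lcF_add,
      ← lcF_one ι (s := s)]
    congr 1
    · linear_combination nrm
    · ring
  have e1a : P' * P - Q * R = 1 := by
    rw [sub_eq_add_neg, hP, hP', hQ, hR, lcF_mul ι hS, lcF_mul ι hS, lcF_neg, lcF_add,
      ← lcF_one ι (s := s)]
    congr 1
    · linear_combination nrm
    · ring
  have e1b : P * P' - R * Q = 1 := by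
    rw [sub_eq_add_neg, hP, hP', hQ, hR, lcF_mul ι hS, lcF_mul ι hS, lcF_neg, lcF_add,
      ← lcF_one ι (s := s)]
    congr 1
    · linear_combination nrm
    · ring
  have e2 : P * Q = Q * P := by
    rw [hP, hQ, lcF_mul ι hS, lcF_mul ι hS]
    congr 1 <;> ring
  have e3 : P' * Q = Q * P' := by
    rw [hP', hQ, lcF_mul ι hS, lcF_mul ι hS]
    congr 1 <;> ring
  have e4 : P * R = R * P := by
    rw [hP, hR, lcF_mul ι hS, lcF_mul ι hS]
    congr 1 <;> ring
  have e5 : P' * R = R * P' := by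
    rw [hP', hR, lcF_mul ι hS, lcF_mul ι hS]
    congr 1 <;> ring
  let M : (D × D) ≃ₗ[D] (D × D) :=
    { toFun := fun x => (x.1 * P + x.2 * R, x.1 * Q + x.2 * P')
      invFun := fun x => (x.1 * P' - x.2 * R, x.2 * P - x.1 * Q)
      map_add' := by
        intro x y
        ext <;> simp only [Prod.fst_add, Prod.snd_add] <;> noncomm_ring
      map_smul' := by
        intro a x
        ext <;> simp only [Prod.smul_fst, Prod.smul_snd, smul_eq_mul, RingHom.id_apply] <;>
          noncomm_ring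
      left_inv := by
        rintro ⟨x, y⟩
        ext
        · change (x * P + y * R) * P' - (x * Q + y * P') * R = x
          have : (x * P + y * R) * P' - (x * Q + y * P') * R =
              x * (P * P' - Q * R) + y * (R * P' - P' * R) := by noncomm_ring
          rw [this, e1, e5, sub_self, mul_one, mul_zero, add_zero]
        · change (x * Q + y * P') * P - (x * P + y * R) * Q = y
          have : (x * Q + y * P') * P - (x * P + y * R) * Q =
              y * (P' * P - R * Q) + x * (Q * P - P * Q) := by noncomm_ring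
          rw [this, e1', e2, sub_self, mul_one, mul_zero, add_zero]
      right_inv := by
        rintro ⟨x, y⟩
        ext
        · change (x * P' - y * R) * P + (y * P - x * Q) * R = x
          have : (x * P' - y * R) * P + (y * P - x * Q) * R =
              x * (P' * P - Q * R) + y * (P * R - R * P) := by noncomm_ring
          rw [this, e1a, e4, sub_self, mul_one, mul_zero, add_zero]
        · change (x * P' - y * R) * Q + (y * P - x * Q) * P' = y
          have : (x * P' - y * R) * Q + (y * P - x * Q) * P' =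
              y * (P * P' - R * Q) + x * (P' * Q - Q * P') := by noncomm_ring
          rw [this, e1b, e3, sub_self, mul_one, mul_zero, add_zero] }
  have hEy : E (1, 0) = y := by rw [hE, one_smul, zero_smul, add_zero]
  have hEw : E (0, 1) = w := by rw [hE, one_smul, zero_smul, zero_add]
  refine ⟨E.symm.trans (M.trans E), ⟨sym, yy, yw, ww, nrm, ?_, ?_⟩⟩
  · rw [LinearEquiv.trans_apply, LinearEquiv.trans_apply, ← hEy, E.symm_apply_apply]
    have : M (1, 0) = (P, Q) := by
      change ((1 : D) * P + 0 * R, (1 : D) * Q + 0 * P') = (P, Q)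
      simp
    rw [this, hE, hEy]
    rfl
  · rw [LinearEquiv.trans_apply, LinearEquiv.trans_apply, ← hEw, E.symm_apply_apply]
    have : M (0, 1) = (R, P') := by
      change ((0 : D) * P + 1 * R, (0 : D) * Q + 1 * P') = (R, P')
      simp
    rw [this, hE, hEw, hR, hP']
    unfold lcF
    simp only [map_neg, map_mul]
    congr 2
    · noncomm_ring
    · noncomm_ring

end plane

section unitnorm

variable {F : Type} [Field F] [GFF F]

/-- Units are local norms from an unramified extension. -/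
theorem unit_normF (h2 : (2 : F) ≠ 0) {ω : Place F} {a b : Fˣ} (ha : ω.abv (a : F) = 1)
    (hb : ω.abv (b : F) = 1) : b ∈ NF a ⊔ LSF ω := by
  rw [← mem_LN_iff ω h2]
  exact H929.E.unit_rep (H929.E.oddLoc h2 ω) (a := algebraMap F ω.comp a)
    (b := algebraMap F ω.comp b) (by rw [norm_alg, ha]) (by rw [norm_alg, hb])

theorem bad_finiteF (h2 : (2 : F) ≠ 0) (a b : Fˣ) : {ω : Place F | b ∉ NF a ⊔ LSF ω}.Finite := by
  refine ((place_finite a.ne_zero).union (place_finite b.ne_zero)).subset fun ω hω => ?_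
  by_contra hcon
  rw [Set.mem_union, not_or] at hcon
  exact hω (unit_normF h2 (not_not.mp hcon.1) (not_not.mp hcon.2))

end unitnorm

variable {k K D : Type} [Field k] [GFF k] [Field K] [StarRing K]
  [DivisionRing D] [StarRing D] [Algebra k K] [Algebra k D] [Algebra K D] [IsScalarTower k K D]
  {d : kˣ} {s : K} {N : ℕ}

/-- **Rotations.** -/
theorem exists_step (hS : SetF k K D d s) (B : Basis (Fin N) k D) :
    ∃ ε : Place k → ℝ, (∀ v, 0 < ε v) ∧ ∀ (g : D) (_ : star g = g) (_ : An g)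
      (Q : Subgroup ((D × D) ≃ₗ[D] (D × D))) (_ : HQF d s g Q) (y y' : D × D)
      (_ : hh g y y = 1) (_ : hh g y' y' = 1) (_ : hh g y y' ≠ 0)
      (_ : ∀ v : Place k, SqAt (d : k) v ∨
        (v.abv (d : k) = 1 ∧ Gd B v.abv ∧ Ig B v.abv (hh g y y') ∧ Ig B v.abv (hh g y y')⁻¹) ∨
        na B v.abv (hh g y y' * star (hh g y y') - 1) < ε v),
      ∃ u ∈ Q, ∃ δ : D, δ ≠ 0 ∧ u y = δ • y' := by
  classical
  have hC := fun q : Place k => na_mul B q.abv
  choose C hC1 hCm using hC
  choose π hπ0 hπ1 using fun v : Place k => H167.Lf.exists_abv_lt v one_pos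
  refine ⟨fun v => v.abv (π v) / C v, fun v => div_pos (v.abv.pos (hπ0 v))
    (lt_of_lt_of_le one_pos (hC1 v)), ?_⟩
  intro g hg han Q hHQ y y' hy hy' hz hloc
  obtain ⟨ζ, hζ⟩ : ∃ ζ, ζ = hh g y y' := ⟨_, rfl⟩
  rw [← hζ] at hz hloc
  have hζ' : hh g y' y = star ζ := by rw [hζ, hh_star hg]
  by_cases h1 : ζ * star ζ = 1
  · have hz' : ζ • y' - y = 0 := by
      apply han
      rw [hh_sub_left, hh_sub_right, hh_sub_right, hh_smul_left, hh_smul_left, hh_smul_right,
        hh_smul_right, hy', hy, hζ', ← hζ, one_mul, h1]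
      abel
    exact ⟨1, Q.one_mem, ζ, hz, (sub_eq_zero.mp hz').symm⟩
  have hsz : star ζ ≠ 0 := star_ne_zero.mpr hz
  obtain ⟨E, _, _, _, _, j, γ, hγ, hgen⟩ := H167.Lf.exists_gen B (ζ * star ζ)
  have hc0 : ζ * star ζ ≠ 0 := mul_ne_zero hz hsz
  have hγ0 : γ ≠ 0 := by
    rintro rfl
    rw [map_zero] at hγ
    exact hc0 hγ.symm
  have hγ1 : 1 - γ ≠ 0 := by
    intro h0
    apply h1
    rw [← hγ, ← sub_eq_zero.mp h0, map_one]
  have h2E : (2 : E) ≠ 0 := two_ne_ext (F := k) hS.two_ne
  have hsc : star (ζ * star ζ) = ζ * star ζ := by rw [star_mul, star_star]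
  -- the field consists of symmetric elements
  have hstk : ∀ a : k, star (algebraMap k D a) = algebraMap k D a := fun a => by
    rw [Algebra.algebraMap_eq_smul_one, star_k hS, star_one]
  have sym : ∀ x : E, star (j x) = j x := by
    intro x
    obtain ⟨p, rfl⟩ := hgen x
    rw [← aeval_algHom_apply, hγ]
    induction p using Polynomial.induction_on' with
    | add p q hp hq => rw [map_add, star_add, hp, hq]
    | monomial n a =>
      rw [aeval_monomial, star_mul, hstk, star_pow, hsc, Algebra.commutes]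
  -- the three cases at a place
  have hcase : ∀ P : Place E, incF k E d ∈ LSF P ∨
      (P.abv (algebraMap k E d) = 1 ∧ P.abv γ = 1) ∨ P.abv (γ - 1) < 1 := by
    intro P
    obtain ⟨v, c, hc0, hc⟩ := Hey.H63.exists_below (k := k) P
    have hab : Ab P v := ⟨c, hc0, hc⟩
    rcases hloc v with hsq | ⟨hd, hB, hi, hi'⟩ | hn
    · left
      obtain ⟨α, hα⟩ := hsq
      exact LSF_map hS.two_ne hab ⟨α, by rw [← hα, sq]⟩
    · right; left
      refine ⟨by rw [hc, hd, Real.one_rpow], ?_⟩
      have hst : ∀ x : D, Ig B v.abv x → Ig B v.abv (star x) := fun x hx => hB.star (star_k hS) hx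
      have hpow : ∀ z : E, Ig B v.abv (j z) → ∀ n : ℕ, Ig B v.abv (j (z ^ (n + 1))) := by
        intro z hz n
        rw [map_pow]
        exact H167.Lf.ig_pow hB hz _
      have h5 := H929.FF.abv_le_one_of_pow B hc0 hc j
        (hpow γ (by rw [hγ]; exact hB.mul' hi (hst _ hi)))
      have h6 := H929.FF.abv_le_one_of_pow B hc0 hc j (hpow γ⁻¹ (by
        rw [map_inv₀, hγ, mul_inv_rev, ← star_inv₀]
        exact hB.mul' (hst _ hi') hi'))
      rw [map_inv₀, inv_le_one₀ (AbsoluteValue.pos _ hγ0)] at h6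
      exact le_antisymm h5 h6
    · right; right
      have h4 := H929.FF.abv_le_of_na B hc0 hc j (hC1 v) (hCm v) (c := π v) (hπ0 v)
        (x := γ - 1) (by
          rw [map_sub, map_one, hγ, mul_comm, ← le_div_iff₀ (lt_of_lt_of_le one_pos (hC1 _))]
          exact hn.le)
      refine lt_of_le_of_lt h4 ?_
      rw [hc]
      exact Real.rpow_lt_one (AbsoluteValue.nonneg _ _) (hπ1 v) hc0
  obtain ⟨c', hc'⟩ : ∃ c' : Eˣ, (c' : E) = γ := ⟨Units.mk0 γ hγ0, rfl⟩
  obtain ⟨c₁, hc₁⟩ : ∃ c₁ : Eˣ, (c₁ : E) = 1 - γ := ⟨Units.mk0 _ hγ1, rfl⟩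
  obtain ⟨dE, hdE⟩ : ∃ dE : Eˣ, dE = incF k E d := ⟨_, rfl⟩
  have hdE' : (dE : E) = algebraMap k E d := by rw [hdE]; rfl
  rw [← hdE] at hcase
  -- the global norm
  have hN : c' ∈ NF dE := hasse_normF h2E _ _ fun P => by
    rcases hcase P with h | ⟨h3, h4⟩ | h
    · rw [sup_eq_top h2E h]
      exact Subgroup.mem_top _
    · exact unit_normF h2E (by rw [hdE', h3]) (by rw [hc', h4])
    · exact Subgroup.mem_sup_right (LSF_of_near_one P h2E (by rw [hc']; exact h))
  obtain ⟨X, Y, hXY⟩ := hN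
  -- the bad places of the plane
  obtain ⟨p₀, p₁, hp, hpB⟩ := norm_nearF h2E (d := dE) (c := (c' : E)) (x := X) (y := Y) hXY.symm
    (bad_finiteF h2E dE (-(c' * c₁))) (fun ω hω h3 => hω (by
      rw [sup_eq_top h2E h3]
      exact Subgroup.mem_top _)) (fun ω hω => by
      rcases hcase ω with h | ⟨h3, h4⟩ | h
      · exact absurd (by
          rw [sup_eq_top h2E h]
          exact Subgroup.mem_top _) hω
      · rw [hc']
        have h5 : ω.abv (γ - 1) ≤ 1 := by
          rw [sub_eq_add_neg]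
          refine (ω.nonarch _ _).trans (max_le h4.le ?_)
          rw [AbsoluteValue.map_neg, map_one]
        refine lt_of_le_of_ne h5 fun h6 => hω ?_
        refine unit_normF h2E (by rw [hdE', h3]) ?_
        rw [Units.val_neg, Units.val_mul, AbsoluteValue.map_neg, map_mul, hc', hc₁, h4, one_mul,
          ← neg_sub, AbsoluteValue.map_neg, h6]
      · rw [hc']
        exact h)
  have hne : (c' : E) ≠ 0 := c'.ne_zero
  -- the orthogonal vector
  obtain ⟨c, hc⟩ : ∃ c, c = ζ * star ζ := ⟨_, rfl⟩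
  rw [← hc] at hsc hγ hc0
  obtain ⟨w, hw⟩ : ∃ w : D × D, w = ζ • y' - c • y := ⟨_, rfl⟩
  have hyw : hh g y w = 0 := by
    rw [hw, hh_sub_right, hh_smul_right, hh_smul_right, ← hζ, hy, one_mul, hsc, ← hc, sub_self]
  have hww : hh g w w = j ((c' * c₁ : Eˣ) : E) := by
    rw [Units.val_mul, map_mul, hc₁, map_sub, map_one, hc', hγ]
    have h5 : hh g y w = 0 := hyw
    have h6 : hh g w w = hh g (ζ • y') w - hh g (c • y) w := by
      conv_lhs => rw [hw]
      rw [← hh_sub_left, hw]
    rw [h6, hh_smul_left, hh_smul_left, h5, mul_zero, sub_zero, hw, hh_sub_right,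
      hh_smul_right, hh_smul_right, hy', hζ', one_mul, mul_sub, ← hc, ← mul_assoc,
      ← hc, hsc, mul_sub, mul_one]
  have nrm : p₀ ^ 2 - algebraMap k E d * p₁ ^ 2 + ((c' * c₁ : Eˣ) : E) *
      ((p₀ / c') ^ 2 - algebraMap k E d * (p₁ / c') ^ 2) = 1 := by
    have h2 : p₀ ^ 2 - algebraMap k E d * p₁ ^ 2 = c' := by rw [← hdE']; exact hp
    rw [Units.val_mul]
    have h3 : (c' : E) * c₁ * ((p₀ / c') ^ 2 - algebraMap k E d * (p₁ / c') ^ 2) =
        c₁ * (p₀ ^ 2 - algebraMap k E d * p₁ ^ 2) / c' := by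
      field_simp
    rw [h3, h2, hc₁, mul_div_assoc, div_self hne, ← hc']
    ring
  obtain ⟨u, hu⟩ := exists_rotF j hS hg han sym (c' * c₁) p₀ p₁ (p₀ / c') (p₁ / c') hy hyw hww nrm
  refine ⟨u, hHQ E j _ _ _ _ _ _ _ _ hu fun ω hω => hpB ω (by
    rw [hdE]
    exact hω), lcF j s (p₀ / c') (p₁ / c') * ζ, ?_⟩
  have hPQ : lcF j s p₀ p₁ = lcF j s (p₀ / c') (p₁ / c') * c := by
    rw [← hγ, ← hc', ← lcF_zero_right j (s := s) (c' : E), lcF_mul j hS]
    congr 1
    · field_simp
      ring
    · field_simp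
      ring
  have huy : u y = (lcF j s (p₀ / c') (p₁ / c') * ζ) • y' := by
    rw [hu.uy]
    change lcF j s p₀ p₁ • y + lcF j s (p₀ / c') (p₁ / c') • w = _
    rw [hPQ, hw, smul_sub, smul_smul, smul_smul]
    abel
  refine ⟨?_, huy⟩
  intro h0
  rw [h0, zero_smul] at huy
  have hy0 : y = 0 := by
    apply u.injective
    rw [huy, map_zero]
  rw [hy0] at hy
  simp [hh] at hy

end Vale.Agent.P011.H961.SF
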