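import Vale.Agent.P011.H961.R5Nu
import Vale.Agent.P011.H961.R5Alg
import Vale.Agent.P011.H961.StepF
import Vale.Agent.P011.H732D.Spec
import Vale.Agent.P011.H704.R6.Apx

/-!
# Doubling over function fields: the step between two antisymmetric square roots
-/

open Module Polynomial

set_option linter.unusedSectionVars false

namespace Vale.Agent.P011.H961.R5

open Vale.Agent.P011.H738 Vale.Agent.P011.H271 Vale.Agent.P011.H305 Vale.Agent.P011.H698
open Vale.Agent.P011.H63.FB Vale.Agent.P011.H279.RB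
open Vale.Agent.P011.Arith (NF)
open Vale.Agent.P011.H929.FF (star_k)
open Vale.Agent.P011.H271.S3 (Ab)
open Vale.Agent.P011.H732D (Un Xs HQ1F)
open Vale.Agent.P011.H961.SF (unit_normF bad_finiteF)

section small

variable {F : Type} [Field F] [GFF F]

/-- A nonzero element which is small at finitely many places. -/
theorem exists_small (S : Finset (Place F)) : ∃ t : F, t ≠ 0 ∧ ∀ ω ∈ S, ω.abv t < 1 := by
  classical
  rcases S.eq_empty_or_nonempty with rfl | hne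
  · exact ⟨1, one_ne_zero, fun ω hω => absurd hω (Finset.notMem_empty ω)⟩
  choose π hπ0 hπ1 using fun ω : Place F => H167.Lf.exists_abv_lt ω one_pos
  obtain ⟨ω₀, hω₀, hmin⟩ := S.exists_min_image (fun ω => ω.abv (π ω)) hne
  have hpos : 0 < ω₀.abv (π ω₀) := AbsoluteValue.pos _ (hπ0 ω₀)
  obtain ⟨t, ht⟩ := H704.R6.place_weak S (fun ω => algebraMap F ω.comp (π ω)) hpos
  have ht' : ∀ ω ∈ S, ω.abv (t - π ω) < ω₀.abv (π ω₀) := by
    intro ω hω
    have h1 := ht ω hω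
    rw [← map_sub, norm_alg] at h1
    exact h1
  refine ⟨t, ?_, fun ω hω => ?_⟩
  · rintro rfl
    have := ht' ω₀ hω₀
    rw [zero_sub, AbsoluteValue.map_neg] at this
    exact lt_irrefl _ this
  · have e : t = (t - π ω) + π ω := by ring
    rw [e]
    exact (ω.nonarch _ _).trans_lt (max_lt ((ht' ω hω).trans (hπ1 ω₀)) (hπ1 ω))

/-- A point of the conic with second coordinate different from zero. -/
theorem exists_pt (h2 : (2 : F) ≠ 0) {d : Fˣ} (hd : ¬ IsSquare (d : F)) {w P₀ P₁ : F} (hw : w ≠ 0)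
    (hP : P₀ ^ 2 - d * P₁ ^ 2 = w) {S : Set (Place F)} (hS : S.Finite)
    (hdS : ∀ ω ∈ S, ω.abv (d : F) = 1) (hPS : ∀ ω ∈ S, ω.abv (2 - 2 * P₀) < 1) :
    ∃ Q₀ Q₁ : F, Q₀ ^ 2 - d * Q₁ ^ 2 = w ∧ Q₁ ≠ 0 ∧ ∀ ω ∈ S, ω.abv (2 - 2 * Q₀) < 1 := by
  by_cases h1 : P₁ = 0
  swap
  · exact ⟨P₀, P₁, hP, h1, hPS⟩
  obtain ⟨t, ht0, ht⟩ := exists_small hS.toFinset
  rw [h1, zero_pow two_ne_zero, mul_zero, sub_zero] at hP
  have hP0 : P₀ ≠ 0 := by
    rintro rfl
    rw [zero_pow two_ne_zero] at hP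
    exact hw hP.symm
  have hden : 1 - (d : F) * t ^ 2 ≠ 0 := by
    intro h0
    refine hd ⟨t⁻¹, ?_⟩
    have : (d : F) * t ^ 2 = 1 := (sub_eq_zero.mp h0).symm
    field_simp
    linear_combination this
  obtain ⟨m, hm⟩ : ∃ m, m = 1 - (d : F) * t ^ 2 := ⟨_, rfl⟩
  rw [← hm] at hden
  refine ⟨P₀ * (1 + d * t ^ 2) / m, 2 * t * P₀ / m, ?_, ?_, fun ω hω => ?_⟩
  · rw [← hP]
    field_simp
    rw [hm]
    ring
  · exact div_ne_zero (mul_ne_zero (mul_ne_zero h2 ht0) hP0) hden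
  · have h3 : ω.abv ((d : F) * t ^ 2) < 1 := by
      rw [map_mul, hdS ω hω, one_mul, map_pow]
      exact pow_lt_one₀ (ω.abv.nonneg _) (ht ω (hS.mem_toFinset.mpr hω)) two_ne_zero
    have h4 : ω.abv m = 1 := by
      rw [← map_one ω.abv]
      apply abv_eq_of_close
      rw [hm, map_one, sub_sub_cancel_left, AbsoluteValue.map_neg]
      exact h3
    have h5 : ω.abv P₀ ≤ 1 := by
      have e : 2 * P₀ = 2 + -(2 - 2 * P₀) := by ring
      have h6 : ω.abv (2 * P₀) ≤ 1 := by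
        rw [e]
        refine (ω.nonarch _ _).trans (max_le (abv_two ω h2).le ?_)
        rw [AbsoluteValue.map_neg]
        exact (hPS ω hω).le
      rwa [map_mul, abv_two ω h2, one_mul] at h6
    have e : 2 - 2 * (P₀ * (1 + d * t ^ 2) / m) =
        (2 - 2 * P₀) + -(2 * (2 * (P₀ * ((d : F) * t ^ 2)) / m)) := by
      have e1 : P₀ * (1 + d * t ^ 2) / m = P₀ + 2 * (P₀ * ((d : F) * t ^ 2)) / m := by
        rw [← sub_eq_iff_eq_add', div_sub' hden]
        congr 1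
        rw [hm]
        ring
      rw [e1]
      ring
    rw [e]
    refine (ω.nonarch _ _).trans_lt (max_lt (hPS ω hω) ?_)
    rw [AbsoluteValue.map_neg, map_mul, abv_two ω h2, one_mul, map_div₀, h4, div_one, map_mul,
      abv_two ω h2, one_mul, map_mul]
    exact (mul_le_of_le_one_left (ω.abv.nonneg _) h5).trans_lt h3

end small

variable {k K D : Type} [Field k] [GFF k] [Field K] [StarRing K] [DivisionRing D] [StarRing D]
    [Algebra k K] [Algebra k D] [Algebra K D] [IsScalarTower k K D]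

/-- **(R5) STEP.** -/
theorem step {d : kˣ} {s : K}
    (hS : SetF k K D d s) {N : ℕ} (B : Basis (Fin N) k D) (δ : kˣ)
    {I : D} (hI : I ∈ Xs D δ) {Q : Set D} (h1Q : (1 : D) ∈ Q) {T₀ : Finset (Place k)} {ε₀ : ℝ}
    (hε₀ : 0 < ε₀)
    (hQ : HQ1F B Q T₀ ε₀) {S₀ : Finset (Place k)} (hS₀ : S₀.Nonempty) (hT₀ : T₀ ⊆ S₀)
    (hgood : ∀ v ∉ S₀, v.abv (δ : k) = 1 ∧ Gd B v) {θ : ℝ} (hθ : 0 < θ) :
    ∃ κ : ℝ, 0 < κ ∧ ∀ i₁ ∈ Xs D δ, ∀ i₂ ∈ Xs D δ,
      (∀ v ∈ S₀, Sm B v κ (i₁ - I) ∧ Sm B v κ (i₂ - I)) →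
      (∀ v ∉ S₀, δ ∉ LSF v → Un B v (i₁ + i₂)) →
      ∃ ν ∈ Q, ν * i₁ = i₂ * ν ∧ ∀ v ∈ S₀, Sm B v θ (ν - 1) := by
  classical
  have h2 : (2 : k) ≠ 0 := hS.two_ne
  have hst := star_k hS
  have h2v : ∀ v : Place k, v.abv 2 = 1 := fun v => abv_two v h2
  obtain ⟨n, C, hn⟩ := exists_NN hst B
  choose π hπ0 hπ1 using fun v : Place k => H167.Lf.exists_abv_lt v one_pos
  have h2D : (2 : D) ≠ 0 := by
    rw [← map_ofNat (algebraMap k D) 2]
    exact (_root_.map_ne_zero _).mpr h2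
  have hI0 : I ≠ 0 := (Two.mk hI.1 hI.1 hI.2 hI.2 : Two δ I I).a0
  -- the constants
  have hM : ∀ v : Place k, ∃ M : ℝ, 1 ≤ M ∧ n v 1 ≤ M ∧ n v I ≤ M ∧ n v (2 * I)⁻¹ ≤ M ∧
      v.abv ((4 * δ)⁻¹ : k) ≤ M := fun v =>
    ⟨max (max (max (n v 1) (n v I)) (n v (2 * I)⁻¹)) (v.abv ((4 * δ)⁻¹ : k)),
      (hn v).one_le.trans (le_max_of_le_left (le_max_of_le_left (le_max_left _ _))),
      le_max_of_le_left (le_max_of_le_left (le_max_left _ _)),
      le_max_of_le_left (le_max_of_le_left (le_max_right _ _)),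
      le_max_of_le_left (le_max_right _ _), le_max_right _ _⟩
  choose M hM1 hMone hMI hMi hMδ using hM
  obtain ⟨ρ, hρd⟩ : ∃ ρ : Place k → ℝ, ρ = fun v => min (min 1 (min θ ε₀)) (v.abv (π v)) :=
    ⟨_, rfl⟩
  have hρ0 : ∀ v, 0 < ρ v := fun v => by
    rw [hρd]
    exact lt_min (lt_min one_pos (lt_min hθ hε₀)) (AbsoluteValue.pos _ (hπ0 v))
  have hρ1 : ∀ v, ρ v ≤ 1 := fun v => by
    rw [hρd]
    exact (min_le_left _ _).trans (min_le_left _ _)
  have hρθ : ∀ v, ρ v ≤ θ := fun v => by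
    rw [hρd]
    exact (min_le_left _ _).trans ((min_le_right _ _).trans (min_le_left _ _))
  have hρε : ∀ v, ρ v ≤ ε₀ := fun v => by
    rw [hρd]
    exact (min_le_left _ _).trans ((min_le_right _ _).trans (min_le_right _ _))
  have hρπ : ∀ v, ρ v ≤ v.abv (π v) := fun v => by
    rw [hρd]
    exact min_le_right _ _
  have hM0 : ∀ v, 0 < M v := fun v => one_pos.trans_le (hM1 v)
  obtain ⟨η, hηd⟩ : ∃ η : Place k → ℝ, η = fun v => ρ v / (2 * M v ^ 4) := ⟨_, rfl⟩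
  have hη0 : ∀ v, 0 < η v := fun v => by
    rw [hηd]
    exact div_pos (hρ0 v) (mul_pos two_pos (pow_pos (hM0 v) 4))
  have hηρ : ∀ v, M v ^ 4 * η v < ρ v := fun v => by
    rw [hηd]
    have h3 : M v ^ 4 * (ρ v / (2 * M v ^ 4)) = ρ v / 2 := by
      have := (hM0 v).ne'
      field_simp
    change M v ^ 4 * (ρ v / (2 * M v ^ 4)) < ρ v
    rw [h3]
    exact half_lt_self (hρ0 v)
  have hηρ' : ∀ v, η v < ρ v := fun v =>
    (le_mul_of_one_le_left (hη0 v).le (one_le_pow₀ (hM1 v))).trans_lt (hηρ v)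
  have hη1 : ∀ v, η v < 1 := fun v => (hηρ' v).trans_le (hρ1 v)
  obtain ⟨κ', hκd⟩ : ∃ κ' : Place k → ℝ, κ' = fun v => η v / (2 * M v ^ 2) := ⟨_, rfl⟩
  have hκ0 : ∀ v, 0 < κ' v := fun v => by
    rw [hκd]
    exact div_pos (hη0 v) (mul_pos two_pos (pow_pos (hM0 v) 2))
  have hκη : ∀ v, M v ^ 2 * κ' v < η v := fun v => by
    rw [hκd]
    have h3 : M v ^ 2 * (η v / (2 * M v ^ 2)) = η v / 2 := by
      have := (hM0 v).ne'
      field_simp
    change M v ^ 2 * (η v / (2 * M v ^ 2)) < η v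
    rw [h3]
    exact half_lt_self (hη0 v)
  have hκM : ∀ v, M v * κ' v < 1 := fun v => by
    refine lt_of_le_of_lt ?_ ((hκη v).trans (hη1 v))
    refine mul_le_mul_of_nonneg_right ?_ (hκ0 v).le
    rw [sq]
    exact le_mul_of_one_le_left (hM0 v).le (hM1 v)
  have hκη' : ∀ v, κ' v < η v := fun v =>
    (le_mul_of_one_le_left (hκ0 v).le (one_le_pow₀ (hM1 v))).trans_lt (hκη v)
  obtain ⟨v₁, hv₁, hmin⟩ := S₀.exists_min_image (fun v => κ' v / (2 * C v)) hS₀
  have hC0 : ∀ v, 0 < C v := fun v => (hn v).C0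
  refine ⟨κ' v₁ / (2 * C v₁), div_pos (hκ0 v₁) (mul_pos two_pos (hC0 v₁)), ?_⟩
  have hsm : ∀ v ∈ S₀, ∀ x : D, Sm B v (κ' v₁ / (2 * C v₁)) x → n v x < κ' v := by
    intro v hv x hx
    have h3 : n v x ≤ C v * (κ' v / (2 * C v)) :=
      (hn v).up x _ (div_pos (hκ0 v) (mul_pos two_pos (hC0 v))).le
        fun i => ((hx i).le.trans (hmin v hv))
    have h4 : C v * (κ' v / (2 * C v)) = κ' v / 2 := by
      have := (hC0 v).ne'
      field_simp
    rw [h4] at h3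
    exact h3.trans_lt (half_lt_self (hκ0 v))
  intro a ha b hb hab hun
  have hab1 : ∀ v ∈ S₀, n v (a - I) < κ' v := fun v hv => hsm v hv _ (hab v hv).1
  have hab2 : ∀ v ∈ S₀, n v (b - I) < κ' v := fun v hv => hsm v hv _ (hab v hv).2
  have h : Two δ a b := ⟨ha.1, hb.1, ha.2, hb.2⟩
  by_cases hne : a = b
  · refine ⟨1, h1Q, by rw [one_mul, mul_one, hne], fun v _ => ?_⟩
    rw [sub_self]
    exact sm_zero hθ
  -- the sum
  have hz1 : ∀ v ∈ S₀, n v (a + b - 2 * I) < κ' v := by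
    intro v hv
    have e : a + b - 2 * I = (a - I) + (b - I) := by
      rw [two_mul]
      abel
    rw [e]
    exact (hn v).add_lt (hab1 v hv) (hab2 v hv)
  have h2I : 2 * I ≠ 0 := mul_ne_zero h2D hI0
  have hzf : ∀ v ∈ S₀, a + b ≠ 0 ∧ n v (a + b)⁻¹ ≤ M v * M v := by
    intro v hv
    have e : a + b = 2 * I * (1 + (2 * I)⁻¹ * (a + b - 2 * I)) := by
      rw [mul_add, mul_one, ← mul_assoc, mul_inv_cancel₀ h2I, one_mul]
      abel
    have h3 : n v ((2 * I)⁻¹ * (a + b - 2 * I)) < 1 :=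
      ((hn v).mul_le (hMi v) (hz1 v hv).le).trans_lt (hκM v)
    obtain ⟨h4, h5⟩ := (hn v).inv_near h3
    refine ⟨by rw [e]; exact mul_ne_zero h2I h4, ?_⟩
    rw [e, mul_inv_rev]
    exact (hn v).mul_le (h5.trans (hMone v)) (hMi v)
  have hz : a + b ≠ 0 := (hzf v₁ hv₁).1
  have haM : ∀ v ∈ S₀, n v a ≤ M v := by
    intro v hv
    have e : a = (a - I) + I := by abel
    rw [e]
    exact (hn v).add_le (((hab1 v hv).trans ((hκη' v).trans (hη1 v))).le.trans (hM1 v)) (hMI v)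
  have hn2 : ∀ v (x : D), n v (2 * x) = n v x := by
    intro v x
    have e : 2 * x = (2 : k) • x := by
      rw [two_mul, two_smul]
    rw [e, (hn v).smul, h2v, one_mul]
  have hzM : ∀ v ∈ S₀, n v (a + b) ≤ M v := by
    intro v hv
    have e : a + b = (a + b - 2 * I) + 2 * I := by abel
    rw [e]
    refine (hn v).add_le (((hz1 v hv).trans ((hκη' v).trans (hη1 v))).le.trans (hM1 v)) ?_
    rw [hn2]
    exact hMI v
  -- the field
  obtain ⟨F, _, _, _, _, ι, γ, hγ, hgen⟩ := H167.Lf.exists_gen B ((a + b) * (a + b))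
  have h2F : (2 : F) ≠ 0 := two_ne_ext (F := k) h2
  have hδF : algebraMap k F (δ : k) ≠ 0 := (_root_.map_ne_zero _).mpr δ.ne_zero
  have hγ0 : γ ≠ 0 := by
    rintro rfl
    rw [map_zero] at hγ
    exact mul_ne_zero hz hz hγ.symm
  have h4k : (4 : k) ≠ 0 := by
    have : (4 : k) = 2 * 2 := by norm_num
    rw [this]
    exact mul_ne_zero h2 h2
  have h4F : (4 : F) ≠ 0 := by
    have : (4 : F) = 2 * 2 := by norm_num
    rw [this]
    exact mul_ne_zero h2F h2F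
  obtain ⟨w, hw⟩ : ∃ w : F, w = γ / (4 * algebraMap k F δ) := ⟨_, rfl⟩
  have hw0 : w ≠ 0 := by
    rw [hw]
    exact div_ne_zero hγ0 (mul_ne_zero h4F hδF)
  have hwγ : γ = 4 * algebraMap k F δ * w := by
    rw [hw]
    field_simp
  -- the second generator
  have hβ0 : γ * (γ - 4 * algebraMap k F δ) ≠ 0 := by
    intro h0
    rcases mul_eq_zero.mp h0 with h3 | h3
    · exact hγ0 h3
    · have h4 := h.jj
      have h5 : (a + b) * (a + b) - 4 * algebraMap k D δ = 0 := by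
        rw [← hγ, ← map_ofNat ι 4, ← AlgHom.commutes ι, ← map_mul, ← map_sub, h3, map_zero]
      rw [h5, mul_zero, mul_self_eq_zero] at h4
      apply hne
      have h6 : (a - b) * (a + b) = 0 := by
        rw [sub_mul, mul_add, mul_add, h.aa, h.bb, sub_eq_zero.mp h4]
        abel
      exact sub_eq_zero.mp ((mul_eq_zero.mp h6).resolve_right hz)
  obtain ⟨β, hβ⟩ : ∃ β : Fˣ, (β : F) = γ * (γ - 4 * algebraMap k F δ) := ⟨Units.mk0 _ hβ0, rfl⟩
  obtain ⟨w', hw'⟩ : ∃ w' : Fˣ, (w' : F) = w := ⟨Units.mk0 _ hw0, rfl⟩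
  have hfr := exists_frame hst h hγ hgen hβ
  -- δ is not a square in the field
  have hδns : ¬ IsSquare ((incF k F δ : Fˣ) : F) := by
    rintro ⟨r, hr⟩
    have h3 : (a - ι r) * (a + ι r) = 0 := by
      have h4 : a * a = ι r * ι r := by
        rw [hfr.ii, hr, map_mul]
      rw [sub_mul, mul_add, mul_add, h4, hfr.ci]
      abel
    have h5 : a ≠ 0 := h.a0
    have h6 : star a = a := by
      rcases mul_eq_zero.mp h3 with h4 | h4
      · rw [sub_eq_zero.mp h4, hfr.sym]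
      · rw [eq_neg_of_add_eq_zero_left h4, star_neg, hfr.sym]
    rw [h.sa] at h6
    apply h5
    have h7 : 2 * a = 0 := by
      rw [two_mul]
      nth_rewrite 1 [← h6]
      rw [neg_add_cancel]
    exact (mul_eq_zero.mp h7).resolve_left h2D
  -- the first estimate
  have hwn : ∀ v ∈ S₀, n v (ι (w - 1)) < η v := by
    intro v hv
    have e : ι (w - 1) = ((4 * δ)⁻¹ : k) •
        ((a + b - 2 * I) * (a + b) + 2 * I * (a + b - 2 * I)) := by
      have h3 : (a + b - 2 * I) * (a + b) + 2 * I * (a + b - 2 * I) =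
          (a + b) * (a + b) - 4 * (I * I) := by
        have h3' : (a + b - 2 * I) * (a + b) + 2 * I * (a + b - 2 * I) =
            (a + b) * (a + b) - 2 * I * (2 * I) := by noncomm_ring
        rw [h3']
        congr 1
        noncomm_ring
      rw [h3, hI.2, ← hγ, ← AlgHom.commutes ι, ← map_ofNat ι 4, ← map_mul, ← map_sub,
        Algebra.smul_def, ← AlgHom.commutes ι, ← map_mul]
      congr 1
      rw [map_inv₀, map_mul, map_ofNat, hwγ]
      field_simp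
    rw [e, (hn v).smul]
    have h3 : n v ((a + b - 2 * I) * (a + b) + 2 * I * (a + b - 2 * I)) ≤ κ' v * M v := by
      refine (hn v).add_le ((hn v).mul_le (hz1 v hv).le (hzM v hv)) ?_
      rw [mul_comm (κ' v)]
      refine (hn v).mul_le ?_ (hz1 v hv).le
      rw [hn2]
      exact hMI v
    calc v.abv ((4 * δ)⁻¹ : k) * n v ((a + b - 2 * I) * (a + b) + 2 * I * (a + b - 2 * I)) ≤
        M v * (κ' v * M v) := mul_le_mul (hMδ v) h3 ((hn v).nn _) (hM0 v).le
      _ = M v ^ 2 * κ' v := by ring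
      _ < η v := hκη v
  have hsmall : ∀ v ∈ S₀, ∀ ω : Place F, Ab ω v → ∀ x : F, n v (ι x) < ρ v → ω.abv x < 1 := by
    intro v hv ω hω x hx
    obtain ⟨c, hc0, hc⟩ := hω
    refine ((hn v).sub_field hc0 hc ι (hπ0 v) (hx.le.trans (hρπ v))).trans_lt ?_
    rw [hc]
    exact Real.rpow_lt_one (AbsoluteValue.nonneg _ _) (hπ1 v) hc0
  -- the cases at a place
  have hbelow : ∀ ω : Place F, ∃ v : Place k, Ab ω v := fun ω => by
    obtain ⟨v, c, hc0, hc⟩ := Hey.H63.exists_below (k := k) ω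
    exact ⟨v, c, hc0, hc⟩
  choose vb hvb using hbelow
  have hcase : ∀ ω : Place F, (incF k F δ) ∈ LSF ω ∨
      (vb ω ∉ S₀ ∧ ω.abv (algebraMap k F δ) = 1 ∧ ω.abv γ = 1) ∨
      (vb ω ∈ S₀ ∧ ω.abv (w - 1) < 1) := by
    intro ω
    by_cases hv : vb ω ∈ S₀
    · exact Or.inr (Or.inr ⟨hv, hsmall _ hv ω (hvb ω) _ ((hwn _ hv).trans (hηρ' _))⟩)
    by_cases hl : δ ∈ LSF (vb ω)
    · exact Or.inl (LSF_map h2 (hvb ω) hl)
    right; left
    obtain ⟨hd1, hG⟩ := hgood _ hv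
    obtain ⟨hu1, hu2⟩ := hun _ hv hl
    obtain ⟨c, hc0, hc⟩ := hvb ω
    refine ⟨hv, by rw [hc, hd1, Real.one_rpow], ?_⟩
    have hpow : ∀ x : D, Bd B (vb ω) 1 x → ∀ m : ℕ, Bd B (vb ω) 1 (x ^ (m + 1)) := by
      intro x hx m
      induction m with
      | zero => simpa using hx
      | succ m ih =>
        rw [pow_succ]
        have := hG.mul' zero_le_one zero_le_one ih hx
        rwa [one_mul] at this
    have hb1 : Bd B (vb ω) 1 ((a + b) * (a + b)) := by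
      have := hG.mul' zero_le_one zero_le_one hu1 hu1
      rwa [one_mul] at this
    have hb2 : Bd B (vb ω) 1 ((a + b)⁻¹ * (a + b)⁻¹) := by
      have := hG.mul' zero_le_one zero_le_one hu2 hu2
      rwa [one_mul] at this
    have h5 := H929.FF.abv_le_one_of_pow B hc0 hc ι (x := γ) (fun m => by
      rw [map_pow, hγ]
      exact hpow _ hb1 m)
    have h6 := H929.FF.abv_le_one_of_pow B hc0 hc ι (x := γ⁻¹) (fun m => by
      rw [map_pow, map_inv₀, hγ, mul_inv_rev]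
      exact hpow _ hb2 m)
    rw [map_inv₀, inv_le_one₀ (AbsoluteValue.pos _ hγ0)] at h6
    exact le_antisymm h5 h6
  have h4ω : ∀ ω : Place F, ω.abv (4 : F) = 1 := fun ω => by
    have : (4 : F) = 2 * 2 := by norm_num
    rw [this, map_mul, abv_two ω h2F, one_mul]
  have hwu : ∀ ω : Place F, ω.abv (algebraMap k F δ) = 1 → ω.abv γ = 1 → ω.abv w = 1 := by
    intro ω h3 h4
    rw [hw, map_div₀, map_mul, h4ω, h3, h4, one_mul, div_one]
  -- the global norm
  have hN : w' ∈ NF (incF k F δ) := hasse_normF h2F _ _ fun ω => by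
    rcases hcase ω with h3 | ⟨-, h3, h4⟩ | ⟨-, h3⟩
    · rw [sup_eq_top h2F h3]
      exact Subgroup.mem_top _
    · exact unit_normF h2F h3 (by rw [hw', hwu ω h3 h4])
    · exact Subgroup.mem_sup_right (LSF_of_near_one ω h2F (by rw [hw']; exact h3))
  obtain ⟨X, Y, hXY⟩ := hN
  rw [hw'] at hXY
  -- the bad places
  obtain ⟨S, hSd⟩ : ∃ S : Set (Place F), S = {ω | β ∉ NF (incF k F δ) ⊔ LSF ω ∧ vb ω ∉ S₀} :=
    ⟨_, rfl⟩
  have hSf : S.Finite := (bad_finiteF h2F (incF k F δ) β).subset fun ω hω => by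
    rw [hSd] at hω
    exact hω.1
  have hSω : ∀ ω ∈ S, incF k F δ ∉ LSF ω ∧ ω.abv (algebraMap k F δ) = 1 ∧ ω.abv w = 1 ∧
      ω.abv (w - 1) < 1 := by
    intro ω hω
    rw [hSd] at hω
    obtain ⟨hω1, hω2⟩ := hω
    have hL : incF k F δ ∉ LSF ω := fun h3 => hω1 (by
      rw [sup_eq_top h2F h3]
      exact Subgroup.mem_top _)
    rcases hcase ω with h3 | ⟨-, h3, h4⟩ | ⟨h3, -⟩
    · exact absurd h3 hL
    · have h5 := hwu ω h3 h4
      refine ⟨hL, h3, h5, ?_⟩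
      have h6 : ω.abv (w - 1) ≤ 1 := by
        rw [sub_eq_add_neg]
        refine (ω.nonarch _ _).trans (max_le h5.le ?_)
        rw [AbsoluteValue.map_neg, map_one]
      refine lt_of_le_of_ne h6 fun h7 => hω1 ?_
      refine unit_normF h2F h3 ?_
      have e : (β : F) = γ * (4 * (algebraMap k F δ * (w - 1))) := by
        rw [hβ]
        congr 1
        rw [hwγ]
        ring
      rw [e, map_mul, map_mul, map_mul, h4, h4ω, h3, h7, one_mul, one_mul, one_mul]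
    · exact absurd h3 hω2
  obtain ⟨P₀', P₁', hP', hPS'⟩ := norm_nearF h2F (d := incF k F δ) (c := w) hXY.symm hSf
    (fun ω hω => (hSω ω hω).1) (fun ω hω => (hSω ω hω).2.2.2)
  obtain ⟨P₀, P₁, hP, hP₁, hPS⟩ := exists_pt h2F hδns hw0 hP' hSf
    (fun ω hω => (hSω ω hω).2.1) hPS'
  -- the precision
  have htiny := fun v => near_root (hn v) (h2v v) ι hδF hP hP₁ (hη0 v)
  choose τ hτ0 hτ using htiny
  obtain ⟨v₂, hv₂, hmin2⟩ := S₀.exists_min_image τ hS₀
  obtain ⟨r, hr⟩ := exists_root (S := S₀) (fun v _ => hn v) h2v ι w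
    (fun v hv => (hwn v hv).trans (hη1 v)) (hτ0 v₂)
  -- the scalar
  have he : ∀ v : Place k, ∃ e : ℝ, 0 < e ∧ ∀ μ : k, v.abv μ < e → v.abv μ ≤ 1 ∧
      v.abv μ * n v 1 < η v ∧ v.abv μ * n v 1 < τ v₂ := by
    intro v
    have h1 : 0 < n v 1 := one_pos.trans_le (hn v).one_le
    refine ⟨min 1 (min (η v / n v 1) (τ v₂ / n v 1)), lt_min one_pos
      (lt_min (div_pos (hη0 v) h1) (div_pos (hτ0 v₂) h1)), fun μ hμ => ⟨?_, ?_, ?_⟩⟩
    · exact (hμ.trans_le (min_le_left _ _)).le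
    · rw [← lt_div_iff₀ h1]
      exact hμ.trans_le ((min_le_right _ _).trans (min_le_left _ _))
    · rw [← lt_div_iff₀ h1]
      exact hμ.trans_le ((min_le_right _ _).trans (min_le_right _ _))
  choose e he0 he using he
  obtain ⟨v₃, hv₃, hmin3⟩ := S₀.exists_min_image e hS₀
  have hL : ∀ ω : Place F, ∃ L : ℝ, ∀ μ : k, L < (vb ω).abv μ →
      1 < ω.abv (algebraMap k F μ) ∧ ω.abv r < ω.abv (algebraMap k F μ) := by
    intro ω
    obtain ⟨c, hc0, hc⟩ := hvb ω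
    obtain ⟨m, hm⟩ : ∃ m : ℝ, m = max 1 (ω.abv r) := ⟨_, rfl⟩
    have hm0 : 0 ≤ m := by rw [hm]; exact zero_le_one.trans (le_max_left _ _)
    refine ⟨m ^ c⁻¹, fun μ hμ => ?_⟩
    have h3 : m < (vb ω).abv μ ^ c := by
      have h4 := Real.rpow_lt_rpow (Real.rpow_nonneg hm0 _) hμ hc0
      rwa [← Real.rpow_mul hm0, inv_mul_cancel₀ hc0.ne', Real.rpow_one] at h4
    rw [hc]
    rw [hm] at h3
    exact ⟨(le_max_left _ _).trans_lt h3, (le_max_right _ _).trans_lt h3⟩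
  choose L hL using hL
  obtain ⟨Lm, hLm⟩ : ∃ Lm : ℝ, ∀ ω ∈ S, L ω ≤ Lm := by
    obtain ⟨m, hm⟩ := (hSf.image L).bddAbove
    exact ⟨m, fun ω hω => hm ⟨ω, hω, rfl⟩⟩
  have hbig : ∀ v : Place k, ∃ x : k, max Lm 1 + 1 < v.abv x := by
    intro v
    have h3 : 0 < max Lm 1 + 1 := by positivity
    obtain ⟨x, hx0, hx⟩ := H167.Lf.exists_abv_lt v (inv_pos.mpr h3)
    refine ⟨x⁻¹, ?_⟩
    rw [map_inv₀]
    exact (lt_inv_comm₀ (AbsoluteValue.pos _ hx0) h3).mp hx
  choose big hbig using hbig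
  obtain ⟨μ, hμ⟩ := H704.R6.place_weak (S₀ ∪ (hSf.image vb).toFinset)
    (fun v => if v ∈ S₀ then 0 else algebraMap k v.comp (big v))
    (η := min (e v₃) 1) (lt_min (he0 v₃) one_pos)
  have hμ1 : ∀ v ∈ S₀, v.abv μ < e v := by
    intro v hv
    have h3 := hμ v (Finset.mem_union_left _ hv)
    rw [if_pos hv, sub_zero, norm_alg] at h3
    exact (h3.trans_le (min_le_left _ _)).trans_le (hmin3 v hv)
  have hμ2 : ∀ ω ∈ S, 1 < ω.abv (algebraMap k F μ) ∧ ω.abv r < ω.abv (algebraMap k F μ) := by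
    intro ω hω
    have hv : vb ω ∉ S₀ := by
      rw [hSd] at hω
      exact hω.2
    apply hL
    have h3 := hμ (vb ω) (Finset.mem_union_right _ ((hSf.image vb).mem_toFinset.mpr ⟨ω, hω, rfl⟩))
    rw [if_neg hv, ← map_sub, norm_alg] at h3
    have h4 : (vb ω).abv μ = (vb ω).abv (big (vb ω)) := by
      apply abv_eq_of_close
      refine (h3.trans_le (min_le_right _ _)).trans ?_
      refine lt_trans ?_ (hbig (vb ω))
      have := le_max_right Lm 1
      linarith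
    rw [h4]
    refine ((hLm ω hω).trans ?_).trans_lt (hbig (vb ω))
    have := le_max_left Lm 1
    linarith
  -- the parameter
  obtain ⟨R, hR⟩ : ∃ R : F, R = r + algebraMap k F μ := ⟨_, rfl⟩
  have hμn : ∀ v, n v (ι (algebraMap k F μ)) = v.abv μ * n v 1 := fun v => by
    rw [AlgHom.commutes, (hn v).coe_eq]
  have hRn : ∀ v ∈ S₀, n v (ι (R - 1)) < η v ∧ n v (ι (R ^ 2 - w)) < τ v₂ := by
    intro v hv
    obtain ⟨h3, h4⟩ := hr v hv
    obtain ⟨h5, h6, h7⟩ := he v μ (hμ1 v hv)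
    have h8 : n v (ι (r - 1)) < 1 := h3.trans_lt ((hwn v hv).trans (hη1 v))
    have h9 : n v (ι r) ≤ n v 1 := by
      apply (hn v).le_one_of_near
      rwa [map_sub, map_one] at h8
    refine ⟨?_, ?_⟩
    · have e1 : R - 1 = (r - 1) + algebraMap k F μ := by
        rw [hR]
        ring
      rw [e1, map_add]
      exact (hn v).add_lt (h3.trans_lt (hwn v hv)) (by rw [hμn]; exact h6)
    · have e1 : R ^ 2 - w = (r ^ 2 - w) + (algebraMap k F (2 * μ) * r +
          algebraMap k F μ * algebraMap k F μ) := by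
        rw [hR, map_mul, map_ofNat]
        ring
      rw [e1, map_add]
      refine (hn v).add_lt h4 ?_
      rw [map_add]
      refine (hn v).add_lt ?_ ?_
      · rw [map_mul, AlgHom.commutes, ← Algebra.smul_def, (hn v).smul, map_mul, h2v, one_mul]
        exact (mul_le_mul_of_nonneg_left h9 (v.abv.nonneg _)).trans_lt h7
      · rw [map_mul, AlgHom.commutes, ← Algebra.smul_def, (hn v).smul, (hn v).coe_eq]
        refine lt_of_le_of_lt ?_ h7
        exact mul_le_of_le_one_left (mul_nonneg (v.abv.nonneg _) ((hn v).nn _)) h5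
  -- the denominator
  have hden : w + 2 * R * P₀ + R ^ 2 ≠ 0 := by
    intro h0
    apply hδns
    refine ⟨(P₀ + R) / P₁, ?_⟩
    field_simp
    linear_combination -h0 - hP
  obtain ⟨p₀, hp₀⟩ : ∃ p₀ : F, p₀ = (P₀ * (w + R ^ 2) + 2 * R * w) / (w + 2 * R * P₀ + R ^ 2) :=
    ⟨_, rfl⟩
  obtain ⟨p₁, hp₁⟩ : ∃ p₁ : F, p₁ = (P₁ * (R ^ 2 - w)) / (w + 2 * R * P₀ + R ^ 2) := ⟨_, rfl⟩
  have hp : p₀ ^ 2 - algebraMap k F δ * p₁ ^ 2 = w := by
    rw [hp₀, hp₁]
    exact conic_pt hP hden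
  have hpn : ∀ v ∈ S₀, n v (ι (p₀ - 1)) < η v ∧ n v (ι p₁) < η v := by
    intro v hv
    obtain ⟨h3, h4⟩ := hRn v hv
    obtain ⟨h5, h6⟩ := hτ v R (h3.trans (hη1 v)) (h4.trans_le (hmin2 v hv)) hden
    rw [← hp₀] at h5
    rw [← hp₁] at h6
    refine ⟨?_, h6⟩
    have e1 : p₀ - 1 = (p₀ - R) + (R - 1) := by ring
    rw [e1, map_add]
    exact (hn v).add_lt h5 h3
  -- the element
  obtain ⟨ν, hν, hνa, hνe⟩ := exists_elt hst h2 h hγ hz hgen hβ (p₀ := p₀) (p₁ := p₁)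
    (by rw [hp, hw])
  have hνn : ∀ v ∈ S₀, n v (ν - 1) < ρ v := by
    intro v hv
    obtain ⟨h3, h4⟩ := hpn v hv
    have e1 : ν - 1 = 2 * ((a + b)⁻¹ * (a * (ι (p₀ - 1) + ι p₁ * a))) +
        (a + b)⁻¹ * (a - b) := by
      rw [hνe, map_sub, map_one]
      have e2 : a * (ι p₀ + ι p₁ * a) = a * (ι p₀ - 1 + ι p₁ * a) + a := by
        noncomm_ring
      rw [e2, mul_add, mul_add]
      have e3 : 2 * ((a + b)⁻¹ * a) = (a + b)⁻¹ * (a - b) + 1 := by
        have : (a + b)⁻¹ * (a - b) + (a + b)⁻¹ * (a + b) = 2 * ((a + b)⁻¹ * a) := by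
          rw [← mul_add, two_mul, ← mul_add]
          congr 1
          abel
        rw [← this, inv_mul_cancel₀ hz]
      rw [e3]
      abel
    rw [e1]
    have h5 : n v (ι (p₀ - 1) + ι p₁ * a) ≤ η v * M v := by
      refine (hn v).add_le ?_ ?_
      · exact h3.le.trans (le_mul_of_one_le_right (hη0 v).le (hM1 v))
      · exact (hn v).mul_le h4.le (haM v hv)
    have h6 : n v ((a + b)⁻¹ * (a * (ι (p₀ - 1) + ι p₁ * a))) ≤ M v ^ 4 * η v := by
      refine ((hn v).mul_le (hzf v hv).2 ((hn v).mul_le (haM v hv) h5)).trans (le_of_eq ?_)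
      ring
    refine (hn v).add_lt ?_ ?_
    · rw [hn2]
      exact h6.trans_lt (hηρ v)
    · have h7 : n v (a - b) ≤ κ' v := by
        have e2 : a - b = (a - I) - (b - I) := by abel
        rw [e2]
        exact (hn v).sub_le (hab1 v hv).le (hab2 v hv).le
      refine ((hn v).mul_le (hzf v hv).2 h7).trans_lt ?_
      rw [← sq]
      exact (hκη v).trans (hηρ' v)
  refine ⟨ν, ?_, hνa, fun v hv i => ((hn v).lo _ i).trans_lt ((hνn v hv).trans_le (hρθ v))⟩
  refine hQ F ι _ _ _ _ _ _ _ _ _ hν (fun v hv i =>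
    ((hn v).lo _ i).trans_lt ((hνn v (hT₀ hv)).trans_le (hρε v))) fun ω hω => ?_
  by_cases hv : vb ω ∈ S₀
  · refine hsmall _ hv ω (hvb ω) _ ?_
    have e1 : (2 - 2 * p₀ : F) = algebraMap k F (-2) * (p₀ - 1) := by
      rw [map_neg, map_ofNat]
      ring
    rw [e1, map_mul, AlgHom.commutes, ← Algebra.smul_def, (hn _).smul, AbsoluteValue.map_neg, h2v,
      one_mul]
    exact (hpn _ hv).1.trans (hηρ' _)
  · have hωS : ω ∈ S := by
      rw [hSd]
      exact ⟨hω, hv⟩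
    obtain ⟨h3, h4⟩ := hμ2 ω hωS
    have hRω : 1 < ω.abv R := by
      have h5 : ω.abv R = ω.abv (algebraMap k F μ) := by
        apply abv_eq_of_close
        rw [hR, add_sub_cancel_right]
        exact h4
      rw [h5]
      exact h3
    rw [hp₀]
    exact (near_inf ω.nonarch (abv_two ω h2F) (hSω ω hωS).2.2.1 (hPS ω hωS) hRω).2

end Vale.Agent.P011.H961.R5
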