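import Vale.Agent.P011.H698.Bd
import Vale.Agent.P011.H279.R2Base
import Vale.Agent.P011.H929.FFb
import Vale.Agent.P011.H167.LfA

/-!
# Ultrametric submultiplicative norms from coordinates

Square roots near one and rational points of a norm conic near one.
-/

open Module

set_option linter.unusedSectionVars false

namespace Vale.Agent.P011.H961.R5

open Vale.Agent.P011.H738 Vale.Agent.P011.H271 Vale.Agent.P011.H698
open Vale.Agent.P011.H182 (Ig)

section nn

variable {k D : Type} [Field k] [DivisionRing D] [StarRing D] [Algebra k D] {N : ℕ}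

/-- An ultrametric submultiplicative norm, comparable with the coordinates. -/
structure NN (B : Basis (Fin N) k D) (v : Place k) (n : D → ℝ) (C : ℝ) : Prop where
  C1 : 1 ≤ C
  nn : ∀ x, 0 ≤ n x
  add : ∀ x y, n (x + y) ≤ max (n x) (n y)
  mul : ∀ x y, n (x * y) ≤ n x * n y
  smul : ∀ (c : k) x, n (c • x) = v.abv c * n x
  str : ∀ x, n (star x) ≤ C * n x
  lo : ∀ x i, v.abv (B.repr x i) ≤ n x
  up : ∀ x c, 0 ≤ c → (∀ i, v.abv (B.repr x i) ≤ c) → n x ≤ C * c

theorem exists_NN [GFF k] (hst : ∀ (c : k) (x : D), star (c • x) = c • star x)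
    (B : Basis (Fin N) k D) : ∃ (n : Place k → D → ℝ) (C : Place k → ℝ), ∀ v, NN B v (n v) (C v) := by
  classical
  obtain ⟨C, hC1, -, hCm, hCs, -⟩ := exists_const B hst
  have hN : 0 < N := by
    rcases Nat.eq_zero_or_pos N with h | h
    · subst h
      exfalso
      apply one_ne_zero (α := D)
      apply B.repr.injective
      ext i
      exact i.elim0
    · exact h
  have hne : (Finset.univ : Finset (Fin N)).Nonempty := ⟨⟨0, hN⟩, Finset.mem_univ _⟩
  obtain ⟨m, hm⟩ : ∃ m : Place k → D → ℝ, m = fun v x =>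
    Finset.univ.sup' hne fun i => v.abv (B.repr x i) := ⟨_, rfl⟩
  have hle : ∀ v x c, m v x ≤ c ↔ Bd B v c x := by
    intro v x c
    rw [hm, Finset.sup'_le_iff]
    exact ⟨fun h i => h i (Finset.mem_univ _), fun h i _ => h i⟩
  have hself : ∀ v x, Bd B v (m v x) x := fun v x => (hle v x _).mp le_rfl
  have hm0 : ∀ v x, 0 ≤ m v x := fun v x =>
    (v.abv.nonneg _).trans (hself v x ⟨0, hN⟩)
  have hC0 : ∀ v, 0 < C v := fun v => one_pos.trans_le (hC1 v)
  refine ⟨fun v x => C v * m v x, C, fun v => ⟨hC1 v, fun x => mul_nonneg (hC0 v).le (hm0 v x),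
    fun x y => ?_, fun x y => ?_, fun c x => ?_, fun x => ?_, fun x i => ?_, fun x c hc hx => ?_⟩⟩
  · have h1 : m v (x + y) ≤ max (m v x) (m v y) :=
      (hle v _ _).mpr (((hself v x).mono (le_max_left _ _)).add ((hself v y).mono (le_max_right _ _)))
    change C v * m v (x + y) ≤ max (C v * m v x) (C v * m v y)
    rw [← mul_max_of_nonneg _ _ (hC0 v).le]
    exact mul_le_mul_of_nonneg_left h1 (hC0 v).le
  · have h1 : m v (x * y) ≤ C v * m v x * m v y :=
      (hle v _ _).mpr (hCm v _ _ _ _ (hm0 v x) (hm0 v y) (hself v x) (hself v y))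
    calc C v * m v (x * y) ≤ C v * (C v * m v x * m v y) :=
        mul_le_mul_of_nonneg_left h1 (hC0 v).le
      _ = C v * m v x * (C v * m v y) := by ring
  · have h1 : m v (c • x) = v.abv c * m v x := by
      rw [hm]
      simp only [map_smul, Finsupp.smul_apply, smul_eq_mul, map_mul]
      refine le_antisymm (Finset.sup'_le _ _ fun i _ => ?_) ?_
      · refine mul_le_mul_of_nonneg_left ?_ (v.abv.nonneg _)
        exact Finset.le_sup' (fun i => v.abv (B.repr x i)) (Finset.mem_univ i)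
      · obtain ⟨i, hi, h2⟩ := Finset.exists_mem_eq_sup' hne fun i => v.abv (B.repr x i)
        rw [h2]
        exact Finset.le_sup' (fun i => v.abv c * v.abv (B.repr x i)) hi
    change C v * m v (c • x) = v.abv c * (C v * m v x)
    rw [h1]
    ring
  · have h1 : m v (star x) ≤ C v * m v x := (hle v _ _).mpr (hCs v _ _ (hm0 v x) (hself v x))
    exact mul_le_mul_of_nonneg_left h1 (hC0 v).le
  · exact (hself v x i).trans (le_mul_of_one_le_left (hm0 v x) (hC1 v))
  · exact mul_le_mul_of_nonneg_left ((hle v x c).mpr hx) (hC0 v).le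

variable {B : Basis (Fin N) k D} {v : Place k} {n : D → ℝ} {C : ℝ}

namespace NN

variable (h : NN B v n C)

include h

theorem C0 : 0 < C := one_pos.trans_le h.C1

theorem zero : n 0 = 0 := by
  have := h.smul 0 0
  rw [zero_smul, map_zero, zero_mul] at this
  exact this

theorem neg (x : D) : n (-x) = n x := by
  have := h.smul (-1) x
  rw [neg_one_smul, AbsoluteValue.map_neg, map_one, one_mul] at this
  exact this

theorem sub (x y : D) : n (x - y) ≤ max (n x) (n y) := by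
  rw [sub_eq_add_neg]
  refine (h.add _ _).trans ?_
  rw [h.neg]

theorem sub_comm (x y : D) : n (x - y) = n (y - x) := by
  rw [← neg_sub, h.neg]

theorem pos {x : D} (hx : x ≠ 0) : 0 < n x := by
  by_contra hcon
  have h0 : n x = 0 := le_antisymm (not_lt.mp hcon) (h.nn x)
  apply hx
  apply B.repr.injective
  ext i
  rw [map_zero, Finsupp.zero_apply]
  have := h.lo x i
  rw [h0] at this
  exact (AbsoluteValue.eq_zero v.abv).mp (le_antisymm this (v.abv.nonneg _))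

theorem one_le : 1 ≤ n 1 := by
  have h1 := h.mul 1 1
  rw [mul_one] at h1
  have h2 := h.pos (one_ne_zero (α := D))
  by_contra hcon
  push Not at hcon
  nlinarith

theorem coe_eq (c : k) : n (algebraMap k D c) = v.abv c * n 1 := by
  rw [Algebra.algebraMap_eq_smul_one, h.smul]

/-- Elements near one. -/
theorem inv_near {x : D} (hx : n x < 1) : 1 + x ≠ 0 ∧ n (1 + x)⁻¹ ≤ n 1 := by
  have h0 : 1 + x ≠ 0 := by
    intro h1
    have h2 : x = -1 := by
      rw [← add_zero x, ← sub_self (1 : D)]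
      calc x + (1 - 1) = (1 + x) - 1 := by abel
        _ = _ := by rw [h1, zero_sub]
    rw [h2, h.neg] at hx
    exact absurd h.one_le (not_le.mpr hx)
  refine ⟨h0, ?_⟩
  have h1 : (1 + x)⁻¹ = 1 - x * (1 + x)⁻¹ := by
    have : (1 + x) * (1 + x)⁻¹ = 1 := mul_inv_cancel₀ h0
    rw [add_mul, one_mul] at this
    exact eq_sub_of_add_eq this
  have h2 := h.sub 1 (x * (1 + x)⁻¹)
  rw [← h1] at h2
  rcases le_max_iff.mp h2 with h3 | h3
  · exact h3
  · exfalso
    have h4 := h.mul x (1 + x)⁻¹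
    have h5 := h.pos (inv_ne_zero h0)
    nlinarith

theorem le_one_of_near {x : D} (hx : n (x - 1) < 1) : n x ≤ n 1 := by
  have h1 := h.add (x - 1) 1
  rw [sub_add_cancel] at h1
  exact h1.trans (max_le (hx.le.trans h.one_le) le_rfl)

theorem inv_near' {x : D} (hx : n (x - 1) < 1) : x ≠ 0 ∧ n x⁻¹ ≤ n 1 := by
  have h1 := h.inv_near hx
  rwa [add_sub_cancel] at h1

theorem mul_le {x y : D} {a b : ℝ} (hx : n x ≤ a) (hy : n y ≤ b) : n (x * y) ≤ a * b :=
  (h.mul x y).trans (mul_le_mul hx hy (h.nn y) ((h.nn x).trans hx))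

theorem add_le {x y : D} {a : ℝ} (hx : n x ≤ a) (hy : n y ≤ a) : n (x + y) ≤ a :=
  (h.add x y).trans (max_le hx hy)

theorem sub_le {x y : D} {a : ℝ} (hx : n x ≤ a) (hy : n y ≤ a) : n (x - y) ≤ a :=
  (h.sub x y).trans (max_le hx hy)

theorem add_lt {x y : D} {a : ℝ} (hx : n x < a) (hy : n y < a) : n (x + y) < a :=
  (h.add x y).trans_lt (max_lt hx hy)

theorem sub_lt {x y : D} {a : ℝ} (hx : n x < a) (hy : n y < a) : n (x - y) < a :=
  (h.sub x y).trans_lt (max_lt hx hy)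

/-- Smallness in the algebra gives smallness in a subfield. -/
theorem sub_field {F : Type} [Field F] [Algebra k F] {u : AbsoluteValue F ℝ} {s : ℝ} (hs : 0 < s)
    (hu : ∀ x : k, u (algebraMap k F x) = v.abv x ^ s) (ι : F →ₐ[k] D) {c : k} (hc : c ≠ 0) {x : F}
    (hx : n (ι x) ≤ v.abv c) : u x ≤ u (algebraMap k F c) := by
  have hc' : algebraMap k F c ≠ 0 := (map_ne_zero _).mpr hc
  have hpos : 0 < v.abv c := AbsoluteValue.pos _ hc
  have e : ι (x / algebraMap k F c) = c⁻¹ • ι x := by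
    rw [div_eq_inv_mul, ← map_inv₀, ← Algebra.smul_def, map_smul]
  have h1 : n (ι (x / algebraMap k F c)) ≤ 1 := by
    rw [e, h.smul, map_inv₀, ← div_eq_inv_mul]
    exact (div_le_one hpos).mpr hx
  have h2 : ∀ m : ℕ, n (ι ((x / algebraMap k F c) ^ (m + 1))) ≤ 1 := by
    intro m
    induction m with
    | zero => simpa using h1
    | succ m ih =>
      rw [pow_succ, map_mul]
      exact (h.mul_le ih h1).trans (by rw [one_mul])
  have h3 := H929.FF.abv_le_one_of_pow B hs hu ι (x := x / algebraMap k F c)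
    fun m i => (h.lo _ i).trans (h2 m)
  rw [map_div₀] at h3
  exact (div_le_one (AbsoluteValue.pos _ hc')).mp h3

end NN

/-! ### Square roots -/

section newton

variable {F : Type} [Field F] [Algebra k F]

/-- Square roots near one, at several places at once. -/
theorem exists_root {S : Finset (Place k)} {n : Place k → D → ℝ} {C : Place k → ℝ}
    (h : ∀ v ∈ S, NN B v (n v) (C v)) (h2 : ∀ v : Place k, v.abv 2 = 1) (ι : F →ₐ[k] D) (w : F)
    (hw : ∀ v ∈ S, n v (ι (w - 1)) < 1) {ε : ℝ} (hε : 0 < ε) :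
    ∃ r : F, ∀ v ∈ S, n v (ι (r - 1)) ≤ n v (ι (w - 1)) ∧ n v (ι (r ^ 2 - w)) < ε := by
  classical
  have hinv : ∀ v : Place k, v.abv (2⁻¹ : k) = 1 := fun v => by rw [map_inv₀, h2, inv_one]
  -- the sequence
  have key : ∀ m : ℕ, ∃ r : F, ∀ v ∈ S, n v (ι (r - 1)) ≤ n v (ι (w - 1)) ∧
      n v (ι (r ^ 2 - w)) ≤ n v (ι (w - 1)) ^ (m + 1) := by
    intro m
    induction m with
    | zero =>
      refine ⟨1, fun v hv => ⟨?_, ?_⟩⟩
      · rw [sub_self, map_zero, (h v hv).zero]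
        exact (h v hv).nn _
      · rw [one_pow, map_sub, map_sub, (h v hv).sub_comm, zero_add, pow_one]
    | succ m ih =>
      obtain ⟨r, hr⟩ := ih
      refine ⟨r + algebraMap k F 2⁻¹ * (w - r ^ 2), fun v hv => ?_⟩
      obtain ⟨h3, h4⟩ := hr v hv
      have hN := h v hv
      have hq := hw v hv
      have hq0 := hN.nn (ι (w - 1))
      have hpw : n v (ι (w - 1)) ^ (m + 1) ≤ n v (ι (w - 1)) := by
        rw [pow_succ]
        exact mul_le_of_le_one_left hq0 (pow_le_one₀ hq0 hq.le)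
      have h5 : n v (ι (algebraMap k F 2⁻¹ * (w - r ^ 2))) = n v (ι (r ^ 2 - w)) := by
        rw [map_mul, AlgHom.commutes, ← Algebra.smul_def, hN.smul, hinv, one_mul, map_sub,
          hN.sub_comm, ← map_sub]
      refine ⟨?_, ?_⟩
      · have e : r + algebraMap k F 2⁻¹ * (w - r ^ 2) - 1 =
            (r - 1) + algebraMap k F 2⁻¹ * (w - r ^ 2) := by ring
        rw [e, map_add]
        exact hN.add_le h3 (by rw [h5]; exact h4.trans hpw)
      · have e2 : (algebraMap k F 2⁻¹ : F) * 2 = 1 := by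
          have : (2 : k) ≠ 0 := by
            intro h0
            have := h2 v
            rw [h0, map_zero] at this
            exact zero_ne_one this
          rw [← map_ofNat (algebraMap k F) 2, ← map_mul, inv_mul_cancel₀ this, map_one]
        have e : (r + algebraMap k F 2⁻¹ * (w - r ^ 2)) ^ 2 - w =
            (w - r ^ 2) * ((r - 1) + algebraMap k F 2⁻¹ * (algebraMap k F 2⁻¹ * (w - r ^ 2))) := by
          linear_combination (w - r ^ 2) * r * e2
        have h6 : n v (ι (w - r ^ 2)) ≤ n v (ι (w - 1)) ^ (m + 1) := by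
          rw [map_sub, hN.sub_comm, ← map_sub]
          exact h4
        rw [e, map_mul, map_add]
        have h7 : n v (ι (r - 1) + ι (algebraMap k F 2⁻¹ * (algebraMap k F 2⁻¹ * (w - r ^ 2)))) ≤
            n v (ι (w - 1)) := by
          refine hN.add_le h3 ?_
          rw [map_mul, AlgHom.commutes, ← Algebra.smul_def, hN.smul, hinv, one_mul, h5]
          exact h4.trans hpw
        calc _ ≤ n v (ι (w - 1)) ^ (m + 1) * n v (ι (w - 1)) := hN.mul_le h6 h7
          _ = _ := by rw [← pow_succ]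
  rcases S.eq_empty_or_nonempty with rfl | hne
  · exact ⟨1, fun v hv => absurd hv (Finset.notMem_empty v)⟩
  obtain ⟨v₀, hv₀, hmax⟩ := S.exists_max_image (fun v => n v (ι (w - 1))) hne
  obtain ⟨m, hm⟩ := exists_pow_lt_of_lt_one hε (hw v₀ hv₀)
  obtain ⟨r, hr⟩ := key m
  refine ⟨r, fun v hv => ⟨(hr v hv).1, ?_⟩⟩
  refine ((hr v hv).2.trans ?_).trans_lt hm
  have hq0 := (h v hv).nn (ι (w - 1))
  calc n v (ι (w - 1)) ^ (m + 1) ≤ n v₀ (ι (w - 1)) ^ (m + 1) :=
        pow_le_pow_left₀ hq0 (hmax v hv) _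
    _ ≤ n v₀ (ι (w - 1)) ^ m :=
        pow_le_pow_of_le_one ((h v₀ hv₀).nn _) (hw v₀ hv₀).le (Nat.le_succ m)

end newton

/-! ### The conic -/

section conic

variable {F : Type} [Field F] [Algebra k F]

/-- The point `(w + R P) / (P + R)` of the conic. -/
theorem conic_pt {L : Type*} [Field L] {d P₀ P₁ w R : L} (hP : P₀ ^ 2 - d * P₁ ^ 2 = w)
    (hN : w + 2 * R * P₀ + R ^ 2 ≠ 0) :
    ((P₀ * (w + R ^ 2) + 2 * R * w) / (w + 2 * R * P₀ + R ^ 2)) ^ 2 -
      d * ((P₁ * (R ^ 2 - w)) / (w + 2 * R * P₀ + R ^ 2)) ^ 2 = w := by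
  obtain ⟨M, hM⟩ : ∃ M, M = w + 2 * R * P₀ + R ^ 2 := ⟨_, rfl⟩
  rw [← hM] at hN ⊢
  rw [div_pow, div_pow, ← mul_div_assoc, ← sub_div, div_eq_iff (pow_ne_zero 2 hN)]
  have h3 : d * P₁ ^ 2 = P₀ ^ 2 - w := by linear_combination -hP
  have h4 : d * (P₁ * (R ^ 2 - w)) ^ 2 = (P₀ ^ 2 - w) * (R ^ 2 - w) ^ 2 := by
    rw [← h3]
    ring
  rw [h4, hM]
  ring

/-- The point of the conic is close to `R` when `R ^ 2` is close to `w`. -/
theorem near_root (h : NN B v n C) (h2 : v.abv 2 = 1) (ι : F →ₐ[k] D) {d P₀ P₁ w : F}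
    (hd : d ≠ 0) (hP : P₀ ^ 2 - d * P₁ ^ 2 = w) (hP₁ : P₁ ≠ 0) {ε : ℝ} (hε : 0 < ε) :
    ∃ η : ℝ, 0 < η ∧ ∀ R : F, n (ι (R - 1)) < 1 → n (ι (R ^ 2 - w)) < η →
      w + 2 * R * P₀ + R ^ 2 ≠ 0 →
      n (ι ((P₀ * (w + R ^ 2) + 2 * R * w) / (w + 2 * R * P₀ + R ^ 2) - R)) < ε ∧
      n (ι ((P₁ * (R ^ 2 - w)) / (w + 2 * R * P₀ + R ^ 2))) < ε := by
  have h2k : (2 : k) ≠ 0 := by
    intro h0
    rw [h0, map_zero] at h2
    exact zero_ne_one h2
  have h2F : (2 : F) ≠ 0 := by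
    rw [← map_ofNat (algebraMap k F) 2]
    exact (map_ne_zero _).mpr h2k
  have hn1 : 0 < n 1 := one_pos.trans_le h.one_le
  -- the constants
  obtain ⟨A, hA0, hA, hA1⟩ : ∃ A : ℝ, 0 < A ∧ n (ι ((2 * d * P₁ ^ 2)⁻¹)) ≤ A ∧ n 1 ≤ A :=
    ⟨max (n (ι ((2 * d * P₁ ^ 2)⁻¹))) (n 1), lt_max_of_lt_right hn1, le_max_left _ _,
      le_max_right _ _⟩
  obtain ⟨M, hM0, hM1, hM2, hM3⟩ : ∃ M : ℝ, 0 < M ∧ n (ι P₀) ≤ M ∧ n 1 ≤ M ∧ n (ι P₁) ≤ M :=
    ⟨max (n (ι P₀)) (max (n 1) (n (ι P₁))), lt_max_of_lt_right (lt_max_of_lt_left hn1),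
      le_max_left _ _, (le_max_left _ _).trans (le_max_right _ _),
      (le_max_right _ _).trans (le_max_right _ _)⟩
  refine ⟨min (1 / (M * (A * A))) (ε / (M * (M * (A * A) * A))),
    lt_min (by positivity) (by positivity), fun R hR hη hN => ?_⟩
  obtain ⟨η, hηd⟩ : ∃ η, η = R ^ 2 - w := ⟨_, rfl⟩
  rw [← hηd] at hη ⊢
  have hη1 := hη.trans_le (min_le_left _ _)
  have hη2 := hη.trans_le (min_le_right _ _)
  have hR1 : n (ι R - 1) < 1 := by
    rw [map_sub, map_one] at hR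
    exact hR
  obtain ⟨hR0', hRi⟩ := h.inv_near' hR1
  have hR0 : R ≠ 0 := by
    rintro rfl
    exact hR0' (map_zero ι)
  have hRM : n (ι R) ≤ M := (h.le_one_of_near hR1).trans hM2
  have hRi' : n (ι R⁻¹) ≤ A := by
    rw [map_inv₀]
    exact hRi.trans hA1
  have hH : n (ι ((2 * R * d * P₁ ^ 2)⁻¹)) ≤ A * A := by
    have e : (2 * R * d * P₁ ^ 2)⁻¹ = R⁻¹ * (2 * d * P₁ ^ 2)⁻¹ := by
      rw [← mul_inv]
      congr 1
      ring
    rw [e, map_mul]
    exact h.mul_le hRi' hA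
  have hH0 : 2 * R * d * P₁ ^ 2 ≠ 0 :=
    mul_ne_zero (mul_ne_zero (mul_ne_zero h2F hR0) hd) (pow_ne_zero 2 hP₁)
  -- the denominator
  obtain ⟨U, hU⟩ : ∃ U, U = -(η * ((P₀ + R) * (2 * R * d * P₁ ^ 2)⁻¹)) := ⟨_, rfl⟩
  have hU1 : n (ι U) < 1 := by
    rw [hU, map_neg, h.neg, map_mul, map_mul]
    have h3 : n (ι (P₀ + R)) ≤ M := by
      rw [map_add]
      exact h.add_le hM1 hRM
    have h4 := h.mul_le h3 hH
    have h5 := h.mul (ι η) (ι (P₀ + R) * ι ((2 * R * d * P₁ ^ 2)⁻¹))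
    have h6 : n (ι η) * (M * (A * A)) < 1 := by
      rw [lt_div_iff₀ (by positivity)] at hη1
      exact hη1
    exact (h5.trans (mul_le_mul_of_nonneg_left h4 (h.nn _))).trans_lt h6
  obtain ⟨hU2, hU3⟩ := h.inv_near hU1
  have hU4 : 1 + U ≠ 0 := by
    intro h0
    apply hU2
    rw [← map_one ι, ← map_add, h0, map_zero]
  have hden : (w + 2 * R * P₀ + R ^ 2) * (P₀ - R) = 2 * R * d * P₁ ^ 2 * (1 + U) := by
    have e1 : 2 * R * d * P₁ ^ 2 * (1 + U) = 2 * R * d * P₁ ^ 2 - η * (P₀ + R) := by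
      rw [hU]
      field_simp
      ring
    rw [e1, hηd]
    linear_combination (2 * R) * hP
  have hinv : (w + 2 * R * P₀ + R ^ 2)⁻¹ =
      (P₀ - R) * (2 * R * d * P₁ ^ 2)⁻¹ * (1 + U)⁻¹ := by
    refine inv_eq_of_mul_eq_one_right ?_
    have e1 : (w + 2 * R * P₀ + R ^ 2) *
        ((P₀ - R) * (2 * R * d * P₁ ^ 2)⁻¹ * (1 + U)⁻¹) =
        (w + 2 * R * P₀ + R ^ 2) * (P₀ - R) * ((2 * R * d * P₁ ^ 2)⁻¹ * (1 + U)⁻¹) := by ring
    rw [e1, hden, ← mul_inv, mul_inv_cancel₀ (mul_ne_zero hH0 hU4)]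
  have hni : n (ι ((w + 2 * R * P₀ + R ^ 2)⁻¹)) ≤ M * (A * A) * A := by
    rw [hinv, map_mul, map_mul]
    refine h.mul_le (h.mul_le ?_ hH) ?_
    · rw [map_sub]
      exact h.sub_le hM1 hRM
    · rw [map_inv₀, map_add, map_one]
      exact hU3.trans hA1
  have hfin : n (ι η) * (M * (M * (A * A) * A)) < ε := by
    rw [lt_div_iff₀ (by positivity)] at hη2
    exact hη2
  refine ⟨?_, ?_⟩
  · have e : (P₀ * (w + R ^ 2) + 2 * R * w) / (w + 2 * R * P₀ + R ^ 2) - R =
        -(η * ((P₀ + R) * (w + 2 * R * P₀ + R ^ 2)⁻¹)) := by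
      rw [hηd, div_sub' hN, div_eq_mul_inv]
      ring
    rw [e, map_neg, h.neg, map_mul, map_mul]
    refine lt_of_le_of_lt ?_ hfin
    refine (h.mul _ _).trans (mul_le_mul_of_nonneg_left (h.mul_le ?_ hni) (h.nn _))
    rw [map_add]
    exact h.add_le hM1 hRM
  · have e : (P₁ * η) / (w + 2 * R * P₀ + R ^ 2) =
        η * (P₁ * (w + 2 * R * P₀ + R ^ 2)⁻¹) := by
      field_simp
    rw [e, map_mul, map_mul]
    refine lt_of_le_of_lt ?_ hfin
    exact (h.mul _ _).trans (mul_le_mul_of_nonneg_left (h.mul_le hM3 hni) (h.nn _))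

end conic

end nn

/-- The point of the conic is close to `P` when `R` is large. -/
theorem near_inf {F : Type} [Field F] {u : AbsoluteValue F ℝ} (hu : IsNonarchimedean u)
    (h2 : u 2 = 1) {P₀ w R : F} (hw : u w = 1) (hP : u (2 - 2 * P₀) < 1) (hR : 1 < u R) :
    w + 2 * R * P₀ + R ^ 2 ≠ 0 ∧
    u (2 - 2 * ((P₀ * (w + R ^ 2) + 2 * R * w) / (w + 2 * R * P₀ + R ^ 2))) < 1 := by
  have hP0 : u P₀ ≤ 1 := by
    have e : 2 * P₀ = 2 - (2 - 2 * P₀) := by ring
    have h3 : u (2 * P₀) ≤ 1 := by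
      rw [e, sub_eq_add_neg]
      refine (hu _ _).trans (max_le h2.le ?_)
      rw [AbsoluteValue.map_neg]
      exact hP.le
    rwa [map_mul, h2, one_mul] at h3
  have hR2 : u R < u (R ^ 2) := by
    rw [map_pow]
    nlinarith
  have hs : u (w + 2 * R * P₀) < u (R ^ 2) := by
    refine (hu _ _).trans_lt (max_lt ?_ ?_)
    · rw [hw]
      exact hR.trans hR2
    · rw [map_mul, map_mul, h2, one_mul]
      exact (mul_le_of_le_one_right (u.nonneg _) hP0).trans_lt hR2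
  have hN : u (w + 2 * R * P₀ + R ^ 2) = u (R ^ 2) := by
    refine le_antisymm ((hu _ _).trans (max_le hs.le le_rfl)) ?_
    by_contra hcon
    push Not at hcon
    have e : R ^ 2 = (w + 2 * R * P₀ + R ^ 2) + -(w + 2 * R * P₀) := by ring
    have h3 : u (R ^ 2) ≤ max (u (w + 2 * R * P₀ + R ^ 2)) (u (-(w + 2 * R * P₀))) := by
      conv_lhs => rw [e]
      exact hu _ _
    rw [AbsoluteValue.map_neg] at h3
    exact absurd h3 (not_le.mpr (max_lt hcon hs))
  have hRpos : 0 < u (R ^ 2) := (zero_lt_one.trans hR).trans hR2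
  have hN0 : w + 2 * R * P₀ + R ^ 2 ≠ 0 := by
    intro h0
    rw [h0, map_zero] at hN
    exact hRpos.ne hN
  refine ⟨hN0, ?_⟩
  have e0 : (P₀ * (w + R ^ 2) + 2 * R * w) / (w + 2 * R * P₀ + R ^ 2) =
      P₀ + 2 * (R * (w - P₀ ^ 2)) / (w + 2 * R * P₀ + R ^ 2) := by
    rw [← sub_eq_iff_eq_add', div_sub' hN0]
    congr 1
    ring
  have e : 2 - 2 * ((P₀ * (w + R ^ 2) + 2 * R * w) / (w + 2 * R * P₀ + R ^ 2)) =
      (2 - 2 * P₀) + -(2 * (2 * (R * (w - P₀ ^ 2)) / (w + 2 * R * P₀ + R ^ 2))) := by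
    rw [e0]
    ring
  rw [e]
  refine (hu _ _).trans_lt (max_lt hP ?_)
  rw [AbsoluteValue.map_neg, map_mul, h2, one_mul, map_div₀, hN, map_mul, h2, one_mul,
    div_lt_one hRpos, map_mul]
  refine lt_of_le_of_lt (mul_le_of_le_one_right (u.nonneg _) ?_) hR2
  rw [sub_eq_add_neg]
  refine (hu _ _).trans (max_le hw.le ?_)
  rw [AbsoluteValue.map_neg, map_pow]
  exact pow_le_one₀ (u.nonneg _) hP0

end Vale.Agent.P011.H961.R5
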