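import Vale.Agent.P011.H961.R5TwoLoc
import Vale.Agent.P011.H698.Bd

/-!
# Characteristic two: quaternion algebras in corners of a ring with involution, letters
-/

open Module

set_option linter.unusedSectionVars false

namespace Vale.Agent.P011.H961.C2

open Vale.Agent.P011.H738 Vale.Agent.P011.H271 Vale.Agent.P011.H698

variable {k A : Type} [Field k] [Ring A] [StarRing A] [Algebra k A]
    {F : Type} [Field F] [Algebra k F]

/-- A quaternion algebra over the field `F` of characteristic two in the corner of the symmetric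
idempotent `ι 1`, with generators `i` (`i * i = i + δ`, `star i = i + 1`) and `j` (`j * j = β`,
`star j = j`); the involution is the canonical one. -/
structure QFrN (ι : F →ₙₐ[k] A) (δ β : F) (i j : A) : Prop where
  sym : ∀ x, star (ι x) = ι x
  si : star i = i + ι 1
  sj : star j = j
  ii : i * i = i + ι δ
  jj : j * j = ι β
  b0 : β ≠ 0
  ji : j * i = (i + ι 1) * j
  ei : ι 1 * i = i
  ej : ι 1 * j = j
  ci : ∀ x, ι x * i = i * ι x
  cj : ∀ x, ι x * j = j * ι x

/-- The element `u = 1 - e + p₀ + p₁ i + p₂ j + p₃ i j` of norm one, `e = ι 1`. -/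
structure QEltN (ι : F →ₙₐ[k] A) (δ β : F) (i j : A) (p₀ p₁ p₂ p₃ : F) (u : A) : Prop where
  fr : QFrN ι δ β i j
  nrm : p₀ ^ 2 + p₀ * p₁ + δ * p₁ ^ 2 + β * (p₂ ^ 2 + p₂ * p₃ + δ * p₃ ^ 2) = 1
  eq : u = 1 - ι 1 + (ι p₀ + ι p₁ * i + ι p₂ * j + ι p₃ * (i * j))

/-- `Q` contains the elements of norm one of the quaternion algebras in the corners which are close
to one at the places of `T` and at the ramified places. -/
def HQN {N : ℕ} (B : Basis (Fin N) k A) (Q : Set A) (T : Finset (Place k)) (ε : ℝ) : Prop :=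
  ∀ (F : Type) [Field F] [GFF F] [Algebra k F] (ι : F →ₙₐ[k] A) (δ β : F) (i j : A)
    (p₀ p₁ p₂ p₃ : F) (u : A), QEltN ι δ β i j p₀ p₁ p₂ p₃ u →
    (∀ v ∈ T, Sm B v ε (u - 1)) → (∀ ω : Place F, ¬ LN2 ω δ β → ω.abv p₁ < 1) → u ∈ Q

end Vale.Agent.P011.H961.C2
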