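import Vale.Agent.P011.H756.Reach
import Vale.Agent.P011.H756.LineF
import Vale.Agent.P011.H74.FinalF
import Vale.Agent.P011.H73.ND
import Vale.Agent.P011.H3.Step1
import Vale.Agent.P011.H961.NdS
import Vale.Agent.P011.H339.First

/-!
**Reach over a global function field of characteristic prime to six.**
-/

open Module Filter Topology

set_option linter.unusedSectionVars false
set_option linter.unusedVariables false

namespace Vale.Agent.P011.H961

open Vale.Agent.P011.H305 Vale.Agent.P011.H738 Vale.Agent.P011.H271 Vale.Agent.P011.H182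
  Vale.Agent.P011.H775 Vale.Agent.P011.H948 Vale.Agent.P011.H929.FF Vale.Agent.P011.H748
  Vale.Agent.P011.H3

variable {k K D : Type} [Field k] [GFF k] [Field K] [StarRing K]
    [DivisionRing D] [StarRing D] [Algebra k K] [Algebra k D] [Algebra K D] [IsScalarTower k K D]
    {d : kˣ} {s : K} {N : ℕ}

/-- Reach, from the first step at each place. -/
theorem reachF_of (hS : SetF k K D d s) (h3 : (3 : k) ≠ 0) (C : Cub K D)
    (h9 : finrank K D = 3 ^ 2) (B : Basis (Fin N) k D)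
    (first : ∀ (x u : D), x * star x = 1 → u * star u = 1 → C.T ((x - 1) * u) = 0 →
      (∀ e : K, (x - 1) * u ≠ e • star ((x - 1) * u)) →
      (∃ (m : ℕ) (ξ t : Fin m → D), (∀ i, star (ξ i) = ξ i) ∧
        ∀ Q : D, ∃ e : K, Q = e • star ((x - 1) * u) +
          ∑ i, Rf C (star ((x - 1) * u)) Q (ξ i) • t i) →
      (∃ ξ : D, star ξ = ξ ∧ C.T ((x - 1) * u * ξ) = 0 ∧ C.T ((x - 1) * u * C.adj ξ) ≠ 0) →
      ∀ (p : Place k) (w : ℕ → D) (κ : Type) (_ : Fintype κ) (b : κ → K → ℝ), Comps B p.abv b →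
      Tgt C B p.abv (hyperfilter ℕ) x b w →
      ∃ ξ : D, star ξ = ξ ∧ be C ((x - 1) * u) ξ ≠ 0 ∧ ∃ γ : ℝ, 0 < γ ∧
      ∀ u1 : D, u1 * star u1 = 1 →
        na B p.abv (u1 - u * star (be C ((x - 1) * u) ξ) * (be C ((x - 1) * u) ξ)⁻¹) < γ →
        (∀ᶠ j in (hyperfilter ℕ : Filter ℕ), C.T (w j * (x - 1) * w j * u1⁻¹) ≠ 0) ∧
        H339.Bd B p.abv (hyperfilter ℕ : Filter ℕ)
          fun j => (C.T (w j * (x - 1) * w j * u1⁻¹))⁻¹ • (1 : D)) :
    H74.FinalF.ReachF C B d := by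
  intro x u hx hxN hx3 hu hT P hP w ht ε hε J
  have _ := hS.fin
  have _ := hS.cen
  have _ : Infinite k := Hey.gff_infinite k
  have h : SCub C := sCub_of C h9 hS.star_smul
  have h2K : (2 : K) ≠ 0 := two_K hS
  have hx1 : x - 1 ≠ 0 := by
    intro h0
    apply hx3
    rw [sub_eq_zero.mp h0, C.T_one]
  have hu0 : u ≠ 0 := h.ne_zero_of_unitary hu
  have hz : (x - 1) * u ≠ 0 := mul_ne_zero hx1 hu0
  have hzs : star ((x - 1) * u) ≠ 0 := star_ne_zero.mpr hz
  obtain ⟨w1, h1, h2, h4, h5⟩ := H756.reach_of_first (ab := fun v : Place k => v.abv) (C := C) h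
    hS.star_algebraMap hS.two_ne hS.star_s hS.s_ne
    (fun c hc => (hS.fix c).mp hc) B hu hT hP
    (V0 := {v : Place k | ¬ ∃ α : v.comp, α ^ 2 = algebraMap k v.comp d})
    (Good := fun v w => GoodInt B v w (x * w))
    (fun v _ w l _ hg => H756.goodInt_smulF l hg)
    (fun u' hu' hT' ξ hξ ε hε => by
      obtain ⟨y, h1, h2, h4, h5⟩ := H756.line_stepF hS h3 C h9 B hx hxN hx3 hu' hT'
        hP ξ hξ hε
      exact ⟨y, h1, h2, h4, fun v hv hvP hg => h5 v hvP hv hg⟩)
    (fun l hl ε hε => H74.CompsF.k1_approx B hS hP l hl hε) w ht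
    (fun p hp κ hκ b hb htg => first x u hx hu hT (nd_star h hx hxN hx3 hu hT)
      (H73.ND.nd C hS.star_s hS.s_ne h2K hS.star_algebraMap hS.star_smul h9 hS.cen hzs)
      (by
        obtain ⟨ξ, h1, h2, h4⟩ := H158.N4.exists_dir hS h3 C h9 hz
        exact ⟨ξ, h1, h2, h4⟩) p (w p) κ hκ b hb htg) hε J
  exact ⟨w1, h1, h2, h4, fun v hvP hv hg => h5 v hv hvP hg⟩

/-- **Reach over a global function field of characteristic prime to six.** -/
theorem reachF (hS : SetF k K D d s) (h3 : (3 : k) ≠ 0) (C : Cub K D)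
    (h9 : finrank K D = 3 ^ 2) (B : Basis (Fin N) k D) : H74.FinalF.ReachF C B d := by
  have _ := hS.fin
  have _ := hS.cen
  have _ : Infinite k := Hey.gff_infinite k
  refine reachF_of hS h3 C h9 B fun x u hx hu hT hnd hND h8 p w κ hκ b hb htg => ?_
  exact H339.first_step (sCub_of C h9 hS.star_smul) hS.star_algebraMap (two_K hS)
    (ω := hyperfilter ℕ) hb hx hu hnd hND h8 htg

end Vale.Agent.P011.H961
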