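import Mathlib

/-!
# A simple algebra of dimension `n ^ 2` with `n` orthogonal idempotents is a matrix algebra
-/

open Module

set_option linter.unusedSectionVars false

namespace Vale.Agent.P011.H961

variable {F R : Type*} [Field F] [Ring R] [Algebra F R] [IsSimpleRing R]

/-- Peirce components of a simple ring are nonzero. -/
theorem exists_peirce_ne {e f : R} (he : e ≠ 0) (hf : f ≠ 0) : ∃ r : R, e * r * f ≠ 0 := by
  by_contra hcon
  push Not at hcon
  have h1 : TwoSidedIdeal.span {e} = (⊤ : TwoSidedIdeal R) := by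
    rcases IsSimpleOrder.eq_bot_or_eq_top (TwoSidedIdeal.span {e}) with h | h
    · have h2 : e ∈ TwoSidedIdeal.span {e} := TwoSidedIdeal.subset_span (Set.mem_singleton e)
      rw [h, TwoSidedIdeal.mem_bot] at h2
      exact absurd h2 he
    · exact h
  -- the set of the elements `x` with `x r f = 0` for all `r`
  let I : TwoSidedIdeal R := TwoSidedIdeal.mk' {x | ∀ r, x * r * f = 0} (by
      intro r
      rw [zero_mul, zero_mul]) (by
      intro x y hx hy r
      rw [add_mul, add_mul, hx r, hy r, add_zero]) (by
      intro x hx r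
      rw [neg_mul, neg_mul, hx r, neg_zero]) (by
      intro x y hy r
      rw [mul_assoc x, mul_assoc x, hy r, mul_zero]) (by
      intro x y hx r
      rw [mul_assoc x y r]
      exact hx (y * r))
  have h3 : e ∈ I := by
    rw [TwoSidedIdeal.mem_mk']
    exact hcon
  have h4 : TwoSidedIdeal.span {e} ≤ I := by
    rw [TwoSidedIdeal.span_le]
    intro x hx
    rw [Set.mem_singleton_iff] at hx
    rw [hx]
    exact h3
  have h5 : (1 : R) ∈ I := h4 (by rw [h1]; exact TwoSidedIdeal.mem_top R)
  rw [TwoSidedIdeal.mem_mk'] at h5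
  have h6 : (1 : R) * 1 * f = 0 := h5 1
  rw [one_mul, one_mul] at h6
  exact hf h6

/-- **Splitting by orthogonal idempotents.** -/
theorem exists_split_of_idem {n : ℕ} (hn : n ≠ 0) (hfin : finrank F R = n ^ 2) {e : Fin n → R}
    (he : ∀ i, e i * e i = e i) (he0 : ∀ i, e i ≠ 0) (hee : ∀ i j, i ≠ j → e i * e j = 0) :
    Nonempty (R →ₐ[F] Matrix (Fin n) (Fin n) F) := by
  classical
  have hfd : FiniteDimensional F R := Module.finite_of_finrank_pos (by rw [hfin]; positivity)
  choose r hr using fun i j => exists_peirce_ne (he0 i) (he0 j)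
  let u : Fin n × Fin n → R := fun p => e p.1 * r p.1 p.2 * e p.2
  have hu : ∀ p, u p = e p.1 * r p.1 p.2 * e p.2 := fun _ => rfl
  have hu0 : ∀ p, u p ≠ 0 := fun p => hr p.1 p.2
  have hul : ∀ p, e p.1 * u p = u p := fun p => by
    rw [hu, ← mul_assoc, ← mul_assoc, he]
  have hur : ∀ p, u p * e p.2 = u p := fun p => by
    rw [hu, mul_assoc, he]
  have hul0 : ∀ i p, i ≠ p.1 → e i * u p = 0 := fun i p h => by
    rw [hu, ← mul_assoc, ← mul_assoc, hee i p.1 h, zero_mul, zero_mul]
  have hur0 : ∀ p j, p.2 ≠ j → u p * e j = 0 := fun p j h => by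
    rw [hu, mul_assoc, hee _ _ h, mul_zero]
  have hpe : ∀ (c : Fin n × Fin n → F) (i j : Fin n), e i * (∑ p, c p • u p) * e j =
      c (i, j) • u (i, j) := by
    intro c i j
    rw [Finset.mul_sum, Finset.sum_mul, Finset.sum_eq_single (i, j)]
    · rw [mul_smul_comm, smul_mul_assoc, hul (i, j), hur (i, j)]
    · intro p _ hp
      rw [mul_smul_comm, smul_mul_assoc]
      by_cases h1 : i = p.1
      · have h2 : p.2 ≠ j := by
          intro h2
          apply hp
          rw [← h2, h1]
        rw [h1, hul p, hur0 p j h2, smul_zero]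
      · rw [hul0 i p h1, zero_mul, smul_zero]
    · intro h
      exact absurd (Finset.mem_univ _) h
  have hli : LinearIndependent F u := by
    rw [Fintype.linearIndependent_iff]
    intro c hc p
    have h1 := hpe c p.1 p.2
    rw [hc, mul_zero, zero_mul] at h1
    exact (smul_eq_zero.mp h1.symm).resolve_right (hu0 p)
  have hcard : Fintype.card (Fin n × Fin n) = finrank F R := by
    rw [hfin, Fintype.card_prod, Fintype.card_fin, sq]
  let i0 : Fin n := ⟨0, Nat.pos_of_ne_zero hn⟩
  have hne : Nonempty (Fin n × Fin n) := ⟨(i0, i0)⟩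
  let b : Basis (Fin n × Fin n) F R := basisOfLinearIndependentOfCardEqFinrank hli hcard
  have hb : ∀ p, b p = u p := fun p => by
    rw [coe_basisOfLinearIndependentOfCardEqFinrank]
  have hrep : ∀ x : R, x = ∑ p, b.repr x p • u p := by
    intro x
    conv_lhs => rw [← b.sum_repr x]
    exact Finset.sum_congr rfl fun p _ => by rw [hb]
  -- elements of the left ideal generated by `e i0`
  have hcol : ∀ x : R, x * e i0 = x → x = ∑ k, b.repr x (k, i0) • u (k, i0) := by
    intro x hx
    have h1 : ∀ p : Fin n × Fin n, p.2 ≠ i0 → b.repr x p = 0 := by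
      intro p hp
      have h2 := hpe (b.repr x) p.1 p.2
      rw [← hrep x, ← hx, mul_assoc, mul_assoc, hee _ _ (Ne.symm hp), mul_zero, mul_zero] at h2
      have h3 := (smul_eq_zero.mp h2.symm).resolve_right (hu0 p)
      rw [hx] at h3
      exact h3
    conv_lhs => rw [hrep x]
    rw [Fintype.sum_prod_type]
    refine Finset.sum_congr rfl fun k _ => ?_
    rw [Finset.sum_eq_single i0]
    · intro j _ hj
      rw [h1 (k, j) hj, zero_smul]
    · intro h
      exact absurd (Finset.mem_univ _) h
  have hact : ∀ (x : R) (i : Fin n), x * u (i, i0) =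
      ∑ k, b.repr (x * u (i, i0)) (k, i0) • u (k, i0) := by
    intro x i
    refine hcol _ ?_
    rw [mul_assoc, hur (i, i0)]
  have hcoord : ∀ (c : Fin n → F) (l : Fin n), b.repr (∑ k, c k • u (k, i0)) (l, i0) = c l := by
    intro c l
    rw [map_sum, Finsupp.finsetSum_apply, Finset.sum_eq_single l]
    · rw [map_smul, ← hb, b.repr_self, Finsupp.smul_apply, Finsupp.single_eq_same, smul_eq_mul,
        mul_one]
    · intro k _ hk
      rw [map_smul, ← hb, b.repr_self, Finsupp.smul_apply, Finsupp.single_eq_of_ne, smul_zero]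
      intro h
      exact hk (congrArg Prod.fst h).symm
    · intro h
      exact absurd (Finset.mem_univ _) h
  refine ⟨AlgHom.ofLinearMap
    { toFun := fun x => Matrix.of fun k i => b.repr (x * u (i, i0)) (k, i0)
      map_add' := fun x y => by
        ext k i
        simp [add_mul]
      map_smul' := fun c x => by
        ext k i
        simp } ?_ ?_⟩
  · ext k i
    change b.repr (1 * u (i, i0)) (k, i0) = _
    rw [one_mul, ← hb, b.repr_self, Matrix.one_apply, Finsupp.single_apply]
    by_cases h : k = i
    · rw [h, if_pos rfl, if_pos rfl]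
    · rw [if_neg h, if_neg]
      intro h'
      exact h (congrArg Prod.fst h').symm
  · intro x y
    ext l i
    change b.repr (x * y * u (i, i0)) (l, i0) =
      ∑ k, b.repr (x * u (k, i0)) (l, i0) * b.repr (y * u (i, i0)) (k, i0)
    rw [mul_assoc, hact y i, Finset.mul_sum]
    have h1 : ∑ k, x * (b.repr (y * u (i, i0)) (k, i0) • u (k, i0)) =
        ∑ l, (∑ k, b.repr (y * u (i, i0)) (k, i0) * b.repr (x * u (k, i0)) (l, i0)) •
          u (l, i0) := by
      have h2 : ∀ k, x * (b.repr (y * u (i, i0)) (k, i0) • u (k, i0)) =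
          ∑ l, (b.repr (y * u (i, i0)) (k, i0) * b.repr (x * u (k, i0)) (l, i0)) •
            u (l, i0) := by
        intro k
        rw [mul_smul_comm]
        conv_lhs => rw [hact x k]
        rw [Finset.smul_sum]
        exact Finset.sum_congr rfl fun l _ => by rw [smul_smul]
      rw [Finset.sum_congr rfl fun k _ => h2 k, Finset.sum_comm]
      exact Finset.sum_congr rfl fun l _ => by rw [Finset.sum_smul]
    rw [h1, hcoord, ← hact y i]
    exact Finset.sum_congr rfl fun k _ => mul_comm _ _

end Vale.Agent.P011.H961
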