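import Vale.Agent.P011.H698.LevFF
import Vale.Agent.P011.H777.SALev

/-!
# The levels over function fields in the form used for strong approximation
-/

open Module Filter Topology

set_option linter.unusedSectionVars false

namespace Vale.Agent.P011.H961

open Vale.Agent.P011.H738 Vale.Agent.P011.H271 Vale.Agent.P011.H698

variable {k A : Type} [Field k] [GFF k] [Ring A] [StarRing A] [Algebra k A] {N : ℕ}
  (B : Basis (Fin N) k A) {Γ : Type*} [Group Γ] (j : Γ →* UA A)

/-- The element of the algebra. -/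
def el (x : Γ) : A := ((j x : Aˣ) : A)

theorem el_mul (x y : Γ) : el j (x * y) = el j x * el j y := by
  rw [el, map_mul]
  rfl

theorem el_one : el j (1 : Γ) = 1 := by
  rw [el, map_one]
  rfl

theorem el_inv (x : Γ) : el j x⁻¹ = star (el j x) := by
  rw [el, map_inv, ua_inv]
  rfl

theorem el_mul_star (x : Γ) : el j x * star (el j x) = 1 := ua_mul_star _

theorem el_star_mul (x : Γ) : star (el j x) * el j x = 1 := ua_star_mul _

/-- The neighbourhoods of one at `v`. -/
def nrF (v : Place k) : Filter Γ where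
  sets := {W | ∃ ε : ℝ, 0 < ε ∧ ∀ x, Sm B v ε (el j x - 1) → x ∈ W}
  univ_sets := ⟨1, one_pos, fun _ _ => trivial⟩
  sets_of_superset := by
    rintro W W' ⟨ε, hε, h⟩ hW
    exact ⟨ε, hε, fun x hx => hW (h x hx)⟩
  inter_sets := by
    rintro W W' ⟨ε, hε, h⟩ ⟨ε', hε', h'⟩
    exact ⟨min ε ε', lt_min hε hε', fun x hx =>
      ⟨h x (hx.mono (min_le_left _ _)), h' x (hx.mono (min_le_right _ _))⟩⟩

variable {B j} in
theorem mem_nrF {v : Place k} {W : Set Γ} :
    W ∈ nrF B j v ↔ ∃ ε : ℝ, 0 < ε ∧ ∀ x, Sm B v ε (el j x - 1) → x ∈ W := Iff.rfl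

theorem ball_mem (v : Place k) {ε : ℝ} (hε : 0 < ε) : {x : Γ | Sm B v ε (el j x - 1)} ∈ nrF B j v :=
  ⟨ε, hε, fun _ hx => hx⟩

open Classical in
/-- The integral elements at a good place, everything at a bad place. -/
noncomputable def kintF (hst : ∀ (c : k) (x : A), star (c • x) = c • star x) (v : Place k) :
    Subgroup Γ :=
  if h : Gd B v then
    { carrier := {x | Bd B v 1 (el j x)}
      mul_mem' := by
        intro x y hx hy
        rw [Set.mem_ofPred_eq] at hx hy ⊢
        rw [el_mul]
        have := h.mul' zero_le_one zero_le_one hx hy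
        rwa [mul_one] at this
      one_mem' := by
        rw [Set.mem_ofPred_eq, el_one]
        exact h.one
      inv_mem' := by
        intro x hx
        rw [Set.mem_ofPred_eq] at hx ⊢
        rw [el_inv]
        exact h.star' hst zero_le_one hx }
  else ⊤

theorem mem_kintF {hst : ∀ (c : k) (x : A), star (c • x) = c • star x} {v : Place k}
    (h : Gd B v) {x : Γ} : x ∈ kintF B j hst v ↔ Bd B v 1 (el j x) := by
  rw [kintF, dif_pos h]
  exact Iff.rfl

theorem kintF_bad {hst : ∀ (c : k) (x : A), star (c • x) = c • star x} {v : Place k}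
    (h : ¬ Gd B v) : kintF B j hst v = ⊤ := by
  rw [kintF, dif_neg h]

theorem mem_kintF_of {hst : ∀ (c : k) (x : A), star (c • x) = c • star x} {v : Place k}
    {x : Γ} (hx : Bd B v 1 (el j x)) : x ∈ kintF B j hst v := by
  by_cases h : Gd B v
  · exact (mem_kintF B j h).mpr hx
  · rw [kintF_bad B j h]
    trivial

/-- Conjugation of elements near one by bounded elements. -/
theorem conj_near (hst : ∀ (c : k) (x : A), star (c • x) = c • star x) (v : Place k) {R ε : ℝ}
    (hε : 0 < ε) : ∃ ε' : ℝ, 0 < ε' ∧ ∀ g x : A, g * star g = 1 → Bd B v R g →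
      Sm B v ε' (x - 1) → Sm B v ε (g * x * star g - 1) := by
  obtain ⟨C, hC1, -, hCm, hCs, -⟩ := exists_const B hst
  have hC0 : 0 ≤ C v := zero_le_one.trans (hC1 v)
  obtain ⟨D, hDd⟩ : ∃ D : ℝ, D = C v * (C v * |R|) * (C v * |R|) := ⟨_, rfl⟩
  have hD : 0 ≤ D := by rw [hDd]; positivity
  refine ⟨ε / (D + 1), by positivity, fun g x hg hgR hx => ?_⟩
  have e : g * x * star g - 1 = g * (x - 1) * star g := by rw [mul_sub, sub_mul, mul_one, hg]
  have h1 : Bd B v |R| g := hgR.mono (le_abs_self _)
  have h2 := hCs v _ g (abs_nonneg R) h1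
  have h3 := hCm v _ _ _ _ (abs_nonneg R) (by positivity) h1 hx.bd
  have h4 := hCm v _ _ _ _ (by positivity) (by positivity) h3 h2
  rw [e]
  refine h4.sm ?_
  calc C v * (C v * |R| * (ε / (D + 1))) * (C v * |R|) = D * (ε / (D + 1)) := by rw [hDd]; ring
    _ < ε := by
      rw [mul_div_assoc', div_lt_iff₀ (by positivity)]
      nlinarith

/-- The levels. -/
noncomputable def levF (hst : ∀ (c : k) (x : A), star (c • x) = c • star x) :
    H777.Levels Γ (Place k) where
  Kint := kintF B j hst
  Nr := nrF B j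
  Nroo := ⊤
  mul_nr := by
    rintro v W ⟨ε, hε, h⟩
    obtain ⟨C, hC1, -, hCm, -, -⟩ := exists_const B hst
    have hC0 : 0 ≤ C v := zero_le_one.trans (hC1 v)
    refine ⟨_, ball_mem B j v (ε := min ε (1 / (C v + 1))) (by positivity), ?_⟩
    intro x hx y hy
    rw [Set.mem_ofPred_eq] at hx hy
    refine h _ ?_
    have e : el j (x * y) - 1 = (el j x - 1) * (el j y - 1) + (el j x - 1) + (el j y - 1) := by
      rw [el_mul]
      noncomm_ring
    rw [e]
    refine (Sm.add ?_ (hx.mono (min_le_left _ _))).add (hy.mono (min_le_left _ _))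
    have h1 := hCm v _ _ _ _ (by positivity) (by positivity)
      (hx.mono (min_le_right _ _)).bd (hy.mono (min_le_left _ _)).bd
    refine h1.sm ?_
    calc C v * (1 / (C v + 1)) * ε < 1 * ε := by
          refine mul_lt_mul_of_pos_right ?_ hε
          rw [mul_one_div, div_lt_one (by positivity)]
          linarith
      _ = ε := one_mul _
  mul_nroo := by
    intro W hW
    rw [mem_top] at hW
    exact ⟨W, by rw [mem_top]; exact hW, fun _ _ _ _ => by rw [hW]; trivial⟩
  inv_nr := by
    rintro v W ⟨ε, hε, h⟩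
    obtain ⟨C, hC1, -, -, hCs, -⟩ := exists_const B hst
    have hC0 : 0 < C v := one_pos.trans_le (hC1 v)
    refine ⟨_, ball_mem B j v (ε := ε / (2 * C v)) (by positivity), ?_⟩
    intro x hx
    rw [Set.mem_ofPred_eq] at hx
    refine h _ ?_
    have e : el j x⁻¹ - 1 = star (el j x - 1) := by rw [el_inv, star_sub, star_one]
    rw [e]
    refine (hCs v _ _ (by positivity) hx.bd).sm ?_
    have : C v * (ε / (2 * C v)) = ε / 2 := by field_simp
    rw [this]
    linarith
  inv_nroo := by
    intro W hW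
    rw [mem_top] at hW
    exact ⟨W, by rw [mem_top]; exact hW, fun _ _ => by rw [hW]; trivial⟩
  conj_nr := by
    rintro v g W ⟨ε, hε, h⟩
    obtain ⟨R, -, hR⟩ := exists_bd (B := B) (v := v) (el j g)
    obtain ⟨ε', hε', hc⟩ := conj_near B hst v (R := R) hε
    refine ⟨_, ball_mem B j v hε', ?_⟩
    intro x hx
    rw [Set.mem_ofPred_eq] at hx
    refine h _ ?_
    rw [el_mul, el_mul, el_inv]
    exact hc _ _ (el_mul_star j g) hR hx
  conj_nroo := by
    intro g W hW
    rw [mem_top] at hW
    exact ⟨W, by rw [mem_top]; exact hW, fun _ _ => by rw [hW]; trivial⟩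
  one_nr := by
    rintro v W ⟨ε, hε, h⟩
    refine h _ ?_
    rw [el_one, sub_self]
    exact sm_zero hε
  one_nroo := by
    intro W hW
    rw [mem_top] at hW
    rw [hW]
    trivial
  int_nr := by
    intro v
    refine ⟨1, one_pos, fun x hx => ?_⟩
    by_cases h : Gd B v
    · exact (mem_kintF B j h).mpr (h.of_near hx.bd)
    · rw [kintF_bad B j h]
      trivial
  fin := by
    intro g
    refine (finite_nonint B (el j g)).subset fun v hv => ?_
    rw [Set.mem_ofPred_eq] at hv ⊢
    intro hcon
    exact hv (mem_kintF_of B j hcon)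

theorem levF_Kint (hst : ∀ (c : k) (x : A), star (c • x) = c • star x) (v : Place k) :
    (levF B j hst).Kint v = kintF B j hst v := rfl

theorem levF_Nr (hst : ∀ (c : k) (x : A), star (c • x) = c • star x) (v : Place k) :
    (levF B j hst).Nr v = nrF B j v := rfl

end Vale.Agent.P011.H961
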