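import Vale.Agent.P011.H961.Model
import Vale.Agent.P011.H961.Lev
import Vale.Agent.P011.H698.T6

/-!
# Approximation at one place
-/

open Module Matrix Topology Filter

set_option linter.unusedSectionVars false

namespace Vale.Agent.P011.H961

open Vale.Agent.P011.H738 Vale.Agent.P011.H271 Vale.Agent.P011.H698

variable {k K A Ω : Type} [Field k] [GFF k] [Field K] [StarRing K] [Ring A] [StarRing A]
  [Algebra k K] [Algebra k A] [Algebra K A] [IsScalarTower k K A] [StarModule K A] {n N : ℕ}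
  [Field Ω] [Algebra K Ω] {f : A →ₐ[K] Matrix (Fin n) (Fin n) Ω} {B : Basis (Fin N) k A}
  {v : Place k} {L : Type} [NontriviallyNormedField L]
  {E : Subgroup (Matrix (Fin n) (Fin n) L)ˣ} {g : A →+* Matrix (Fin n) (Fin n) L}

/-- The map to the local group. -/
def LM.iota (h : LM f B v E g) : UA A →* E :=
  ((Units.map (g : A →* Matrix (Fin n) (Fin n) L)).comp (UA A).subtype).codRestrict E h.mem

theorem LM.iota_val (h : LM f B v E g) (u : UA A) :
    (((h.iota u : E) : (Matrix (Fin n) (Fin n) L)ˣ) : Matrix (Fin n) (Fin n) L) =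
      g ((u : Aˣ) : A) := rfl

theorem LM.iota_inv (h : LM f B v E g) (u : UA A) :
    ((((h.iota u : E) : (Matrix (Fin n) (Fin n) L)ˣ)⁻¹ : (Matrix (Fin n) (Fin n) L)ˣ) :
      Matrix (Fin n) (Fin n) L) = g (star ((u : Aˣ) : A)) := by
  have h1 : ((h.iota u : E) : (Matrix (Fin n) (Fin n) L)ˣ)⁻¹ =
      ((h.iota u⁻¹ : E) : (Matrix (Fin n) (Fin n) L)ˣ) := by
    rw [map_inv]
    rfl
  rw [h1, h.iota_val, ua_inv]

/-- Elements near one at `v` are near one in the local group. -/
theorem LM.near (h : LM f B v E g) (hst : ∀ (c : k) (x : A), star (c • x) = c • star x) {δ : ℝ}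
    (hδ : 0 < δ) : ∃ ε : ℝ, 0 < ε ∧ ∀ x : A, Sm B v ε (x - 1) →
      Eb δ (g x - 1) ∧ Eb δ (g (star x) - 1) := by
  obtain ⟨C, hC1, hup⟩ := h.up
  obtain ⟨D, hD1, -, -, hDs, -⟩ := exists_const B hst
  have hC0 : 0 < C := one_pos.trans_le hC1
  have hD0 : 0 < D v := one_pos.trans_le (hD1 v)
  refine ⟨δ / (C * D v), by positivity, fun x hx => ?_⟩
  have h1 := hup _ _ (by positivity) hx.bd
  have h2 := hup _ _ (by positivity) (hDs v _ _ (by positivity) hx.bd)
  rw [map_sub, map_one] at h1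
  rw [star_sub, star_one, map_sub, map_one] at h2
  refine ⟨h1.mono ?_, h2.mono ?_⟩
  · have : C * (δ / (C * D v)) = δ / D v := by field_simp
    rw [this]
    exact div_le_self hδ.le (hD1 v)
  · have : C * (D v * (δ / (C * D v))) = δ := by field_simp
    rw [this]

/-- Elements near one in the local group are near one at `v`. -/
theorem LM.far (h : LM f B v E g) {ε : ℝ} (hε : 0 < ε) : ∃ δ : ℝ, 0 < δ ∧ ∀ x : A,
    Eb δ (g x - 1) → Eb δ (g (star x) - 1) → Sm B v ε (x - 1) := by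
  obtain ⟨C, hC1, hlo⟩ := h.lo
  have hC0 : 0 < C := one_pos.trans_le hC1
  refine ⟨ε / (2 * C), by positivity, fun x h1 h2 => ?_⟩
  have h3 := hlo (ε / (2 * C)) (x - 1) (by positivity) (by rwa [map_sub, map_one])
    (by rwa [star_sub, star_one, map_sub, map_one])
  refine h3.sm ?_
  have : C * (ε / (2 * C)) = ε / 2 := by field_simp
  rw [this]
  linarith

/-- Bounded elements. -/
theorem LM.ub (h : LM f B v E g) (hst : ∀ (c : k) (x : A), star (c • x) = c • star x) (R : ℝ) :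
    ∃ R' : ℝ, 0 ≤ R' ∧ ∀ u : UA A, Bd B v R ((u : Aˣ) : A) →
      Ub R' ((h.iota u : E) : (Matrix (Fin n) (Fin n) L)ˣ) := by
  obtain ⟨C, hC1, hup⟩ := h.up
  obtain ⟨D, hD1, -, -, hDs, -⟩ := exists_const B hst
  have hC0 : 0 < C := one_pos.trans_le hC1
  have hD0 : 0 < D v := one_pos.trans_le (hD1 v)
  refine ⟨C * (D v * |R|), by positivity, fun u hu => ⟨?_, ?_⟩⟩
  · rw [h.iota_val]
    refine (hup _ _ (abs_nonneg R) (hu.mono (le_abs_self R))).mono ?_
    exact mul_le_mul_of_nonneg_left (le_mul_of_one_le_left (abs_nonneg R) (hD1 v)) hC0.le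
  · rw [h.iota_inv]
    exact hup _ _ (by positivity) (hDs v _ _ (abs_nonneg R) (hu.mono (le_abs_self R)))

theorem LM.closure_range (h : LM f B v E g) : closure (Set.range h.iota) = Set.univ := by
  rw [Set.eq_univ_iff_forall]
  intro x
  rw [closure_subtype]
  have h1 := h.dense x.2
  convert h1 using 2
  ext y
  constructor
  · rintro ⟨_, ⟨u, rfl⟩, rfl⟩
    exact ⟨u, rfl⟩
  · rintro ⟨u, rfl⟩
    exact ⟨_, ⟨u, rfl⟩, rfl⟩

variable [ProperSpace L] [IsUltrametricDist L]

theorem LM.compact (h : LM f B v E g) (R : ℝ) :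
    IsCompact {e : E | Ub R (e : (Matrix (Fin n) (Fin n) L)ˣ)} := by
  have h1 : IsClosedEmbedding (Subtype.val : E → (Matrix (Fin n) (Fin n) L)ˣ) :=
    h.closed.isClosedEmbedding_subtypeVal
  exact h1.isCompact_preimage (isCompact_ub R)

theorem isOpen_ubE {R : ℝ} (hR : 0 < R) :
    IsOpen {e : E | Ub R (e : (Matrix (Fin n) (Fin n) L)ˣ)} :=
  (isOpen_ub hR).preimage continuous_subtype_val

end Vale.Agent.P011.H961
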