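import Vale.Agent.P011.H182.Nma

/-!
# Large traces

Abstract form: a monoid of commutators of unitary elements contains elements `g`, close to one at
finitely many places, such that a given linear form is large on `u * g` at finitely many other
places, as soon as the conjugations by unitary elements are not bounded there.
-/

open Module

set_option linter.unusedSectionVars false

namespace Vale.Agent.P011.H961

open Vale.Agent.P011.H182

section one

variable {k K D : Type} [Field k] [Field K] [Algebra k K] [DivisionRing D] [Algebra k D]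
  [Algebra K D] [IsScalarTower k K D] [FiniteDimensional K D] {N M : ℕ}
  (B : Basis (Fin N) k D) (BK : Basis (Fin M) k K) (a : AbsoluteValue k ℝ)

/-- linear maps to `K` are continuous -/
theorem na_lin2 (f : D →ₗ[k] K) : ∃ C : ℝ, 0 < C ∧ ∀ x, na BK a (f x) ≤ C * na B a x := by
  refine ⟨∑ i, na BK a (f (B i)) + 1, ?_, fun x => ?_⟩
  · have := Finset.sum_nonneg fun (i : Fin N) (_ : i ∈ Finset.univ) => na_nonneg BK a (f (B i))
    linarith
  · have h1 : f x = ∑ i, B.repr x i • f (B i) := by
      conv_lhs => rw [← B.sum_repr x]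
      rw [map_sum]
      exact Finset.sum_congr rfl fun i _ => map_smul _ _ _
    rw [h1]
    refine (na_sum_le BK a _ _).trans ?_
    have h2 : ∀ i ∈ (Finset.univ : Finset (Fin N)), na BK a (B.repr x i • f (B i)) ≤
        (∑ i, na BK a (f (B i)) + 1) * a (B.repr x i) := by
      intro i _
      rw [na_smul, mul_comm]
      refine mul_le_mul_of_nonneg_right ?_ (AbsoluteValue.nonneg _ _)
      have := Finset.single_le_sum (f := fun i => na BK a (f (B i)))
        (fun _ _ => na_nonneg _ _ _) (Finset.mem_univ i)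
      linarith
    refine (Finset.sum_le_sum h2).trans ?_
    rw [← Finset.mul_sum]
    rfl

/-- linear maps from a finite power of `K` are continuous -/
theorem na_lin3 {t : Type} [Fintype t] [DecidableEq t] (f : (t → K) →ₗ[k] D) :
    ∃ C : ℝ, 0 < C ∧ ∀ (w : t → K) (R : ℝ), 0 ≤ R → (∀ y, na BK a (w y) ≤ R) →
      na B a (f w) ≤ C * R := by
  refine ⟨∑ y : t, ∑ j, na B a (f (Pi.single y (BK j))) + 1, ?_, fun w R hR hw => ?_⟩
  · have := Finset.sum_nonneg fun (y : t) (_ : y ∈ Finset.univ) =>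
      Finset.sum_nonneg fun (j : Fin M) (_ : j ∈ Finset.univ) =>
        na_nonneg B a (f (Pi.single y (BK j)))
    linarith
  have h1 : w = ∑ y : t, ∑ j, BK.repr (w y) j • (Pi.single y (BK j) : t → K) := by
    funext z
    rw [Finset.sum_apply, Finset.sum_eq_single z]
    · rw [Finset.sum_apply]
      conv_lhs => rw [← BK.sum_repr (w z)]
      refine Finset.sum_congr rfl fun j _ => ?_
      rw [Pi.smul_apply, Pi.single_eq_same]
    · intro y _ hy
      rw [Finset.sum_apply]
      refine Finset.sum_eq_zero fun j _ => ?_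
      rw [Pi.smul_apply, Pi.single_eq_of_ne (Ne.symm hy), smul_zero]
    · intro h
      exact absurd (Finset.mem_univ z) h
  have h2 : f w = ∑ y : t, ∑ j, BK.repr (w y) j • f (Pi.single y (BK j)) := by
    conv_lhs => rw [h1]
    rw [map_sum]
    refine Finset.sum_congr rfl fun y _ => ?_
    rw [map_sum]
    exact Finset.sum_congr rfl fun j _ => map_smul _ _ _
  rw [h2]
  refine (na_sum_le B a _ _).trans ?_
  have h3 : ∀ y ∈ (Finset.univ : Finset t),
      na B a (∑ j, BK.repr (w y) j • f (Pi.single y (BK j))) ≤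
        (∑ j, na B a (f (Pi.single y (BK j)))) * R := by
    intro y _
    refine (na_sum_le B a _ _).trans ?_
    rw [Finset.sum_mul]
    refine Finset.sum_le_sum fun j _ => ?_
    rw [na_smul, mul_comm]
    exact mul_le_mul_of_nonneg_left ((coord_le_na BK a (w y) j).trans (hw y))
      (na_nonneg _ _ _)
  refine (Finset.sum_le_sum h3).trans ?_
  rw [← Finset.sum_mul]
  nlinarith

/-- An element is bounded if the linear form is bounded on its products with a spanning set. -/
theorem bdd_of_T {S : Set D} (hspan : Submodule.span K S = ⊤) {T : D →ₗ[K] K} (hT : T ≠ 0) :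
    ∃ C : ℝ, 0 < C ∧ ∀ (x : D) (R : ℝ), 0 ≤ R → (∀ y ∈ S, na BK a (T (x * y)) ≤ R) →
      na B a x ≤ C * R := by
  classical
  obtain ⟨t, htS, ht⟩ := (Submodule.fg_span_iff_fg_span_finset_subset S).1 (by
    rw [hspan]
    exact Module.Finite.fg_top)
  rw [hspan] at ht
  let Φ : D →ₗ[k] (t → K) :=
    LinearMap.pi fun y => (T.restrictScalars k) ∘ₗ (LinearMap.mulRight k (y : D))
  have hΦ : ∀ x y, Φ x y = T (x * (y : D)) := fun _ _ => rfl
  have hker : LinearMap.ker Φ = ⊥ := by
    rw [LinearMap.ker_eq_bot']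
    intro x hx
    by_contra hx0
    apply hT
    have h1 : ∀ z : D, T (x * z) = 0 := by
      intro z
      have hz : z ∈ Submodule.span K (t : Set D) := by
        rw [← ht]
        exact Submodule.mem_top
      induction hz using Submodule.span_induction with
      | mem y hy => exact (hΦ x ⟨y, hy⟩).symm.trans (by rw [hx]; rfl)
      | zero => rw [mul_zero, map_zero]
      | add y z _ _ hy hz => rw [mul_add, map_add, hy, hz, add_zero]
      | smul c y _ hy => rw [mul_smul_comm, map_smul, hy, smul_zero]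
    ext w
    have h2 := h1 (x⁻¹ * w)
    rw [mul_inv_cancel_left₀ hx0] at h2
    rw [h2, LinearMap.zero_apply]
  obtain ⟨Ψ, hΨ⟩ := LinearMap.exists_leftInverse_of_injective Φ hker
  obtain ⟨C, hC, hCb⟩ := na_lin3 B BK a Ψ
  refine ⟨C, hC, fun x R hR hx => ?_⟩
  have h1 : Ψ (Φ x) = x := by
    rw [← LinearMap.comp_apply, hΨ, LinearMap.id_apply]
  have h2 := hCb (Φ x) R hR fun y => by
    rw [hΦ]
    exact hx _ (htS y.2)
  rwa [h1] at h2

/-- The multiplication is continuous. -/
theorem na_mulc (x y : D) {ε : ℝ} (hε : 0 < ε) : ∃ δ : ℝ, 0 < δ ∧ ∀ x' y' : D,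
    na B a (x' - x) < δ → na B a (y' - y) < δ → na B a (x' * y' - x * y) < ε := by
  obtain ⟨C, hC1, hC⟩ := na_mul B a
  have hC0 : 0 < C := by linarith
  have hx0 := na_nonneg B a x
  have hy0 := na_nonneg B a y
  obtain ⟨W, hW⟩ : ∃ W : ℝ, W = C * (1 + na B a x + na B a y) := ⟨_, rfl⟩
  have hW0 : 0 < W := by rw [hW]; positivity
  refine ⟨min 1 (ε / W), lt_min one_pos (by positivity), fun x' y' hx hy => ?_⟩
  have e : x' * y' - x * y = (x' - x) * (y' - y) + (x' - x) * y + x * (y' - y) := by noncomm_ring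
  have h1 := hC (x' - x) (y' - y)
  have h2 := hC (x' - x) y
  have h3 := hC x (y' - y)
  have hx1 := hx.trans_le (min_le_left _ _)
  have hx2 := hx.trans_le (min_le_right _ _)
  have hy2 := hy.trans_le (min_le_right _ _)
  have hx3 := na_nonneg B a (x' - x)
  have hy3 := na_nonneg B a (y' - y)
  obtain ⟨δ, hδ⟩ : ∃ δ : ℝ, δ = max (na B a (x' - x)) (na B a (y' - y)) := ⟨_, rfl⟩
  have hδ1 : na B a (x' - x) ≤ δ := by rw [hδ]; exact le_max_left _ _
  have hδ2 : na B a (y' - y) ≤ δ := by rw [hδ]; exact le_max_right _ _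
  have hδ3 : δ < ε / W := by rw [hδ]; exact max_lt hx2 hy2
  have hδ0 : 0 ≤ δ := hx3.trans hδ1
  rw [lt_div_iff₀ hW0] at hδ3
  have h4 : C * na B a (x' - x) * na B a (y' - y) ≤ C * δ := by
    calc C * na B a (x' - x) * na B a (y' - y) ≤ C * 1 * na B a (y' - y) := by
          refine mul_le_mul_of_nonneg_right (mul_le_mul_of_nonneg_left hx1.le hC0.le) hy3
      _ ≤ C * δ := by rw [mul_one]; exact mul_le_mul_of_nonneg_left hδ2 hC0.le
  have h5 : C * na B a (x' - x) * na B a y ≤ C * δ * na B a y :=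
    mul_le_mul_of_nonneg_right (mul_le_mul_of_nonneg_left hδ1 hC0.le) hy0
  have h6 : C * na B a x * na B a (y' - y) ≤ C * na B a x * δ :=
    mul_le_mul_of_nonneg_left hδ2 (mul_nonneg hC0.le hx0)
  calc na B a (x' * y' - x * y) ≤
      na B a ((x' - x) * (y' - y)) + na B a ((x' - x) * y) + na B a (x * (y' - y)) := by
        rw [e]
        exact (na_add_le B a _ _).trans (add_le_add (na_add_le B a _ _) le_rfl)
    _ ≤ C * δ + C * δ * na B a y + C * na B a x * δ := by linarith
    _ = δ * W := by rw [hW]; ring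
    _ < ε := hδ3

end one

/-- The monoid of products of commutators of unitary elements. -/
def CS (D : Type) [DivisionRing D] [StarRing D] : Submonoid D :=
  Submonoid.closure {x | ∃ y z : D, y * star y = 1 ∧ z * star z = 1 ∧ x = y * z * y⁻¹ * z⁻¹}

section cs

variable {D : Type} [DivisionRing D] [StarRing D]

theorem un_ne {y : D} (hy : y * star y = 1) : y ≠ 0 := left_ne_zero_of_mul_eq_one hy

theorem un_inv {y : D} (hy : y * star y = 1) : y⁻¹ = star y := inv_eq_of_mul_eq_one_right hy

theorem un_conj {h y : D} (hh : h * star h = 1) (hy : y * star y = 1) :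
    (h * y * h⁻¹) * star (h * y * h⁻¹) = 1 := by
  have h1 : star h * h = 1 := by rw [← un_inv hh, inv_mul_cancel₀ (un_ne hh)]
  rw [un_inv hh, star_mul, star_mul, star_star]
  calc h * y * star h * (h * (star y * star h)) = h * y * (star h * h) * (star y * star h) := by
        simp only [mul_assoc]
    _ = h * (y * star y) * star h := by rw [h1]; simp only [mul_assoc, mul_one]
    _ = 1 := by rw [hy, mul_one, hh]

theorem conj_mul4 {h : D} (hh : h ≠ 0) (x y : D) :
    h * (x * y) * h⁻¹ = (h * x * h⁻¹) * (h * y * h⁻¹) := by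
  calc h * (x * y) * h⁻¹ = h * x * (h⁻¹ * h) * y * h⁻¹ := by
        rw [inv_mul_cancel₀ hh]; simp only [mul_assoc, one_mul]
    _ = _ := by simp only [mul_assoc]

theorem conj_inv4 {h : D} (x : D) : h * x⁻¹ * h⁻¹ = (h * x * h⁻¹)⁻¹ := by
  rw [mul_inv_rev, mul_inv_rev, inv_inv, mul_assoc]

theorem cs_conj {h g : D} (hh : h * star h = 1) (hg : g ∈ CS D) : h * g * h⁻¹ ∈ CS D := by
  have hh0 := un_ne hh
  unfold CS at hg ⊢
  induction hg using Submonoid.closure_induction with
  | mem x hx =>
    obtain ⟨y, z, hy, hz, rfl⟩ := hx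
    refine Submonoid.subset_closure ⟨h * y * h⁻¹, h * z * h⁻¹, un_conj hh hy, un_conj hh hz, ?_⟩
    rw [conj_mul4 hh0, conj_mul4 hh0, conj_mul4 hh0, conj_inv4, conj_inv4]
  | one =>
    rw [mul_one, mul_inv_cancel₀ hh0]
    exact Submonoid.one_mem _
  | mul x y _ _ hx hy =>
    rw [conj_mul4 hh0]
    exact Submonoid.mul_mem _ hx hy

end cs

section two

variable {k K D : Type} [Field k] [Field K] [Algebra k K] [DivisionRing D] [StarRing D]
  [Algebra k D] [Algebra K D] [IsScalarTower k K D] [FiniteDimensional K D] {N M : ℕ}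
  (B : Basis (Fin N) k D) (BK : Basis (Fin M) k K)

/-- One place, exact products of commutators. -/
theorem big_one (a : AbsoluteValue k ℝ) (hspan : Submodule.span K (CS D : Set D) = ⊤)
    {T : D →ₗ[K] K} (hT : T ≠ 0)
    (hunb : ∃ z : D, ∀ R : ℝ, ∃ h : D, h * star h = 1 ∧ R < na B a (h * z * h⁻¹))
    {u : D} (hu : u ≠ 0) (R : ℝ) : ∃ g ∈ CS D, R < na BK a (T (u * g)) := by
  by_contra hcon
  push Not at hcon
  have hR : 0 ≤ R := (na_nonneg BK a _).trans (hcon 1 (CS D).one_mem)
  obtain ⟨C, hC, hCb⟩ := bdd_of_T B BK a hspan hT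
  obtain ⟨C2, hC2, hm⟩ := na_mul B a
  have h1 : ∀ h : D, h * star h = 1 → ∀ g ∈ CS D,
      na B a (h * g * h⁻¹) ≤ C2 * na B a u⁻¹ * (C * R) := by
    intro h hh g hg
    have hg' := cs_conj hh hg
    have h2 := hCb (u * (h * g * h⁻¹)) R hR fun y hy => by
      rw [mul_assoc u]
      exact hcon _ ((CS D).mul_mem hg' hy)
    have h3 := hm u⁻¹ (u * (h * g * h⁻¹))
    rw [inv_mul_cancel_left₀ hu] at h3
    refine h3.trans (mul_le_mul_of_nonneg_left h2 ?_)
    exact mul_nonneg (by linarith) (na_nonneg _ _ _)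
  have h2 : ∀ w : D, ∃ R1 : ℝ, ∀ h : D, h * star h = 1 → na B a (h * w * h⁻¹) ≤ R1 := by
    intro w
    have hw : w ∈ Submodule.span K (CS D : Set D) := by
      rw [hspan]
      exact Submodule.mem_top
    induction hw using Submodule.span_induction with
    | mem y hy => exact ⟨_, fun h hh => h1 h hh y hy⟩
    | zero =>
      refine ⟨0, fun h _ => ?_⟩
      rw [mul_zero, zero_mul, na_zero]
    | add y z _ _ hy hz =>
      obtain ⟨R1, h1⟩ := hy
      obtain ⟨R2, h2⟩ := hz
      refine ⟨R1 + R2, fun h hh => ?_⟩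
      rw [mul_add, add_mul]
      exact (na_add_le _ _ _ _).trans (add_le_add (h1 h hh) (h2 h hh))
    | smul c y _ hy =>
      obtain ⟨R1, h1⟩ := hy
      obtain ⟨C3, hC3, h3⟩ := na_linear B a ((c • (LinearMap.id : D →ₗ[K] D)).restrictScalars k)
      refine ⟨C3 * R1, fun h hh => ?_⟩
      have e : h * (c • y) * h⁻¹ =
          (c • (LinearMap.id : D →ₗ[K] D)).restrictScalars k (h * y * h⁻¹) := by
        rw [mul_smul_comm, smul_mul_assoc]
        rfl
      rw [e]
      exact (h3 _).trans (mul_le_mul_of_nonneg_left (h1 h hh) hC3.le)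
  obtain ⟨z, hz⟩ := hunb
  obtain ⟨R1, h3⟩ := h2 z
  obtain ⟨h, hh, h4⟩ := hz R1
  exact absurd (h3 h hh) (not_le.mpr h4)

/-- Commutators of unitary elements are continuous. -/
theorem comm_c (hst : ∀ (c : k) (x : D), star (c • x) = c • star x) (a : AbsoluteValue k ℝ)
    {y z : D} (hy : y * star y = 1) (hz : z * star z = 1) {ε : ℝ} (hε : 0 < ε) :
    ∃ δ : ℝ, 0 < δ ∧ ∀ y' z' : D, y' * star y' = 1 → z' * star z' = 1 →
      na B a (y' - y) < δ → na B a (z' - z) < δ →
      na B a (y' * z' * y'⁻¹ * z'⁻¹ - y * z * y⁻¹ * z⁻¹) < ε := by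
  obtain ⟨C, hC1, -, hCs⟩ := na_const B a hst
  have hC0 : 0 < C := by linarith
  obtain ⟨δ1, hδ1, h1⟩ := na_mulc B a (y * z) (star y * star z) hε
  obtain ⟨δ2, hδ2, h2⟩ := na_mulc B a y z hδ1
  obtain ⟨δ3, hδ3, h3⟩ := na_mulc B a (star y) (star z) hδ1
  refine ⟨min δ2 (δ3 / C), lt_min hδ2 (by positivity), fun y' z' hy' hz' hyy hzz => ?_⟩
  have e : ∀ {y z : D}, y * star y = 1 → z * star z = 1 →
      y * z * y⁻¹ * z⁻¹ = (y * z) * (star y * star z) := by
    intro y z hy hz
    rw [un_inv hy, un_inv hz, mul_assoc (y * z)]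
  rw [e hy hz, e hy' hz']
  refine h1 _ _ (h2 _ _ (hyy.trans_le (min_le_left _ _)) (hzz.trans_le (min_le_left _ _))) ?_
  have hs : ∀ {x x' : D}, na B a (x' - x) < min δ2 (δ3 / C) → na B a (star x' - star x) < δ3 := by
    intro x x' hx
    rw [← star_sub]
    refine (hCs _).trans_lt ?_
    have := hx.trans_le (min_le_right _ _)
    rwa [lt_div_iff₀ hC0, mul_comm] at this
  exact h3 _ _ (hs hyy) (hs hzz)

variable {ι : Type} (ab : ι → AbsoluteValue k ℝ)

/-- Approximation at one place by elements which are close to one at finitely many other ones. -/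
theorem cs_near (hst : ∀ (c : k) (x : D), star (c • x) = c • star x)
    (hWA : ∀ P : Set ι, P.Finite → ∀ u : ι → D, (∀ p ∈ P, u p * star (u p) = 1) →
      ∀ ε : ι → ℝ, (∀ p, 0 < ε p) → ∃ w : D, w * star w = 1 ∧
        ∀ p ∈ P, na B (ab p) (w - u p) < ε p)
    {P : Set ι} (hP : P.Finite) {v : ι} (hv : v ∉ P) {g : D} (hg : g ∈ CS D) :
    ∀ ε : ι → ℝ, (∀ p, 0 < ε p) → ∃ g' ∈ CS D, (∀ p ∈ P, na B (ab p) (g' - 1) < ε p) ∧
      na B (ab v) (g' - g) < ε v := by
  classical
  unfold CS at hg
  induction hg using Submonoid.closure_induction with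
  | mem x hx =>
    obtain ⟨y, z, hy, hz, rfl⟩ := hx
    intro ε hε
    let Y : ι → D := fun p => if p = v then y else 1
    let Z : ι → D := fun p => if p = v then z else 1
    have hY : ∀ p, Y p * star (Y p) = 1 := by
      intro p
      by_cases h : p = v
      · simp only [Y, if_pos h]; exact hy
      · simp only [Y, if_neg h]; rw [star_one, one_mul]
    have hZ : ∀ p, Z p * star (Z p) = 1 := by
      intro p
      by_cases h : p = v
      · simp only [Z, if_pos h]; exact hz
      · simp only [Z, if_neg h]; rw [star_one, one_mul]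
    choose δ hδ h1 using fun p => comm_c B hst (ab p) (hY p) (hZ p) (hε p)
    obtain ⟨y', hy', h2⟩ := hWA (insert v P) (hP.insert v) Y (fun p _ => hY p) δ hδ
    obtain ⟨z', hz', h3⟩ := hWA (insert v P) (hP.insert v) Z (fun p _ => hZ p) δ hδ
    have h4 : ∀ p ∈ insert v P, na B (ab p) (y' * z' * y'⁻¹ * z'⁻¹ -
        Y p * Z p * (Y p)⁻¹ * (Z p)⁻¹) < ε p := fun p hp =>
      h1 p y' z' hy' hz' (h2 p hp) (h3 p hp)
    refine ⟨y' * z' * y'⁻¹ * z'⁻¹, Submonoid.subset_closure ⟨y', z', hy', hz', rfl⟩,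
      fun p hp => ?_, ?_⟩
    · have hpv : p ≠ v := fun h => hv (h ▸ hp)
      have h5 := h4 p (Set.mem_insert_of_mem _ hp)
      simp only [Y, Z, if_neg hpv, inv_one, mul_one] at h5
      exact h5
    · have h5 := h4 v (Set.mem_insert _ _)
      simp only [Y, Z, if_true] at h5
      exact h5
  | one =>
    intro ε hε
    refine ⟨1, (CS D).one_mem, fun p _ => ?_, ?_⟩
    · rw [sub_self, na_zero]; exact hε p
    · rw [sub_self, na_zero]; exact hε v
  | mul x y _ _ hx hy =>
    intro ε hε
    let X : ι → D := fun p => if p = v then x else 1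
    let Y : ι → D := fun p => if p = v then y else 1
    choose δ hδ h1 using fun p => na_mulc B (ab p) (X p) (Y p) (hε p)
    obtain ⟨x', hx', h2, h2v⟩ := hx δ hδ
    obtain ⟨y', hy', h3, h3v⟩ := hy δ hδ
    refine ⟨x' * y', (CS D).mul_mem hx' hy', fun p hp => ?_, ?_⟩
    · have hpv : p ≠ v := fun h => hv (h ▸ hp)
      have h5 := h1 p x' y'
      simp only [X, Y, if_neg hpv, mul_one] at h5
      exact h5 (h2 p hp) (h3 p hp)
    · have h5 := h1 v x' y'
      simp only [X, Y, if_true] at h5
      exact h5 h2v h3v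

/-- **Large values of a linear form at finitely many places.** -/
theorem big_all (hst : ∀ (c : k) (x : D), star (c • x) = c • star x)
    (hWA : ∀ P : Set ι, P.Finite → ∀ u : ι → D, (∀ p ∈ P, u p * star (u p) = 1) →
      ∀ ε : ι → ℝ, (∀ p, 0 < ε p) → ∃ w : D, w * star w = 1 ∧
        ∀ p ∈ P, na B (ab p) (w - u p) < ε p)
    (hspan : Submodule.span K (CS D : Set D) = ⊤) {T : D →ₗ[K] K} (hT : T ≠ 0)
    {P : Set ι} (hP : P.Finite) {u : D} (hu : u ≠ 0) (T' : Finset ι) :
    (∀ v ∈ T', ∃ z : D, ∀ R : ℝ, ∃ h : D, h * star h = 1 ∧ R < na B (ab v) (h * z * h⁻¹)) →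
    (∀ v ∈ T', v ∉ P) → ∀ ε : ι → ℝ, (∀ p, 0 < ε p) → ∀ R : ℝ,
    ∃ g ∈ CS D, (∀ p ∈ P, na B (ab p) (g - 1) < ε p) ∧
      ∀ v ∈ T', R < na BK (ab v) (T (u * g)) := by
  classical
  induction T' using Finset.induction_on with
  | empty =>
    intro _ _ ε hε R
    refine ⟨1, (CS D).one_mem, fun p _ => ?_, fun v hv => absurd hv (Finset.notMem_empty v)⟩
    rw [sub_self, na_zero]
    exact hε p
  | insert v T0 hv0 ih =>
    intro hunb hTP ε hε R
    choose δ hδ h1 using fun p => na_mulc B (ab p) (1 : D) 1 (hε p)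
    obtain ⟨g0, hg0, h2, h3⟩ := ih (fun w hw => hunb w (Finset.mem_insert_of_mem hw))
      (fun w hw => hTP w (Finset.mem_insert_of_mem hw)) δ hδ (R + 1)
    have hg00 : g0 ≠ 0 := by
      have : ∀ g ∈ CS D, g ≠ 0 := by
        intro g hg
        unfold CS at hg
        induction hg using Submonoid.closure_induction with
        | mem x hx =>
          obtain ⟨y, z, hy, hz, rfl⟩ := hx
          exact mul_ne_zero (mul_ne_zero (mul_ne_zero (un_ne hy) (un_ne hz))
            (inv_ne_zero (un_ne hy))) (inv_ne_zero (un_ne hz))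
        | one => exact one_ne_zero
        | mul x y _ _ hx hy => exact mul_ne_zero hx hy
      exact this g0 hg0
    obtain ⟨g, hg, h4⟩ := big_one B BK (ab v) hspan hT (hunb v (Finset.mem_insert_self _ _))
      (mul_ne_zero hu hg00) (R + 1)
    -- the linear map
    let L : D →ₗ[k] K := (T.restrictScalars k) ∘ₗ (LinearMap.mulLeft k (u * g0))
    have hL : ∀ x, L x = T (u * g0 * x) := fun _ => rfl
    choose C hC h5 using fun p => na_lin2 B BK (ab p) L
    have hP2 : (P ∪ (T0 : Set ι)).Finite := hP.union T0.finite_toSet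
    have hv2 : v ∉ P ∪ (T0 : Set ι) := by
      rintro (h | h)
      · exact hTP v (Finset.mem_insert_self _ _) h
      · exact hv0 (Finset.mem_coe.mp h)
    obtain ⟨g', hg', h6, h7⟩ := cs_near B ab hst hWA hP2 hv2 hg
      (fun p => min (δ p) (1 / C p)) fun p => lt_min (hδ p) (one_div_pos.mpr (hC p))
    have h8 : ∀ p (x y : D), na B (ab p) (x - y) < 1 / C p →
        na BK (ab p) (L y) ≤ na BK (ab p) (L x) + 1 := by
      intro p x y hxy
      have e : L y = L x + L (y - x) := by rw [map_sub]; ring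
      rw [e]
      refine (na_add_le BK (ab p) _ _).trans (add_le_add le_rfl ?_)
      refine (h5 p _).trans ?_
      rw [na_sub_comm]
      rw [lt_div_iff₀ (hC p)] at hxy
      linarith
    refine ⟨g0 * g', (CS D).mul_mem hg0 hg', fun p hp => ?_, fun w hw => ?_⟩
    · have h9 := h1 p g0 g' (h2 p hp) ((h6 p (Or.inl hp)).trans_le (min_le_left _ _))
      rwa [mul_one] at h9
    · rw [← mul_assoc, ← hL]
      rcases Finset.mem_insert.mp hw with rfl | hw
      · have h9 := h8 w g' g (h7.trans_le (min_le_right _ _))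
        rw [hL g] at h9
        linarith
      · have h9 := h8 w g' 1 ((h6 w (Or.inr (Finset.mem_coe.mpr hw))).trans_le (min_le_right _ _))
        rw [hL 1, mul_one] at h9
        have := h3 w hw
        linarith

end two

end Vale.Agent.P011.H961
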