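import Vale.Agent.P011.H961.CSg
import Vale.Agent.P011.H929.DP
import Vale.Agent.P011.H63.EndD

/-!
# Conjugates under the unitary group generate a division algebra of degree three

Every infinite field of characteristic different from two.
-/

open Module Polynomial

set_option linter.unusedSectionVars false

namespace Vale.Agent.P011.H961

open Vale.Agent.P011.H182 Vale.Agent.P011.H775 Vale.Agent.P011.H948 Vale.Agent.P011.H929

section alg

variable {K D : Type} [Field K] [DivisionRing D] [Algebra K D]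

/-- No quadratic relation in degree three. -/
theorem no_quad3 (C : Cub K D) {x : D} (hx : x ∉ Set.range (algebraMap K D)) (p q : K) :
    x * x ≠ p • x + q • (1 : D) := by
  intro h
  have h1 := C.cayley x
  have e3 : x * x * x = (p ^ 2 + q) • x + (p * q) • (1 : D) := by
    rw [h, add_mul, smul_mul_assoc, h, smul_add, smul_smul, smul_smul, smul_mul_assoc, one_mul,
      add_smul, sq]
    abel
  rw [e3, h] at h1
  have h2 : (p ^ 2 + q - C.T x * p + C.S x) • x = -((p * q - C.T x * q - C.N x) • (1 : D)) := by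
    rw [eq_neg_iff_add_eq_zero, ← h1]
    module
  have h3 : p ^ 2 + q - C.T x * p + C.S x = 0 := by
    by_contra h0
    apply hx
    refine ⟨(p ^ 2 + q - C.T x * p + C.S x)⁻¹ * -(p * q - C.T x * q - C.N x), ?_⟩
    rw [Algebra.algebraMap_eq_smul_one, mul_smul, neg_smul, ← h2, smul_smul, inv_mul_cancel₀ h0,
      one_smul]
  have h4 : p * q - C.T x * q - C.N x = 0 := by
    rw [h3, zero_smul, eq_comm, neg_eq_zero] at h2
    exact (smul_eq_zero.mp h2).resolve_right one_ne_zero
  have h5 : C.N (x - (C.T x - p) • (1 : D)) = 0 := by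
    rw [N_sub_smul_one]
    linear_combination (-1 : K) * h4 - (C.T x - p) * h3
  have h6 : x - (C.T x - p) • (1 : D) = 0 := C.N_eq_zero.mp h5
  apply hx
  exact ⟨C.T x - p, by rw [Algebra.algebraMap_eq_smul_one]; exact (sub_eq_zero.mp h6).symm⟩

/-- Conjugation as a homomorphism of algebras. -/
noncomputable def cjA (b : D) (hb : b ≠ 0) : D →ₐ[K] D where
  toFun y := b * y * b⁻¹
  map_one' := by rw [mul_one, mul_inv_cancel₀ hb]
  map_mul' x y := by
    calc b * (x * y) * b⁻¹ = b * x * (b⁻¹ * b) * y * b⁻¹ := by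
          rw [inv_mul_cancel₀ hb]; simp only [mul_assoc, one_mul]
      _ = _ := by simp only [mul_assoc]
  map_zero' := by rw [mul_zero, zero_mul]
  map_add' x y := by rw [mul_add, add_mul]
  commutes' c := by
    rw [← Algebra.commutes c b, mul_assoc, mul_inv_cancel₀ hb, mul_one]

theorem cjA_apply (b : D) (hb : b ≠ 0) (y : D) : cjA (K := K) b hb y = b * y * b⁻¹ := rfl

/-- The roots of the minimal polynomial in the field generated by an element are finite in
number. -/
theorem finite_roots [FiniteDimensional K D] (x : D) :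
    {y : D | y ∈ Algebra.adjoin K {x} ∧ aeval y (minpoly K x) = 0}.Finite := by
  have hint : IsIntegral K x := Algebra.IsIntegral.isIntegral x
  have : Fact (Irreducible (minpoly K x)) := ⟨minpoly.irreducible hint⟩
  have hp : minpoly K x ≠ 0 := minpoly.ne_zero hint
  refine ((rootSet_finite (minpoly K x) (AdjoinRoot (minpoly K x))).image
    (H63.emb K x)).subset ?_
  rintro y ⟨hy, hy0⟩
  obtain ⟨a, rfl⟩ := H63.mem_range_emb.1 hy
  refine ⟨a, ?_, rfl⟩
  rw [mem_rootSet]
  refine ⟨hp, ?_⟩
  rw [aeval_algHom_apply] at hy0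
  exact (map_eq_zero_iff _ (H63.emb K x).toRingHom.injective).mp hy0

end alg

variable {k K D : Type} [Field k] [Infinite k] [Field K] [StarRing K] [Algebra k K]
  [DivisionRing D] [StarRing D] [Algebra K D] [FiniteDimensional K D] [Algebra.IsCentral K D]
  {C : Cub K D} {s : K}

/-- Two Cayley elements of translates are not proportional. -/
theorem cay_ne (h : SCub C) (h20 : (2 : K) ≠ 0) (hs0 : s ≠ 0) (hstar : star s = -s) {x : D}
    (hx : star x = x) (hxK : x ∉ Set.range (algebraMap K D)) {c c' l : K} (hcc : c ≠ c')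
    (hc : star c = c) (hc' : star c' = c')
    (he : ((x + c • (1 : D)) + s • (1 : D)) * ((x + c • (1 : D)) - s • (1 : D))⁻¹ =
      (((x + c' • (1 : D)) + s • (1 : D)) * ((x + c' • (1 : D)) - s • (1 : D))⁻¹) *
        algebraMap K D l) : False := by
  have hsym : ∀ c : K, star c = c → star (x + c • (1 : D)) = x + c • (1 : D) := by
    intro c hc
    rw [star_add, hx, h.smul, hc, star_one]
  have h1 := h.sub_ne_zero_of_symm h20 hs0 hstar (hsym c hc)
  have h2 := h.sub_ne_zero_of_symm h20 hs0 hstar (hsym c' hc')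
  -- commutation
  have hcom : Commute ((x + c • (1 : D)) - s • (1 : D)) ((x + c' • (1 : D)) - s • (1 : D)) := by
    have h6 : ∀ e : K, Commute x (e • (1 : D)) := fun e => (Commute.one_right x).smul_right e
    have h7 : ∀ e e' : K, Commute (e • (1 : D)) (e' • (1 : D)) := fun e e' =>
      (Commute.one_right _).smul_right e'
    have h8 : ∀ e e' : K, Commute (x + e • (1 : D)) (x + e' • (1 : D)) := fun e e' =>
      ((Commute.refl x).add_right (h6 e')).add_left ((h6 e).symm.add_right (h7 e e'))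
    have e1 : ∀ e : K, (x + e • (1 : D)) - s • (1 : D) = x + (e - s) • (1 : D) := fun e => by
      rw [sub_smul]; abel
    rw [e1, e1]
    exact h8 _ _
  have h3 : ((x + c • (1 : D)) + s • (1 : D)) * ((x + c' • (1 : D)) - s • (1 : D)) =
      l • (((x + c' • (1 : D)) + s • (1 : D)) * ((x + c • (1 : D)) - s • (1 : D))) := by
    have h4 := congrArg (fun y => y * (((x + c • (1 : D)) - s • (1 : D)) *
      ((x + c' • (1 : D)) - s • (1 : D)))) he
    rw [mul_assoc, inv_mul_cancel_left₀ h1, ← Algebra.commutes l, ← Algebra.smul_def,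
      smul_mul_assoc, hcom.eq, mul_assoc ((x + c' • (1 : D)) + s • (1 : D)),
      inv_mul_cancel_left₀ h2] at h4
    exact h4
  have e2 : ∀ a b : K, ((x + a • (1 : D)) + s • (1 : D)) * ((x + b • (1 : D)) - s • (1 : D)) =
      x * x + (a + b) • x + ((a + s) * (b - s)) • (1 : D) := by
    intro a b
    simp only [mul_add, add_mul, mul_sub, smul_mul_assoc, mul_smul_comm, mul_one, one_mul]
    module
  rw [e2, e2] at h3
  by_cases hl : l = 1
  · rw [hl, one_smul, add_comm c' c, add_right_inj] at h3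
    have h5 : (((c + s) * (c' - s)) - (c' + s) * (c - s)) • (1 : D) = 0 := by
      rw [sub_smul, h3, sub_self]
    have h6 := (smul_eq_zero.mp h5).resolve_right one_ne_zero
    have h7 : (2 : K) * s * (c' - c) = 0 := by linear_combination h6
    rcases mul_eq_zero.mp h7 with h8 | h8
    · exact (mul_ne_zero h20 hs0) h8
    · exact hcc (sub_eq_zero.mp h8).symm
  · have hl1 : 1 - l ≠ 0 := sub_ne_zero.mpr (Ne.symm hl)
    refine no_quad3 C hxK (-(c + c'))
      ((1 - l)⁻¹ * (l * ((c' + s) * (c - s)) - (c + s) * (c' - s))) ?_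
    have h5 : (1 - l) • (x * x) = (1 - l) • ((-(c + c')) • x) +
        (l * ((c' + s) * (c - s)) - (c + s) * (c' - s)) • (1 : D) := by
      have h6 : x * x + (c + c') • x + ((c + s) * (c' - s)) • (1 : D) -
          l • (x * x + (c' + c) • x + ((c' + s) * (c - s)) • (1 : D)) = 0 := sub_eq_zero.mpr h3
      rw [← sub_eq_zero, ← h6]
      module
    have h7 := congrArg (fun y => (1 - l)⁻¹ • y) h5
    rw [smul_add, smul_smul, inv_mul_cancel₀ hl1, one_smul, smul_smul (1 - l)⁻¹ (1 - l),
      inv_mul_cancel₀ hl1, one_smul, smul_smul] at h7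
    exact h7

/-- A symmetric element outside a proper subalgebra. -/
theorem exists_symm_notMem (h : SCub C) (h20 : (2 : K) ≠ 0) (hs0 : s ≠ 0) (hstar : star s = -s)
    {W : Subalgebra K D} (hW : W ≠ ⊤) : ∃ x : D, star x = x ∧ x ∉ W := by
  by_contra hcon
  push Not at hcon
  apply hW
  rw [eq_top_iff]
  intro y _
  have e : y = (2 : K)⁻¹ • (y + star y) + ((2 : K)⁻¹ * s⁻¹) • (s • (y - star y)) := by
    rw [smul_smul, mul_assoc, inv_mul_cancel₀ hs0, mul_one, ← smul_add]
    have : y + star y + (y - star y) = (2 : K) • y := by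
      rw [two_smul]
      abel
    rw [this, smul_smul, inv_mul_cancel₀ h20, one_smul]
  rw [e]
  refine W.add_mem (W.smul_mem (hcon _ ?_) _) (W.smul_mem (hcon _ ?_) _)
  · rw [star_add, star_star, add_comm]
  · rw [h.smul, star_sub, star_star, hstar, neg_smul, ← smul_neg, neg_sub]

/-- **The conjugates of a noncentral element under the unitary elements generate the algebra.** -/
theorem gen3 (h : SCub C) (h20 : (2 : K) ≠ 0) (hs0 : s ≠ 0)
    (hstar : star s = -s)
    (hfix : ∀ c : k, star (algebraMap k K c) = algebraMap k K c) (h9 : finrank K D = 3 ^ 2)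
    {x a : D} (hxa : a * x ≠ x * a) :
    Algebra.adjoin K {y | ∃ b : D, b * star b = 1 ∧ y = b * x * b⁻¹} = ⊤ := by
  by_contra hWt
  obtain ⟨W, hW⟩ : ∃ W, W = Algebra.adjoin K {y | ∃ b : D, b * star b = 1 ∧ y = b * x * b⁻¹} :=
    ⟨_, rfl⟩
  rw [← hW] at hWt
  have hxW : x ∈ W := by
    rw [hW]
    exact Algebra.subset_adjoin ⟨1, by rw [star_one, one_mul], by rw [one_mul, inv_one, mul_one]⟩
  have hxK : x ∉ Set.range (algebraMap K D) := by
    rintro ⟨c, rfl⟩
    exact hxa (Algebra.commutes c a).symm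
  have hWb : W ≠ ⊥ := by
    intro h0
    rw [h0] at hxW
    exact hxK (Algebra.mem_bot.mp hxW)
  have hle : Algebra.adjoin K {x} ≤ W := Algebra.adjoin_le (by rintro _ rfl; exact hxW)
  have hxb : Algebra.adjoin K {x} ≠ ⊥ := by
    intro h0
    have : x ∈ Algebra.adjoin K {x} := Algebra.self_mem_adjoin_singleton K x
    rw [h0] at this
    exact hxK (Algebra.mem_bot.mp this)
  have hxt : Algebra.adjoin K {x} ≠ ⊤ := fun h0 => hWt (top_le_iff.mp (h0 ▸ hle))
  have hWe : Algebra.adjoin K {x} = W := by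
    apply Subalgebra.toSubmodule_injective
    apply Submodule.eq_of_le_of_finrank_eq
    · exact hle
    · exact (finrank_eq_of_ne Nat.prime_three h9 hxb hxt).trans
        (finrank_eq_of_ne Nat.prime_three h9 hWb hWt).symm
  have hconj : ∀ b : D, b * star b = 1 → b * x * b⁻¹ ∈ Algebra.adjoin K {x} := by
    intro b hb
    rw [hWe, hW]
    exact Algebra.subset_adjoin ⟨b, hb, rfl⟩
  -- a symmetric element outside
  obtain ⟨ξ, hξ, hξx⟩ := exists_symm_notMem h h20 hs0 hstar hxt
  have hξK : ξ ∉ Set.range (algebraMap K D) := by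
    rintro ⟨c, rfl⟩
    exact hξx (Subalgebra.algebraMap_mem _ c)
  let b : k → D := fun c => ((ξ + algebraMap k K c • (1 : D)) + s • (1 : D)) *
    ((ξ + algebraMap k K c • (1 : D)) - s • (1 : D))⁻¹
  have hsym : ∀ c : k, star (ξ + algebraMap k K c • (1 : D)) = ξ + algebraMap k K c • (1 : D) := by
    intro c
    rw [star_add, hξ, h.smul, hfix, star_one]
  have hb : ∀ c, b c * star (b c) = 1 := fun c => h.cay_unitary h20 hs0 hstar (hsym c)
  have hb0 : ∀ c, b c ≠ 0 := fun c => un_ne (hb c)
  -- pigeonhole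
  have hfin := finite_roots (K := K) x
  have hmem : ∀ c, b c * x * (b c)⁻¹ ∈
      {y : D | y ∈ Algebra.adjoin K {x} ∧ aeval y (minpoly K x) = 0} := by
    intro c
    refine ⟨hconj _ (hb c), ?_⟩
    rw [← cjA_apply (K := K) (b c) (hb0 c), aeval_algHom_apply, minpoly.aeval, map_zero]
  have : Finite {y : D | y ∈ Algebra.adjoin K {x} ∧ aeval y (minpoly K x) = 0} := hfin
  obtain ⟨c, c', hcc, he⟩ := Finite.exists_ne_map_eq_of_infinite
    (fun c : k => (⟨b c * x * (b c)⁻¹, hmem c⟩ :
      {y : D | y ∈ Algebra.adjoin K {x} ∧ aeval y (minpoly K x) = 0}))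
  have he' : b c * x * (b c)⁻¹ = b c' * x * (b c')⁻¹ := congrArg Subtype.val he
  obtain ⟨e, hed⟩ : ∃ e, e = (b c')⁻¹ * b c := ⟨_, rfl⟩
  have hex : x * e = e * x := by
    rw [hed]
    have h1 : b c * x = b c' * x * (b c')⁻¹ * b c := by
      rw [← he', inv_mul_cancel_right₀ (hb0 c)]
    rw [mul_assoc (b c')⁻¹, h1]
    simp only [mul_assoc]
    rw [inv_mul_cancel_left₀ (hb0 c')]
  have hbξ : ∀ c, Commute ξ (b c) := by
    intro c
    have h6 : ∀ e : K, Commute ξ (e • (1 : D)) := fun e => (Commute.one_right ξ).smul_right e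
    exact (((Commute.refl ξ).add_right (h6 _)).add_right (h6 _)).mul_right
      (((Commute.refl ξ).add_right (h6 _)).sub_right (h6 _)).inv_right₀
  have heξ : ξ * e = e * ξ := by
    rw [hed]
    exact ((hbξ c').inv_right₀.mul_right (hbξ c)).eq
  by_cases heK : e ∈ Set.range (algebraMap K D)
  · obtain ⟨l, hl⟩ := heK
    refine cay_ne h h20 hs0 hstar hξ hξK (c := algebraMap k K c) (c' := algebraMap k K c')
      (l := l) (fun h0 => hcc ((algebraMap k K).injective h0)) (hfix c) (hfix c') ?_
    change b c = b c' * algebraMap K D l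
    rw [hl, hed, mul_inv_cancel_left₀ (hb0 c')]
  · exact hξx (centralizer_eq_adjoin Nat.prime_three h9 heK hxK hex heξ)

omit [Algebra k K] [Infinite k] [Field k] in
/-- A noncentral unitary element. -/
theorem exists_nc3 (h : SCub C) (h20 : (2 : K) ≠ 0) (hs0 : s ≠ 0)
    (hstar : star s = -s) (h9 : finrank K D = 3 ^ 2) :
    ∃ x0 b0 : D, x0 * star x0 = 1 ∧ b0 * x0 ≠ x0 * b0 := by
  have hbot : (⊥ : Subalgebra K D) ≠ ⊤ := by
    intro h0
    have h1 := Subalgebra.finrank_bot (F := K) (E := D)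
    rw [h0, subalgebra_top_finrank_eq_submodule_top_finrank, finrank_top, h9] at h1
    norm_num at h1
  obtain ⟨ξ, hξ, hξK⟩ := exists_symm_notMem h h20 hs0 hstar hbot
  have hξK' : ξ ∉ Set.range (algebraMap K D) := fun h0 => hξK (Algebra.mem_bot.mpr h0)
  have hx0 := h.cay_unitary h20 hs0 hstar hξ
  obtain ⟨x0, hx0d⟩ : ∃ x0, x0 = (ξ + s • (1 : D)) * (ξ - s • (1 : D))⁻¹ := ⟨_, rfl⟩
  rw [← hx0d] at hx0
  have hne := h.sub_ne_zero_of_symm h20 hs0 hstar hξ
  have hx0K : ∃ b0 : D, b0 * x0 ≠ x0 * b0 := by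
    by_contra hcon
    push Not at hcon
    have h1 : x0 ∈ Subalgebra.center K D := Subalgebra.mem_center_iff.mpr hcon
    rw [Algebra.IsCentral.center_eq_bot] at h1
    obtain ⟨l, hl⟩ := Algebra.mem_bot.mp h1
    have h2 : ξ + s • (1 : D) = l • (ξ - s • (1 : D)) := by
      rw [Algebra.smul_def l, hl, hx0d, inv_mul_cancel_right₀ hne]
    by_cases hl1 : l = 1
    · rw [hl1, one_smul] at h2
      have h3 : (2 * s) • (1 : D) = 0 := by
        rw [two_mul, add_smul]
        have h4 : s • (1 : D) = -(s • (1 : D)) := by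
          rw [sub_eq_add_neg] at h2
          exact add_left_cancel h2
        nth_rewrite 2 [h4]
        exact add_neg_cancel _
      exact (mul_ne_zero h20 hs0) ((smul_eq_zero.mp h3).resolve_right one_ne_zero)
    · have hl2 : 1 - l ≠ 0 := sub_ne_zero.mpr (Ne.symm hl1)
      apply hξK'
      refine ⟨(1 - l)⁻¹ * -((1 + l) * s), ?_⟩
      have h3 : (1 - l) • ξ = (-((1 + l) * s)) • (1 : D) := by
        rw [← sub_eq_zero] at h2 ⊢
        rw [← h2]
        module
      rw [Algebra.algebraMap_eq_smul_one, mul_smul, ← h3, smul_smul, inv_mul_cancel₀ hl2, one_smul]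
  obtain ⟨b0, hb0⟩ := hx0K
  exact ⟨x0, b0, hx0, hb0⟩

/-- The products of commutators of unitary elements span the algebra. -/
theorem span_cs3 (h : SCub C) (h20 : (2 : K) ≠ 0) (hs0 : s ≠ 0)
    (hstar : star s = -s)
    (hfix : ∀ c : k, star (algebraMap k K c) = algebraMap k K c) (h9 : finrank K D = 3 ^ 2) :
    Submodule.span K (CS D : Set D) = ⊤ := by
  obtain ⟨x0, b0, hx0, hb0⟩ := exists_nc3 h h20 hs0 hstar h9
  exact span_cs_of hx0 hb0 fun x a hxa => gen3 h h20 hs0 hstar hfix h9 hxa

end Vale.Agent.P011.H961
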