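import Mathlib

/-!
# Lifting of orthogonal idempotents in a complete ultrametric ring
-/

open Filter Topology

set_option linter.unusedSectionVars false

namespace Vale.Agent.P011.H961

variable {R : Type*} [NormedRing R] [IsUltrametricDist R]

/-- The step of the iteration. -/
def nwt (x : R) : R := x + (1 - (x + x)) * (x * x - x)

theorem norm_add_le_max' (x y : R) {c : ℝ} (hx : ‖x‖ ≤ c) (hy : ‖y‖ ≤ c) : ‖x + y‖ ≤ c :=
  (IsUltrametricDist.norm_add_le_max x y).trans (max_le hx hy)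

theorem norm_sub_le_max' (x y : R) {c : ℝ} (hx : ‖x‖ ≤ c) (hy : ‖y‖ ≤ c) : ‖x - y‖ ≤ c := by
  rw [sub_eq_add_neg]
  exact norm_add_le_max' x (-y) hx (by rwa [norm_neg])

theorem nwt_sub (x : R) : nwt x - x = (1 - (x + x)) * (x * x - x) := by
  rw [nwt, add_sub_cancel_left]

theorem nwt_sq (x : R) : nwt x * nwt x - nwt x =
    (x * x - x) * (x * x - x) * (((x * x - x) + (x * x - x) + (x * x - x) + (x * x - x)) -
      (1 + 1 + 1)) := by
  rw [nwt]
  noncomm_ring

variable (h1 : ‖(1 : R)‖ ≤ 1)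

include h1 in
theorem nwt_norm {x : R} (hx : ‖x‖ ≤ 1) {δ ρ : ℝ} (hδ : δ ≤ 1) (hρ : ρ ≤ δ)
    (hd : ‖x * x - x‖ ≤ ρ) :
    ‖nwt x‖ ≤ 1 ∧ ‖nwt x - x‖ ≤ ρ ∧ ‖nwt x * nwt x - nwt x‖ ≤ δ * ρ := by
  have hρ0 : 0 ≤ ρ := (norm_nonneg _).trans hd
  have h2 : ‖(1 : R) - (x + x)‖ ≤ 1 := norm_sub_le_max' _ _ h1 (norm_add_le_max' _ _ hx hx)
  have h3 : ‖nwt x - x‖ ≤ ρ := by
    rw [nwt_sub]
    calc ‖(1 - (x + x)) * (x * x - x)‖ ≤ ‖(1 : R) - (x + x)‖ * ‖x * x - x‖ := norm_mul_le _ _
      _ ≤ 1 * ρ := mul_le_mul h2 hd (norm_nonneg _) zero_le_one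
      _ = ρ := one_mul _
  refine ⟨?_, h3, ?_⟩
  · have e : nwt x = (nwt x - x) + x := by abel
    rw [e]
    exact norm_add_le_max' _ _ (h3.trans (hρ.trans hδ)) hx
  · rw [nwt_sq]
    have h4 : ‖(x * x - x) + (x * x - x) + (x * x - x) + (x * x - x) - (1 + 1 + 1 : R)‖ ≤ 1 := by
      have h5 : ‖x * x - x‖ ≤ 1 := hd.trans (hρ.trans hδ)
      exact norm_sub_le_max' _ _ (norm_add_le_max' _ _ (norm_add_le_max' _ _
        (norm_add_le_max' _ _ h5 h5) h5) h5) (norm_add_le_max' _ _ (norm_add_le_max' _ _ h1 h1) h1)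
    calc ‖(x * x - x) * (x * x - x) * (((x * x - x) + (x * x - x) + (x * x - x) + (x * x - x)) -
          (1 + 1 + 1))‖ ≤ ‖(x * x - x) * (x * x - x)‖ * ‖((x * x - x) + (x * x - x) +
            (x * x - x) + (x * x - x)) - (1 + 1 + 1 : R)‖ := norm_mul_le _ _
      _ ≤ (‖x * x - x‖ * ‖x * x - x‖) * 1 :=
        mul_le_mul (norm_mul_le _ _) h4 (norm_nonneg _) (mul_nonneg (norm_nonneg _) (norm_nonneg _))
      _ ≤ δ * ρ := by
        rw [mul_one]
        exact mul_le_mul (hd.trans hρ) hd (norm_nonneg _) (hρ0.trans hρ)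

/-- The iterates. -/
def nwi (x : R) (m : ℕ) : R := (nwt^[m]) x

omit [IsUltrametricDist R] in
theorem nwi_zero (x : R) : nwi x 0 = x := rfl

omit [IsUltrametricDist R] in
theorem nwi_succ (x : R) (m : ℕ) : nwi x (m + 1) = nwt (nwi x m) := by
  rw [nwi, Function.iterate_succ_apply']
  rfl

include h1 in
theorem nwi_norm {x : R} (hx : ‖x‖ ≤ 1) {δ : ℝ} (hδ1 : δ ≤ 1) (hd : ‖x * x - x‖ ≤ δ) (m : ℕ) :
    ‖nwi x m‖ ≤ 1 ∧ ‖nwi x m * nwi x m - nwi x m‖ ≤ δ ^ (m + 1) := by
  have hδ0 : 0 ≤ δ := (norm_nonneg _).trans hd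
  induction m with
  | zero =>
    rw [nwi_zero, zero_add, pow_one]
    exact ⟨hx, hd⟩
  | succ m ih =>
    have h2 : δ ^ (m + 1) ≤ δ := pow_le_of_le_one hδ0 hδ1 (Nat.succ_ne_zero m)
    have h3 := nwt_norm h1 ih.1 hδ1 h2 ih.2
    rw [nwi_succ]
    refine ⟨h3.1, ?_⟩
    rw [pow_succ' δ (m + 1)]
    exact h3.2.2

include h1 in
/-- **Lifting of one idempotent.** -/
theorem exists_idem [CompleteSpace R] {x : R} (hx : ‖x‖ ≤ 1) (hd : ‖x * x - x‖ < 1) :
    ∃ e : R, e * e = e ∧ ‖e‖ ≤ 1 ∧ ‖e - x‖ < 1 ∧ (∀ z, z * x = 0 → z * e = 0) ∧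
      ∀ z, x * z = 0 → e * z = 0 := by
  obtain ⟨δ, hδd⟩ : ∃ δ, δ = ‖x * x - x‖ := ⟨_, rfl⟩
  have hδ0 : 0 ≤ δ := by rw [hδd]; exact norm_nonneg _
  have hδ1 : δ < 1 := by rw [hδd]; exact hd
  have hn := nwi_norm h1 hx hδ1.le hδd.ge
  have hstep : ∀ m, ‖nwi x (m + 1) - nwi x m‖ ≤ δ ^ (m + 1) := by
    intro m
    have h2 : δ ^ (m + 1) ≤ δ := pow_le_of_le_one hδ0 hδ1.le (Nat.succ_ne_zero m)
    rw [nwi_succ]
    exact (nwt_norm h1 (hn m).1 hδ1.le h2 (hn m).2).2.1
  have hcau : CauchySeq (nwi x) := by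
    refine cauchySeq_of_le_geometric δ δ hδ1 fun m => ?_
    rw [dist_comm, dist_eq_norm]
    refine (hstep m).trans (le_of_eq ?_)
    rw [pow_succ']
  obtain ⟨e, he⟩ := cauchySeq_tendsto_of_complete hcau
  have hsq : Tendsto (fun m => nwi x m * nwi x m - nwi x m) atTop (𝓝 (e * e - e)) :=
    (he.mul he).sub he
  have hsq0 : Tendsto (fun m => nwi x m * nwi x m - nwi x m) atTop (𝓝 0) := by
    rw [tendsto_zero_iff_norm_tendsto_zero]
    refine squeeze_zero (fun _ => norm_nonneg _) (fun m => (hn m).2) ?_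
    exact (tendsto_pow_atTop_nhds_zero_of_lt_one hδ0 hδ1).comp (tendsto_add_atTop_nat 1)
  have hdiff : ∀ m, ‖nwi x m - x‖ ≤ δ := by
    intro m
    induction m with
    | zero => rw [nwi_zero, sub_self, norm_zero]; exact hδ0
    | succ m ih =>
      have e1 : nwi x (m + 1) - x = (nwi x (m + 1) - nwi x m) + (nwi x m - x) := by abel
      rw [e1]
      exact norm_add_le_max' _ _ ((hstep m).trans
        (pow_le_of_le_one hδ0 hδ1.le (Nat.succ_ne_zero m))) ih
  refine ⟨e, sub_eq_zero.mp (tendsto_nhds_unique hsq hsq0), ?_, ?_, fun z hz => ?_, fun z hz => ?_⟩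
  · exact le_of_tendsto he.norm (Eventually.of_forall fun m => (hn m).1)
  · refine lt_of_le_of_lt ?_ hδ1
    exact le_of_tendsto (he.sub_const x).norm (Eventually.of_forall hdiff)
  · have h2 : ∀ m, z * nwi x m = 0 := by
      intro m
      induction m with
      | zero => exact hz
      | succ m ih =>
        have e1 : z * nwt (nwi x m) = z * nwi x m + (z - (z * nwi x m + z * nwi x m)) *
            (nwi x m * nwi x m - nwi x m) := by
          rw [nwt]
          noncomm_ring
        have e2 : z * (nwi x m * nwi x m - nwi x m) = 0 := by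
          rw [mul_sub, ← mul_assoc, ih, zero_mul, sub_zero]
        rw [nwi_succ, e1, ih, add_zero, sub_zero, e2, add_zero]
    have h3 : Tendsto (fun m => z * nwi x m) atTop (𝓝 (z * e)) := he.const_mul z
    have h4 : Tendsto (fun m => z * nwi x m) atTop (𝓝 0) := by
      simp only [h2]
      exact tendsto_const_nhds
    exact tendsto_nhds_unique h3 h4
  · have h2 : ∀ m, nwi x m * z = 0 := by
      intro m
      induction m with
      | zero => exact hz
      | succ m ih =>
        have e1 : nwt (nwi x m) * z = nwi x m * z + (1 - (nwi x m + nwi x m)) *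
            (nwi x m * (nwi x m * z) - nwi x m * z) := by
          rw [nwt]
          noncomm_ring
        rw [nwi_succ, e1, ih, mul_zero, sub_zero, mul_zero, add_zero]
    have h3 : Tendsto (fun m => nwi x m * z) atTop (𝓝 (e * z)) := he.mul_const z
    have h4 : Tendsto (fun m => nwi x m * z) atTop (𝓝 0) := by
      simp only [h2]
      exact tendsto_const_nhds
    exact tendsto_nhds_unique h3 h4

include h1 in
/-- **Lifting of orthogonal idempotents.** -/
theorem exists_idems [CompleteSpace R] {ι : Type*} [DecidableEq ι] (x : ι → R)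
    (hx : ∀ i, ‖x i‖ ≤ 1) (hxx : ∀ i, ‖x i * x i - x i‖ < 1)
    (hxy : ∀ i j, i ≠ j → ‖x i * x j‖ < 1) (s : Finset ι) :
    ∃ e : ι → R, (∀ i ∈ s, e i * e i = e i) ∧ (∀ i ∈ s, ‖e i‖ ≤ 1) ∧
      (∀ i ∈ s, ‖e i - x i‖ < 1) ∧ ∀ i ∈ s, ∀ j ∈ s, i ≠ j → e i * e j = 0 := by
  induction s using Finset.induction_on with
  | empty => exact ⟨x, by simp, by simp, by simp, by simp⟩
  | insert a s ha ih =>
    obtain ⟨e, he1, he2, he3, he4⟩ := ih
    obtain ⟨S, hS⟩ : ∃ S, S = ∑ i ∈ s, e i := ⟨_, rfl⟩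
    have hlt : ∀ u v : R, ‖u‖ < 1 → ‖v‖ < 1 → ‖u + v‖ < 1 := fun u v hu hv =>
      (IsUltrametricDist.norm_add_le_max u v).trans_lt (max_lt hu hv)
    have hlts : ∀ u v : R, ‖u‖ < 1 → ‖v‖ < 1 → ‖u - v‖ < 1 := fun u v hu hv => by
      rw [sub_eq_add_neg]
      exact hlt _ _ hu (by rwa [norm_neg])
    have hml : ∀ u v : R, ‖u‖ < 1 → ‖v‖ ≤ 1 → ‖u * v‖ < 1 := fun u v hu hv =>
      (norm_mul_le u v).trans_lt (lt_of_le_of_lt (mul_le_of_le_one_right (norm_nonneg _) hv) hu)
    have hmr : ∀ u v : R, ‖u‖ ≤ 1 → ‖v‖ < 1 → ‖u * v‖ < 1 := fun u v hu hv =>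
      (norm_mul_le u v).trans_lt (lt_of_le_of_lt (mul_le_of_le_one_left (norm_nonneg _) hu) hv)
    have hsum : ∀ (t : Finset ι) (u : ι → R), (∀ i ∈ t, ‖u i‖ < 1) → ‖∑ i ∈ t, u i‖ < 1 := by
      intro t u
      induction t using Finset.induction_on with
      | empty => intro _; rw [Finset.sum_empty, norm_zero]; exact one_pos
      | insert b t hb iht =>
        intro hu
        rw [Finset.sum_insert hb]
        exact hlt _ _ (hu b (Finset.mem_insert_self b t))
          (iht fun i hi => hu i (Finset.mem_insert_of_mem hi))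
    have hSS : S * S = S := by
      rw [hS, Finset.sum_mul]
      refine Finset.sum_congr rfl fun i hi => ?_
      rw [Finset.mul_sum, Finset.sum_eq_single i (fun j hj hji => he4 i hi j hj hji.symm)
        (fun h => absurd hi h), he1 i hi]
    have hSx : ‖S * x a‖ < 1 := by
      rw [hS, Finset.sum_mul]
      refine hsum _ _ fun i hi => ?_
      have hia : i ≠ a := fun h => ha (h ▸ hi)
      have e1 : e i * x a = (e i - x i) * x a + x i * x a := by noncomm_ring
      rw [e1]
      exact hlt _ _ (hml _ _ (he3 i hi) (hx a)) (hxy i a hia)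
    have hxS : ‖x a * S‖ < 1 := by
      rw [hS, Finset.mul_sum]
      refine hsum _ _ fun i hi => ?_
      have hia : i ≠ a := fun h => ha (h ▸ hi)
      have e1 : x a * e i = x a * (e i - x i) + x a * x i := by noncomm_ring
      rw [e1]
      exact hlt _ _ (hmr _ _ (hx a) (he3 i hi)) (hxy a i hia.symm)
    have hSn : ‖S‖ ≤ 1 := by
      rw [hS]
      have : ∀ t : Finset ι, t ⊆ s → ‖∑ i ∈ t, e i‖ ≤ 1 := by
        intro t
        induction t using Finset.induction_on with
        | empty => intro _; rw [Finset.sum_empty, norm_zero]; exact zero_le_one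
        | insert b t hb iht =>
          intro hbt
          rw [Finset.sum_insert hb]
          exact norm_add_le_max' _ _ (he2 b (hbt (Finset.mem_insert_self b t)))
            (iht fun i hi => hbt (Finset.mem_insert_of_mem hi))
      exact this s (Finset.Subset.refl s)
    obtain ⟨y, hy⟩ : ∃ y, y = (1 - S) * x a * (1 - S) := ⟨_, rfl⟩
    have h1S : ‖1 - S‖ ≤ 1 := norm_sub_le_max' _ _ h1 hSn
    have hyn : ‖y‖ ≤ 1 := by
      rw [hy]
      refine (norm_mul_le _ _).trans (mul_le_one₀ ((norm_mul_le _ _).trans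
        (mul_le_one₀ h1S (norm_nonneg _) (hx a))) (norm_nonneg _) h1S)
    have hyx : ‖y - x a‖ < 1 := by
      have e1 : y - x a = S * x a * S - S * x a - x a * S := by rw [hy]; noncomm_ring
      rw [e1]
      exact hlts _ _ (hlts _ _ (hml _ _ hSx hSn) hSx) hxS
    have hyy : ‖y * y - y‖ < 1 := by
      have e1 : y * y - y = (y - x a) * y + x a * (y - x a) + (x a * x a - x a) -
          (y - x a) := by noncomm_ring
      rw [e1]
      exact hlts _ _ (hlt _ _ (hlt _ _ (hml _ _ hyx hyn) (hmr _ _ (hx a) hyx)) (hxx a)) hyx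
    obtain ⟨f, hf1, hf2, hf3, hf4, hf5⟩ := exists_idem h1 hyn hyy
    have hSf : S * f = 0 := by
      refine hf4 S ?_
      have h0 : S * (1 - S) = 0 := by rw [mul_sub, mul_one, hSS, sub_self]
      rw [hy, ← mul_assoc, ← mul_assoc, h0, zero_mul, zero_mul]
    have hfS : f * S = 0 := by
      refine hf5 S ?_
      have h0 : (1 - S) * S = 0 := by rw [sub_mul, one_mul, hSS, sub_self]
      rw [hy, mul_assoc, h0, mul_zero]
    have hef : ∀ i ∈ s, e i * f = 0 ∧ f * e i = 0 := by
      intro i hi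
      have h2 : e i * S = e i := by
        rw [hS, Finset.mul_sum, Finset.sum_eq_single i (fun j hj hji => he4 i hi j hj hji.symm)
          (fun h => absurd hi h), he1 i hi]
      have h3 : S * e i = e i := by
        rw [hS, Finset.sum_mul, Finset.sum_eq_single i (fun j hj hji => he4 j hj i hi hji)
          (fun h => absurd hi h), he1 i hi]
      constructor
      · rw [← h2, mul_assoc, hSf, mul_zero]
      · rw [← h3, ← mul_assoc, hfS, zero_mul]
    have hne : ∀ i ∈ s, i ≠ a := fun i hi h => ha (h ▸ hi)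
    refine ⟨Function.update e a f, fun i hi => ?_, fun i hi => ?_, fun i hi => ?_,
      fun i hi j hj hij => ?_⟩
    · rcases Finset.mem_insert.mp hi with rfl | hi
      · rw [Function.update_self, hf1]
      · rw [Function.update_of_ne (hne i hi), he1 i hi]
    · rcases Finset.mem_insert.mp hi with rfl | hi
      · rw [Function.update_self]; exact hf2
      · rw [Function.update_of_ne (hne i hi)]; exact he2 i hi
    · rcases Finset.mem_insert.mp hi with rfl | hi
      · rw [Function.update_self]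
        have e1 : f - x i = (f - y) + (y - x i) := by abel
        rw [e1]
        exact hlt _ _ hf3 hyx
      · rw [Function.update_of_ne (hne i hi)]; exact he3 i hi
    · rcases Finset.mem_insert.mp hi with hia | hi'
      · rcases Finset.mem_insert.mp hj with hja | hj'
        · exact absurd (hia.trans hja.symm) hij
        · rw [hia, Function.update_self, Function.update_of_ne (hne j hj')]
          exact (hef j hj').2
      · rcases Finset.mem_insert.mp hj with hja | hj'
        · rw [hja, Function.update_self, Function.update_of_ne (hne i hi')]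
          exact (hef i hi').1
        · rw [Function.update_of_ne (hne i hi'), Function.update_of_ne (hne j hj')]
          exact he4 i hi' j hj' hij

end Vale.Agent.P011.H961
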