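import Vale.Agent.P011.H961.Loc

/-!
# The topology of the group of invertible matrices in terms of the entries
-/

open Matrix Topology Filter

set_option linter.unusedSectionVars false

namespace Vale.Agent.P011.H961

variable {n : ℕ} {L : Type*} [NormedField L]

theorem Eb.mono {R R' : ℝ} (h : R ≤ R') {x : Matrix (Fin n) (Fin n) L} (hx : Eb R x) : Eb R' x :=
  fun i j => (hx i j).trans h

theorem Ub.mono {R R' : ℝ} (h : R ≤ R') {g : (Matrix (Fin n) (Fin n) L)ˣ} (hg : Ub R g) :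
    Ub R' g := ⟨hg.1.mono h, hg.2.mono h⟩

theorem Ub.inv {R : ℝ} {g : (Matrix (Fin n) (Fin n) L)ˣ} (hg : Ub R g) : Ub R g⁻¹ :=
  ⟨hg.2, by rw [inv_inv]; exact hg.1⟩

theorem eb_one {R : ℝ} (hR : 1 ≤ R) : Eb R (1 : Matrix (Fin n) (Fin n) L) := by
  intro i j
  rw [one_apply]
  split_ifs
  · rw [norm_one]; exact hR
  · rw [norm_zero]; exact zero_le_one.trans hR

theorem eb_zero {R : ℝ} (hR : 0 ≤ R) : Eb R (0 : Matrix (Fin n) (Fin n) L) := by
  intro i j
  rw [Matrix.zero_apply, norm_zero]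
  exact hR

theorem ub_one {R : ℝ} (hR : 1 ≤ R) : Ub R (1 : (Matrix (Fin n) (Fin n) L)ˣ) :=
  ⟨eb_one hR, by rw [inv_one]; exact eb_one hR⟩

section ultra

variable [IsUltrametricDist L]

theorem Eb.add {R : ℝ} {x y : Matrix (Fin n) (Fin n) L} (hx : Eb R x) (hy : Eb R y) :
    Eb R (x + y) := fun i j =>
  (IsUltrametricDist.norm_add_le_max _ _).trans (max_le (hx i j) (hy i j))

theorem Eb.mul {a b : ℝ} (ha : 0 ≤ a) (hb : 0 ≤ b) {x y : Matrix (Fin n) (Fin n) L}
    (hx : Eb a x) (hy : Eb b y) : Eb (a * b) (x * y) := by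
  intro i j
  rw [mul_apply]
  refine IsUltrametricDist.norm_sum_le_of_forall_le_of_nonneg (mul_nonneg ha hb) fun k _ => ?_
  rw [norm_mul]
  exact mul_le_mul (hx i k) (hy k j) (norm_nonneg _) ha

theorem Ub.mul {a b : ℝ} (ha : 0 ≤ a) (hb : 0 ≤ b) {x y : (Matrix (Fin n) (Fin n) L)ˣ}
    (hx : Ub a x) (hy : Ub b y) : Ub (a * b) (x * y) := by
  refine ⟨?_, ?_⟩
  · rw [Units.val_mul]
    exact hx.1.mul ha hb hy.1
  · rw [_root_.mul_inv_rev, Units.val_mul, mul_comm a b]
    exact hy.2.mul hb ha hx.2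

theorem eb_of_sub_one {x : Matrix (Fin n) (Fin n) L} {R : ℝ} (hR : 1 ≤ R) (hx : Eb R (x - 1)) :
    Eb R x := by
  have e : x = (x - 1) + 1 := by abel
  rw [e]
  exact hx.add (eb_one hR)

theorem isOpen_ub {R : ℝ} (hR : 0 < R) :
    IsOpen {g : (Matrix (Fin n) (Fin n) L)ˣ | Ub R g} := by
  have h1 : IsOpen {x : Matrix (Fin n) (Fin n) L | Eb R x} := by
    have e : {x : Matrix (Fin n) (Fin n) L | Eb R x} =
        ⋂ i, ⋂ j, (fun x : Matrix (Fin n) (Fin n) L => x i j) ⁻¹' Metric.closedBall 0 R := by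
      ext x
      simp only [Eb, Set.mem_ofPred_eq, Set.mem_iInter, Set.mem_preimage, mem_closedBall_zero_iff]
    rw [e]
    refine isOpen_iInter_of_finite fun i => isOpen_iInter_of_finite fun j => ?_
    exact (IsUltrametricDist.isOpen_closedBall _ hR.ne').preimage
      (continuous_id.matrix_elem i j)
  exact (h1.preimage Units.continuous_val).inter (h1.preimage Units.continuous_coe_inv)

end ultra

theorem isCompact_eb [ProperSpace L] (R : ℝ) : IsCompact {x : Matrix (Fin n) (Fin n) L | Eb R x} := by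
  have e : {x : Matrix (Fin n) (Fin n) L | Eb R x} =
      Set.pi Set.univ fun _ : Fin n => Set.pi Set.univ fun _ : Fin n => Metric.closedBall (0 : L) R :=
    by
    refine Set.Subset.antisymm (fun x hx i _ j _ => ?_) fun x hx i j => ?_
    · rw [mem_closedBall_zero_iff]
      exact hx i j
    · exact mem_closedBall_zero_iff.mp (hx i trivial j trivial)
  rw [e]
  exact isCompact_univ_pi fun _ => isCompact_univ_pi fun _ => isCompact_closedBall _ _

/-- Bounded sets of invertible matrices with bounded inverses are compact. -/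
theorem isCompact_ub [ProperSpace L] (R : ℝ) :
    IsCompact {g : (Matrix (Fin n) (Fin n) L)ˣ | Ub R g} := by
  have h1 := isCompact_eb (n := n) (L := L) R
  have h2 : IsCompact (MulOpposite.op '' {x : Matrix (Fin n) (Fin n) L | Eb R x}) :=
    h1.image MulOpposite.continuous_op
  have h3 := (Units.isClosedEmbedding_embedProduct
    (α := Matrix (Fin n) (Fin n) L)).isCompact_preimage (h1.prod h2)
  refine h3.of_isClosed_subset ?_ ?_
  · have hc : IsClosed {x : Matrix (Fin n) (Fin n) L | Eb R x} := h1.isClosed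
    exact (hc.preimage Units.continuous_val).inter (hc.preimage Units.continuous_coe_inv)
  · intro g hg
    exact ⟨hg.1, _, hg.2, rfl⟩

theorem exists_ball_mat {U : Set (Matrix (Fin n) (Fin n) L)}
    (hU : U ∈ 𝓝 (1 : Matrix (Fin n) (Fin n) L)) :
    ∃ δ : ℝ, 0 < δ ∧ ∀ x, Eb δ (x - 1) → x ∈ U := by
  let _ : NormedAddCommGroup (Matrix (Fin n) (Fin n) L) := Matrix.normedAddCommGroup
  obtain ⟨δ, hδ, h⟩ := (Metric.nhds_basis_closedBall (x := (1 : Matrix (Fin n) (Fin n) L))).mem_iff.mp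
    hU
  refine ⟨δ, hδ, fun x hx => h ?_⟩
  rw [mem_closedBall_iff_norm, Matrix.norm_le_iff hδ.le]
  exact hx

/-- Neighbourhoods of one in terms of the entries. -/
theorem exists_ball_units {O : Set (Matrix (Fin n) (Fin n) L)ˣ}
    (hO : O ∈ 𝓝 (1 : (Matrix (Fin n) (Fin n) L)ˣ)) :
    ∃ δ : ℝ, 0 < δ ∧ ∀ g : (Matrix (Fin n) (Fin n) L)ˣ,
      Eb δ ((g : Matrix (Fin n) (Fin n) L) - 1) →
      Eb δ (((g⁻¹ : (Matrix (Fin n) (Fin n) L)ˣ) : Matrix (Fin n) (Fin n) L) - 1) → g ∈ O := by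
  rw [Units.isInducing_embedProduct.nhds_eq_comap, mem_comap] at hO
  obtain ⟨t, ht, htO⟩ := hO
  obtain ⟨U, hU, V, hV, hUV⟩ := mem_nhds_prod_iff.mp ht
  obtain ⟨δ1, hδ1, h1⟩ := exists_ball_mat hU
  have hV' : MulOpposite.op ⁻¹' V ∈ 𝓝 (1 : Matrix (Fin n) (Fin n) L) := by
    refine MulOpposite.continuous_op.continuousAt.preimage_mem_nhds ?_
    have e : MulOpposite.op (1 : Matrix (Fin n) (Fin n) L) =
      (Units.embedProduct (Matrix (Fin n) (Fin n) L) 1).2 := by
      rw [map_one]; rfl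
    rw [e]
    exact hV
  obtain ⟨δ2, hδ2, h2⟩ := exists_ball_mat hV'
  refine ⟨min δ1 δ2, lt_min hδ1 hδ2, fun g hg1 hg2 => htO (hUV ⟨?_, ?_⟩)⟩
  · exact h1 _ (hg1.mono (min_le_left _ _))
  · exact h2 _ (hg2.mono (min_le_right _ _))

end Vale.Agent.P011.H961
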