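import Vale.Agent.P011.H961.R5TwoN
import Vale.Agent.P011.H961.R5Alg
import Vale.Agent.P011.H732D.Spec
import Vale.Agent.P011.H167.LfD

/-!
# Doubling over function fields of characteristic two: the step
-/

open Module Polynomial

set_option linter.unusedSectionVars false

namespace Vale.Agent.P011.H961.C2

open Vale.Agent.P011.H738 Vale.Agent.P011.H271 Vale.Agent.P011.H698
open Vale.Agent.P011.H271.S3 (Ab)
open Vale.Agent.P011.H732D (Un)
open Vale.Agent.P011.H961.R5 (NN exists_NN field_comm field_sym)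

section alg

variable {k D : Type} [Field k] [DivisionRing D] [StarRing D] [Algebra k D]

/-- Two elements of `Xs2 D δ`. -/
structure Two2 (δ : k) (a b : D) : Prop where
  sa : star a = a + 1
  sb : star b = b + 1
  aa : a * a = a + algebraMap k D δ
  bb : b * b = b + algebraMap k D δ

theorem add_self_zero (h2 : (2 : k) = 0) (x : D) : x + x = 0 := by
  rw [← two_mul, ← map_ofNat (algebraMap k D) 2, h2, map_zero, zero_mul]

theorem neg_self_eq (h2 : (2 : k) = 0) (x : D) : -x = x :=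
  neg_eq_of_add_eq_zero_left (add_self_zero h2 x)

namespace Two2

variable {δ : k} {a b : D} (h2 : (2 : k) = 0) (h : Two2 δ a b)

include h2 h

theorem za : (a + b + 1) * a = b * (a + b + 1) := by
  have e1 : (a + b + 1) * a = b * a + algebraMap k D δ + (a + a) := by
    rw [add_mul, add_mul, h.aa, one_mul]
    abel
  have e2 : b * (a + b + 1) = b * a + algebraMap k D δ + (b + b) := by
    rw [mul_add, mul_add, h.bb, mul_one]
    abel
  rw [e1, e2, add_self_zero h2, add_self_zero h2]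

theorem zb : (a + b + 1) * b = a * (a + b + 1) := by
  have e1 : (a + b + 1) * b = a * b + algebraMap k D δ + (b + b) := by
    rw [add_mul, add_mul, h.bb, one_mul]
    abel
  have e2 : a * (a + b + 1) = a * b + algebraMap k D δ + (a + a) := by
    rw [mul_add, mul_add, h.aa, mul_one]
    abel
  rw [e1, e2, add_self_zero h2, add_self_zero h2]

theorem zza : (a + b + 1) * (a + b + 1) * a = a * ((a + b + 1) * (a + b + 1)) := by
  rw [mul_assoc, h.za h2, ← mul_assoc, h.zb h2, mul_assoc]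

theorem sz : star (a + b + 1) = a + b + 1 := by
  rw [star_add, star_add, h.sa, h.sb, star_one]
  have e : a + 1 + (b + 1) + 1 = a + b + 1 + (1 + 1) := by abel
  rw [e, add_self_zero h2, add_zero]

theorem szz : star ((a + b + 1) * (a + b + 1)) = (a + b + 1) * (a + b + 1) := by
  rw [star_mul, h.sz h2]

/-- The commutation of `j = z * z + z` with `a`. -/
theorem ja : ((a + b + 1) * (a + b + 1) + (a + b + 1)) * a =
    (a + 1) * ((a + b + 1) * (a + b + 1) + (a + b + 1)) := by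
  rw [add_mul, h.zza h2, h.za h2]
  have e : (a + 1) * ((a + b + 1) * (a + b + 1) + (a + b + 1)) =
      a * ((a + b + 1) * (a + b + 1)) + b * (a + b + 1) +
        ((a + b + 1) * (a + b + 1) + (a + b + 1) * (a + b + 1)) -
          (b * (a + b + 1) + b * (a + b + 1)) := by
    noncomm_ring
  rw [e, add_self_zero h2, add_self_zero h2, add_zero, sub_zero]

end Two2

variable {F : Type} [Field F] [Algebra k F]

/-- The frame. -/
theorem exists_frame2 (h2 : (2 : k) = 0) (hst : ∀ (c : k) (x : D), star (c • x) = c • star x)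
    {δ : k} {a b : D} (h : Two2 δ a b) {ι : F →ₐ[k] D} {γ : F}
    (hγ : ι γ = (a + b + 1) * (a + b + 1)) (hgen : ∀ x : F, ∃ p : k[X], x = aeval γ p) {β : F}
    (hβ : β = γ * γ + γ) (hβ0 : β ≠ 0) :
    QFr2 ι (algebraMap k F δ) β a ((a + b + 1) * (a + b + 1) + (a + b + 1)) := by
  have hca : ∀ x : F, ι x * a = a * ι x := field_comm hgen (by rw [hγ, h.zza h2])
  have hcz : ∀ x : F, ι x * (a + b + 1) = (a + b + 1) * ι x :=
    field_comm hgen (by rw [hγ, mul_assoc])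
  refine ⟨field_sym hst hgen (by rw [hγ, h.szz h2]), h.sa, ?_, ?_, ?_, hβ0, h.ja h2, hca, ?_⟩
  · rw [star_add, h.szz h2, h.sz h2]
  · rw [h.aa, AlgHom.commutes]
  · rw [hβ, map_add, map_mul, hγ]
    obtain ⟨z, hz⟩ : ∃ z, z = a + b + 1 := ⟨_, rfl⟩
    rw [← hz]
    have e : (z * z + z) * (z * z + z) = z * z * (z * z) + z * z + (z * z * z + z * z * z) := by
      noncomm_ring
    rw [e, add_self_zero h2, add_zero]
  · intro x
    rw [← hγ, mul_add, add_mul, hcz, ← map_mul, ← map_mul, mul_comm x]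

/-- The element which conjugates `a` to `b`. -/
theorem exists_elt2 (h2 : (2 : k) = 0) (hst : ∀ (c : k) (x : D), star (c • x) = c • star x)
    {δ : k} {a b : D} (h : Two2 δ a b) {ι : F →ₐ[k] D} {γ : F}
    (hγ : ι γ = (a + b + 1) * (a + b + 1)) (hz : a + b + 1 ≠ 0)
    (hgen : ∀ x : F, ∃ p : k[X], x = aeval γ p) {β : F} (hβ : β = γ * γ + γ) (hβ0 : β ≠ 0)
    {p₀ p₁ : F} (hp : p₀ ^ 2 + p₀ * p₁ + algebraMap k F δ * p₁ ^ 2 = γ) :
    ∃ ν : D, QElt2 ι (algebraMap k F δ) β a ((a + b + 1) * (a + b + 1) + (a + b + 1)) p₀ p₁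
      ((p₀ + p₁) / γ) (p₁ / γ) ν ∧
      ν * a = b * ν ∧ ν = (a + b + 1)⁻¹ * (ι p₀ + ι p₁ * a) := by
  have hfr := exists_frame2 h2 hst h hγ hgen hβ hβ0
  have hca := hfr.ci
  have h2F : (2 : F) = 0 := by
    rw [← map_ofNat (algebraMap k F) 2, h2, map_zero]
  have hγ0 : γ ≠ 0 := by
    rintro rfl
    rw [map_zero] at hγ
    exact mul_ne_zero hz hz hγ.symm
  have hza := h.za h2
  obtain ⟨z, hzd⟩ : ∃ z, z = a + b + 1 := ⟨_, rfl⟩
  rw [← hzd] at hfr hγ hza hz ⊢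
  have hcz : ∀ x : F, ι x * z = z * ι x := field_comm hgen (by rw [hγ, mul_assoc])
  have hinv : z⁻¹ = ι γ⁻¹ * z := by
    refine inv_eq_of_mul_eq_one_right ?_
    rw [← mul_assoc, ← hcz, mul_assoc, ← hγ, ← map_mul, inv_mul_cancel₀ hγ0, map_one]
  obtain ⟨j, hj⟩ : ∃ j, j = z * z + z := ⟨_, rfl⟩
  have hzj : z = ι γ + j := by
    rw [hj, hγ, ← add_assoc, add_self_zero h2, zero_add]
  rw [← hj] at hfr ⊢
  refine ⟨z⁻¹ * (ι p₀ + ι p₁ * a), ⟨hfr, ?_, ?_⟩, ?_, rfl⟩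
  · -- the norm
    have e : p₀ ^ 2 + p₀ * p₁ + algebraMap k F δ * p₁ ^ 2 + β * (((p₀ + p₁) / γ) ^ 2 +
        (p₀ + p₁) / γ * (p₁ / γ) + algebraMap k F δ * (p₁ / γ) ^ 2) =
        (p₀ ^ 2 + p₀ * p₁ + algebraMap k F δ * p₁ ^ 2) + β / γ ^ 2 *
          (p₀ ^ 2 + p₀ * p₁ + algebraMap k F δ * p₁ ^ 2) +
            2 * (β / γ ^ 2 * (p₀ * p₁ + p₁ ^ 2)) := by
      field_simp
      ring
    rw [e, hp, h2F, zero_mul, add_zero, hβ]
    field_simp
    linear_combination γ * h2F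
  · -- the expansion
    rw [hinv]
    have e1 : ι γ⁻¹ * z * (ι p₀ + ι p₁ * a) = (ι p₀ + ι p₁ * a) +
        ι γ⁻¹ * (j * (ι p₀ + ι p₁ * a)) := by
      have e0 : ι γ⁻¹ * z = 1 + ι γ⁻¹ * j := by
        rw [hzj, mul_add, ← map_mul, inv_mul_cancel₀ hγ0, map_one]
      rw [e0, add_mul, one_mul, mul_assoc]
    have e2 : j * (ι p₀ + ι p₁ * a) = (ι p₀ + ι p₁ * (a + 1)) * j := by
      rw [mul_add, add_mul, ← hfr.cj, ← mul_assoc, ← hfr.cj, mul_assoc, hfr.ji, ← mul_assoc]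
    rw [e1, e2, ← mul_assoc]
    congr 2
    rw [mul_add, mul_add (ι p₁), mul_one, mul_add, ← map_mul, ← mul_assoc, ← map_mul,
      add_div, map_add]
    have e3 : γ⁻¹ * p₀ = p₀ / γ := by field_simp
    have e4 : γ⁻¹ * p₁ = p₁ / γ := by field_simp
    rw [e3, e4]
    abel
  · -- the conjugation
    have h3 : (ι p₀ + ι p₁ * a) * a = a * (ι p₀ + ι p₁ * a) := by
      rw [add_mul, mul_add, ← mul_assoc a (ι p₁) a, ← hca, ← hca]
    have h4 : z⁻¹ * a = b * z⁻¹ := by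
      rw [hinv, mul_assoc, hza, ← mul_assoc, ← mul_assoc]
      congr 1
      have hcb : ∀ x : F, ι x * b = b * ι x := fun x => by
        have hb : b = z + a + 1 := by
          rw [hzd]
          have e5 : a + b + 1 + a + 1 = b + (a + a) + (1 + 1) := by abel
          rw [e5, add_self_zero h2, add_self_zero h2, add_zero, add_zero]
        rw [hb, mul_add, mul_add, add_mul, add_mul, hcz, hca, mul_one, one_mul]
      exact hcb _
    rw [mul_assoc, h3, ← mul_assoc, h4, mul_assoc]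

end alg

variable {k D : Type} [Field k] [GFF k] [DivisionRing D] [StarRing D] [Algebra k D]

/-- **(R5) STEP in characteristic two.** -/
theorem step2 (h2 : (2 : k) = 0) (hst : ∀ (c : k) (x : D), star (c • x) = c • star x) {N : ℕ}
    (B : Basis (Fin N) k D) (δ : k)
    {I : D} (hI : I ∈ Xs2 D δ) {Q : Set D} (h1Q : (1 : D) ∈ Q) {T₀ : Finset (Place k)} {ε₀ : ℝ}
    (hε₀ : 0 < ε₀)
    (hQ : HQ2 B Q T₀ ε₀) {S₀ : Finset (Place k)} (hS₀ : S₀.Nonempty) (hT₀ : T₀ ⊆ S₀)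
    (hgood : ∀ v ∉ S₀, v.abv δ ≤ 1 ∧ Gd B v) {θ : ℝ} (hθ : 0 < θ) :
    ∃ κ : ℝ, 0 < κ ∧ ∀ i₁ ∈ Xs2 D δ, ∀ i₂ ∈ Xs2 D δ,
      (∀ v ∈ S₀, Sm B v κ (i₁ - I) ∧ Sm B v κ (i₂ - I)) →
      (∀ v ∉ S₀, ¬ Spl2 v δ → Un B v (i₁ + i₂ + 1)) →
      ∃ ν ∈ Q, ν * i₁ = i₂ * ν ∧ ∀ v ∈ S₀, Sm B v θ (ν - 1) := by
  classical
  obtain ⟨n, C, hn⟩ := exists_NN hst B
  choose π hπ0 hπ1 using fun v : Place k => H167.Lf.exists_abv_lt v one_pos
  -- the constants
  have hM : ∀ v : Place k, ∃ M : ℝ, 1 ≤ M ∧ n v 1 ≤ M ∧ n v I ≤ M ∧ v.abv δ ≤ M := fun v =>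
    ⟨max (max (n v 1) (n v I)) (v.abv δ),
      (hn v).one_le.trans (le_max_of_le_left (le_max_left _ _)),
      le_max_of_le_left (le_max_left _ _),
      le_max_of_le_left (le_max_right _ _), le_max_right _ _⟩
  choose M hM1 hMone hMI hMδ using hM
  obtain ⟨ρ, hρd⟩ : ∃ ρ : Place k → ℝ, ρ = fun v => min (min 1 (min θ ε₀)) (v.abv (π v)) :=
    ⟨_, rfl⟩
  have hρ0 : ∀ v, 0 < ρ v := fun v => by
    rw [hρd]
    exact lt_min (lt_min one_pos (lt_min hθ hε₀)) (AbsoluteValue.pos _ (hπ0 v))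
  have hρ1 : ∀ v, ρ v ≤ 1 := fun v => by
    rw [hρd]
    exact (min_le_left _ _).trans (min_le_left _ _)
  have hρθ : ∀ v, ρ v ≤ θ := fun v => by
    rw [hρd]
    exact (min_le_left _ _).trans ((min_le_right _ _).trans (min_le_left _ _))
  have hρε : ∀ v, ρ v ≤ ε₀ := fun v => by
    rw [hρd]
    exact (min_le_left _ _).trans ((min_le_right _ _).trans (min_le_right _ _))
  have hρπ : ∀ v, ρ v ≤ v.abv (π v) := fun v => by
    rw [hρd]
    exact min_le_right _ _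
  have hM0 : ∀ v, 0 < M v := fun v => one_pos.trans_le (hM1 v)
  obtain ⟨η, hηd⟩ : ∃ η : Place k → ℝ, η = fun v => ρ v / (2 * M v ^ 2) := ⟨_, rfl⟩
  have hη0 : ∀ v, 0 < η v := fun v => by
    rw [hηd]
    exact div_pos (hρ0 v) (mul_pos two_pos (pow_pos (hM0 v) 2))
  have hηρ : ∀ v, M v ^ 2 * η v < ρ v := fun v => by
    rw [hηd]
    have h3 : M v ^ 2 * (ρ v / (2 * M v ^ 2)) = ρ v / 2 := by
      have := (hM0 v).ne'
      field_simp
    change M v ^ 2 * (ρ v / (2 * M v ^ 2)) < ρ v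
    rw [h3]
    exact half_lt_self (hρ0 v)
  have hηρ' : ∀ v, η v < ρ v := fun v =>
    (le_mul_of_one_le_left (hη0 v).le (one_le_pow₀ (hM1 v))).trans_lt (hηρ v)
  have hη1 : ∀ v, η v < 1 := fun v => (hηρ' v).trans_le (hρ1 v)
  obtain ⟨κ', hκd⟩ : ∃ κ' : Place k → ℝ, κ' = fun v => η v / (2 * M v ^ 2) := ⟨_, rfl⟩
  have hκ0 : ∀ v, 0 < κ' v := fun v => by
    rw [hκd]
    exact div_pos (hη0 v) (mul_pos two_pos (pow_pos (hM0 v) 2))
  have hκη : ∀ v, M v ^ 2 * κ' v < η v := fun v => by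
    rw [hκd]
    have h3 : M v ^ 2 * (η v / (2 * M v ^ 2)) = η v / 2 := by
      have := (hM0 v).ne'
      field_simp
    change M v ^ 2 * (η v / (2 * M v ^ 2)) < η v
    rw [h3]
    exact half_lt_self (hη0 v)
  have hκM : ∀ v, M v * κ' v < η v := fun v => by
    refine lt_of_le_of_lt ?_ (hκη v)
    refine mul_le_mul_of_nonneg_right ?_ (hκ0 v).le
    rw [sq]
    exact le_mul_of_one_le_left (hM0 v).le (hM1 v)
  have hκη' : ∀ v, κ' v < η v := fun v =>
    (le_mul_of_one_le_left (hκ0 v).le (one_le_pow₀ (hM1 v))).trans_lt (hκη v)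
  obtain ⟨v₁, hv₁, hmin⟩ := S₀.exists_min_image (fun v => κ' v / (2 * C v)) hS₀
  have hC0 : ∀ v, 0 < C v := fun v => (hn v).C0
  refine ⟨κ' v₁ / (2 * C v₁), div_pos (hκ0 v₁) (mul_pos two_pos (hC0 v₁)), ?_⟩
  have hsm : ∀ v ∈ S₀, ∀ x : D, Sm B v (κ' v₁ / (2 * C v₁)) x → n v x < κ' v := by
    intro v hv x hx
    have h3 : n v x ≤ C v * (κ' v / (2 * C v)) :=
      (hn v).up x _ (div_pos (hκ0 v) (mul_pos two_pos (hC0 v))).le
        fun i => ((hx i).le.trans (hmin v hv))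
    have h4 : C v * (κ' v / (2 * C v)) = κ' v / 2 := by
      have := (hC0 v).ne'
      field_simp
    rw [h4] at h3
    exact h3.trans_lt (half_lt_self (hκ0 v))
  intro a ha b hb hab hun
  have hab1 : ∀ v ∈ S₀, n v (a - I) < κ' v := fun v hv => hsm v hv _ (hab v hv).1
  have hab2 : ∀ v ∈ S₀, n v (b - I) < κ' v := fun v hv => hsm v hv _ (hab v hv).2
  have h : Two2 δ a b := ⟨ha.1, hb.1, ha.2, hb.2⟩
  by_cases hne : a = b
  · refine ⟨1, h1Q, by rw [one_mul, mul_one, hne], fun v _ => ?_⟩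
    rw [sub_self]
    exact sm_zero hθ
  -- the sum
  have hz1 : ∀ v ∈ S₀, n v (a + b) < κ' v := by
    intro v hv
    have e : a + b = (a - I) + (b - I) := by
      have e1 : (a - I) + (b - I) = a + b - (I + I) := by abel
      rw [e1, add_self_zero h2, sub_zero]
    rw [e]
    exact (hn v).add_lt (hab1 v hv) (hab2 v hv)
  have hzc : a + b + 1 = 1 + (a + b) := add_comm _ _
  have hzf : ∀ v ∈ S₀, a + b + 1 ≠ 0 ∧ n v (a + b + 1)⁻¹ ≤ M v := by
    intro v hv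
    obtain ⟨h4, h5⟩ := (hn v).inv_near ((hz1 v hv).trans ((hκη' v).trans (hη1 v)))
    rw [hzc]
    exact ⟨h4, h5.trans (hMone v)⟩
  have hz : a + b + 1 ≠ 0 := (hzf v₁ hv₁).1
  have haM : ∀ v ∈ S₀, n v a ≤ M v := by
    intro v hv
    have e : a = (a - I) + I := by abel
    rw [e]
    exact (hn v).add_le (((hab1 v hv).trans ((hκη' v).trans (hη1 v))).le.trans (hM1 v)) (hMI v)
  -- the field
  obtain ⟨F, _, _, _, _, ι, γ, hγ, hgen⟩ := H167.Lf.exists_gen B ((a + b + 1) * (a + b + 1))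
  have h2F : (2 : F) = 0 := by
    rw [← map_ofNat (algebraMap k F) 2, h2, map_zero]
  have hγ0 : γ ≠ 0 := by
    rintro rfl
    rw [map_zero] at hγ
    exact mul_ne_zero hz hz hγ.symm
  have hι : Function.Injective ι := ι.toRingHom.injective
  -- the second generator
  have hγ1 : γ + 1 ≠ 0 := by
    intro h0
    apply hne
    have h3 : ι (γ + 1) = (a + b) * (a + b) := by
      rw [map_add, map_one, hγ]
      have e : (a + b + 1) * (a + b + 1) + 1 =
          (a + b) * (a + b) + ((a + b) + (a + b)) + (1 + 1) := by noncomm_ring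
      rw [e, add_self_zero h2, add_self_zero h2, add_zero, add_zero]
    rw [h0, map_zero, eq_comm, mul_self_eq_zero] at h3
    have h4 : a = -b := eq_neg_of_add_eq_zero_left h3
    rw [h4, neg_self_eq h2]
  obtain ⟨β, hβ⟩ : ∃ β : F, β = γ * γ + γ := ⟨_, rfl⟩
  have hβ0 : β ≠ 0 := by
    rw [hβ]
    have e : γ * γ + γ = γ * (γ + 1) := by ring
    rw [e]
    exact mul_ne_zero hγ0 hγ1
  have hfr := exists_frame2 h2 hst h hγ hgen hβ hβ0
  obtain ⟨d, hd⟩ : ∃ d : F, d = algebraMap k F δ := ⟨_, rfl⟩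
  -- δ does not split in the field
  have hδns : ∀ x : F, x ^ 2 + x ≠ d := by
    intro x hx
    have h3 : (a + ι x) * (a + ι x + 1) = 0 := by
      have e : (a + ι x) * (a + ι x + 1) =
          a * a + a + (ι x * ι x + ι x) + (a * ι x + ι x * a) := by noncomm_ring
      rw [e, hfr.ci, add_self_zero h2, add_zero, h.aa, ← map_mul, ← map_add, ← sq, hx, hd,
        AlgHom.commutes]
      have e2 : a + algebraMap k D δ + a + algebraMap k D δ =
        (a + a) + (algebraMap k D δ + algebraMap k D δ) := by abel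
      rw [e2, add_self_zero h2, add_self_zero h2, add_zero]
    have h6 : star a = a := by
      rcases mul_eq_zero.mp h3 with h4 | h4
      · rw [eq_neg_of_add_eq_zero_left h4, star_neg, hfr.sym]
      · rw [add_assoc] at h4
        rw [eq_neg_of_add_eq_zero_left h4, star_neg, star_add, hfr.sym, star_one]
    rw [h.sa] at h6
    exact one_ne_zero (add_eq_left.mp h6)
  -- the first estimate
  have htn : ∀ v ∈ S₀, n v (ι (γ + 1)) ≤ κ' v := by
    intro v hv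
    have e : ι (γ + 1) = (a + b) * (a + b) := by
      rw [map_add, map_one, hγ]
      have e : (a + b + 1) * (a + b + 1) + 1 =
          (a + b) * (a + b) + ((a + b) + (a + b)) + (1 + 1) := by noncomm_ring
      rw [e, add_self_zero h2, add_self_zero h2, add_zero, add_zero]
    rw [e]
    refine ((hn v).mul_le (hz1 v hv).le (hz1 v hv).le).trans ?_
    exact mul_le_of_le_one_left (hκ0 v).le ((hκη' v).trans (hη1 v)).le
  have hdn : ∀ v, n v (ι d) ≤ M v * M v := by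
    intro v
    rw [hd, AlgHom.commutes, (hn v).coe_eq]
    exact mul_le_mul (hMδ v) (hMone v) ((hn v).nn _) (hM0 v).le
  have hsmall : ∀ v ∈ S₀, ∀ ω : Place F, Ab ω v → ∀ x : F, n v (ι x) < ρ v → ω.abv x < 1 := by
    intro v hv ω hω x hx
    obtain ⟨c, hc0, hc⟩ := hω
    refine ((hn v).sub_field hc0 hc ι (hπ0 v) (hx.le.trans (hρπ v))).trans_lt ?_
    rw [hc]
    exact Real.rpow_lt_one (AbsoluteValue.nonneg _ _) (hπ1 v) hc0
  -- the cases at a place
  have hbelow : ∀ ω : Place F, ∃ v : Place k, Ab ω v := fun ω => by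
    obtain ⟨v, c, hc0, hc⟩ := Hey.H63.exists_below (k := k) ω
    exact ⟨v, c, hc0, hc⟩
  choose vb hvb using hbelow
  have hsub : ∀ x : F, x - 1 = x + 1 := fun x => by linear_combination -h2F
  have hcase : ∀ ω : Place F, Spl2 ω d ∨
      (vb ω ∉ S₀ ∧ ω.abv d ≤ 1 ∧ ω.abv γ = 1) ∨
      (vb ω ∈ S₀ ∧ LN2 ω d γ) := by
    intro ω
    by_cases hv : vb ω ∈ S₀
    · refine Or.inr (Or.inr ⟨hv, ?_⟩)
      refine ln_near h2F ?_ ?_
      · rw [hsub]
        exact hsmall _ hv ω (hvb ω) _ ((htn _ hv).trans_lt ((hκη' _).trans (hηρ' _)))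
      · rw [hsub]
        refine hsmall _ hv ω (hvb ω) _ ?_
        rw [map_mul]
        have h5 : n (vb ω) (ι d * ι (γ + 1)) ≤ M (vb ω) * M (vb ω) * κ' (vb ω) :=
          (hn _).mul_le (hdn _) (htn _ hv)
        rw [← sq] at h5
        exact h5.trans_lt ((hκη _).trans (hηρ' _))
    by_cases hl : Spl2 (vb ω) δ
    · rw [hd]
      exact Or.inl (hl.up (hvb ω))
    right; left
    obtain ⟨hd1, hG⟩ := hgood _ hv
    obtain ⟨hu1, hu2⟩ := hun _ hv hl
    obtain ⟨c, hc0, hc⟩ := hvb ω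
    refine ⟨hv, by rw [hd, hc]; exact Real.rpow_le_one (AbsoluteValue.nonneg _ _) hd1 hc0.le, ?_⟩
    have hpow : ∀ x : D, Bd B (vb ω) 1 x → ∀ m : ℕ, Bd B (vb ω) 1 (x ^ (m + 1)) := by
      intro x hx m
      induction m with
      | zero => simpa using hx
      | succ m ih =>
        rw [pow_succ]
        have := hG.mul' zero_le_one zero_le_one ih hx
        rwa [one_mul] at this
    have hb1 : Bd B (vb ω) 1 ((a + b + 1) * (a + b + 1)) := by
      have := hG.mul' zero_le_one zero_le_one hu1 hu1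
      rwa [one_mul] at this
    have hb2 : Bd B (vb ω) 1 ((a + b + 1)⁻¹ * (a + b + 1)⁻¹) := by
      have := hG.mul' zero_le_one zero_le_one hu2 hu2
      rwa [one_mul] at this
    have h5 := H929.FF.abv_le_one_of_pow B hc0 hc ι (x := γ) (fun m => by
      rw [map_pow, hγ]
      exact hpow _ hb1 m)
    have h6 := H929.FF.abv_le_one_of_pow B hc0 hc ι (x := γ⁻¹) (fun m => by
      rw [map_pow, map_inv₀, hγ, mul_inv_rev]
      exact hpow _ hb2 m)
    rw [map_inv₀, inv_le_one₀ (AbsoluteValue.pos _ hγ0)] at h6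
    exact le_antisymm h5 h6
  -- the global norm
  obtain ⟨X, Y, hXY⟩ := hasse_two h2F hδns (c := γ) fun ω => by
    rcases hcase ω with h3 | ⟨-, h3, h4⟩ | ⟨-, h3⟩
    · exact h3.ln h2F γ
    · exact ln_unit h2F h3 h4
    · exact h3
  obtain ⟨P₀, P₁, hP, hP1⟩ : ∃ P₀ P₁ : F, P₀ ^ 2 + P₀ * P₁ + d * P₁ ^ 2 = γ ∧
      1 + P₀ + P₁ ≠ 0 := by
    by_cases h3 : 1 + X + Y = 0
    · refine ⟨X + Y, Y, ?_, ?_⟩
      · linear_combination hXY + (X * Y + Y ^ 2) * h2F
      · intro h4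
        apply hγ1
        have h5 : Y = 0 := by linear_combination h4 - h3
        have h6 : X = 1 := by linear_combination h3 - h5 - h2F
        rw [← hXY, h5, h6]
        linear_combination h2F
    · exact ⟨X, Y, hXY, h3⟩
  -- the bad places
  obtain ⟨S, hSd⟩ : ∃ S : Set (Place F), S = {ω | ¬ LN2 ω d β ∧ vb ω ∉ S₀} := ⟨_, rfl⟩
  have hSf : S.Finite := (bad_finite h2F d hβ0).subset fun ω hω => by
    rw [hSd] at hω
    exact hω.1
  have hSω : ∀ ω ∈ S, ω.abv d ≤ 1 ∧ ω.abv (γ + 1) < 1 := by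
    intro ω hω
    rw [hSd] at hω
    obtain ⟨hω1, hω2⟩ := hω
    rcases hcase ω with h3 | ⟨-, h3, h4⟩ | ⟨h3, -⟩
    · exact absurd (h3.ln h2F β) hω1
    · refine ⟨h3, ?_⟩
      have h6 : ω.abv (γ + 1) ≤ 1 := (ω.nonarch _ _).trans (max_le h4.le (map_one _).le)
      refine lt_of_le_of_ne h6 fun h7 => hω1 ?_
      refine ln_unit h2F h3 ?_
      have e : β = γ * (γ + 1) := by
        rw [hβ]
        ring
      rw [e, map_mul, h4, h7, one_mul]
    · exact absurd h3 hω2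
  have hSfin : Finite S := hSf
  -- the norms
  let L := {v // v ∈ S₀} ⊕ {ω // ω ∈ S}
  have hLne : Nonempty L := ⟨Sum.inl ⟨v₁, hv₁⟩⟩
  let nl : L → F → ℝ := Sum.elim (fun v x => n v.1 (ι x)) (fun ω x => ω.1.abv x)
  have hnl : ∀ l, UN (nl l) := by
    rintro (v | ω)
    · exact UN.of_NN (hn v.1) ι
    · exact UN.of_place ω.1
  have hnt : ∀ l, nl l (γ + 1) < 1 ∧ nl l d * nl l (γ + 1) < 1 := by
    rintro (v | ω)
    · refine ⟨(htn v.1 v.2).trans_lt ((hκη' _).trans (hη1 _)), ?_⟩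
      have h5 : n v.1 (ι d) * n v.1 (ι (γ + 1)) ≤ M v.1 * M v.1 * κ' v.1 :=
        mul_le_mul (hdn _) (htn _ v.2) ((hn _).nn _) (mul_nonneg (hM0 _).le (hM0 _).le)
      rw [← sq] at h5
      exact h5.trans_lt ((hκη _).trans (hη1 _))
    · obtain ⟨h3, h4⟩ := hSω ω.1 ω.2
      exact ⟨h4, (mul_le_of_le_one_left (AbsoluteValue.nonneg _ _) h3).trans_lt h4⟩
  let εl : L → ℝ := Sum.elim (fun v => η v.1) (fun _ => 1)
  have hεl : ∀ l, 0 < εl l := by
    rintro (v | ω)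
    · exact hη0 v.1
    · exact one_pos
  have htiny := fun l => near_two h2F (hnl l) hP hγ0 hP1 (hεl l)
  choose τ hτ0 hτ using htiny
  obtain ⟨l₂, hmin2⟩ := Finite.exists_min τ
  obtain ⟨x, hx⟩ := exists_iter h2F hnl d (γ + 1) (fun l => (hnt l).1) (fun l => (hnt l).2)
    (hτ0 l₂)
  obtain ⟨e, he⟩ : ∃ e, e = d * x ^ 2 + x + 1 + γ := ⟨_, rfl⟩
  obtain ⟨Nd, hNd⟩ : ∃ Nd, Nd = (P₀ + 1 + x) ^ 2 + (P₀ + 1 + x) * (P₁ + x) +
      d * (P₁ + x) ^ 2 := ⟨_, rfl⟩
  have hres : ∀ l, Nd ≠ 0 ∧ nl l (e * (P₀ + 1 + P₁) / Nd) < εl l ∧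
      nl l (e * (P₁ + x) / Nd) < εl l := fun l => by
    refine hτ l x e Nd ((hx l).1.trans (hnt l).1.le) he hNd ?_
    refine lt_of_lt_of_le ?_ (hmin2 l)
    have e1 : e = d * x ^ 2 + x + (γ + 1) := by
      rw [he]
      ring
    rw [e1]
    exact (hx l).2
  have hNd0 : Nd ≠ 0 := (hres l₂).1
  obtain ⟨p₀, hp₀⟩ : ∃ p₀ : F, p₀ = 1 + e * (P₀ + 1 + P₁) / Nd := ⟨_, rfl⟩
  obtain ⟨p₁, hp₁⟩ : ∃ p₁ : F, p₁ = x + e * (P₁ + x) / Nd := ⟨_, rfl⟩
  have hp : p₀ ^ 2 + p₀ * p₁ + d * p₁ ^ 2 = γ := by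
    rw [hp₀, hp₁]
    exact conic_pt h2F hP he hNd hNd0
  have hpn : ∀ v ∈ S₀, n v (ι (p₀ - 1)) < η v ∧ n v (ι p₁) < η v := by
    intro v hv
    obtain ⟨-, h5, h6⟩ := hres (Sum.inl ⟨v, hv⟩)
    refine ⟨?_, ?_⟩
    · have e1 : p₀ - 1 = e * (P₀ + 1 + P₁) / Nd := by
        rw [hp₀]
        ring
      rw [e1]
      exact h5
    · rw [hp₁, map_add]
      refine (hn v).add_lt ?_ h6
      have h7 := (hx (Sum.inl ⟨v, hv⟩)).1
      exact (h7.trans (htn v hv)).trans_lt (hκη' v)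
  -- the element
  rw [hd] at hp
  obtain ⟨ν, hν, hνa, hνe⟩ := exists_elt2 h2 hst h hγ hz hgen hβ hβ0 (p₀ := p₀) (p₁ := p₁) hp
  have hνn : ∀ v ∈ S₀, n v (ν - 1) < ρ v := by
    intro v hv
    obtain ⟨h3, h4⟩ := hpn v hv
    have e1 : ν - 1 = (a + b + 1)⁻¹ * (ι (p₀ - 1) + ι p₁ * a) -
        (a + b + 1)⁻¹ * (a + b) := by
      rw [hνe, map_sub, map_one]
      have e2 : (a + b + 1)⁻¹ * (a + b) = 1 - (a + b + 1)⁻¹ := by
        have e3 : (a + b + 1)⁻¹ * (a + b + 1) = 1 := inv_mul_cancel₀ hz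
        rw [mul_add, mul_one] at e3
        exact eq_sub_of_add_eq e3
      rw [e2]
      noncomm_ring
    rw [e1]
    have h5 : n v (ι (p₀ - 1) + ι p₁ * a) ≤ η v * M v := by
      refine (hn v).add_le ?_ ?_
      · exact h3.le.trans (le_mul_of_one_le_right (hη0 v).le (hM1 v))
      · exact (hn v).mul_le h4.le (haM v hv)
    refine (hn v).sub_lt ?_ ?_
    · refine ((hn v).mul_le (hzf v hv).2 h5).trans_lt ?_
      have e3 : M v * (η v * M v) = M v ^ 2 * η v := by ring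
      rw [e3]
      exact hηρ v
    · refine ((hn v).mul_le (hzf v hv).2 (hz1 v hv).le).trans_lt ?_
      exact (hκM v).trans (hηρ' v)
  refine ⟨ν, ?_, hνa, fun v hv i => ((hn v).lo _ i).trans_lt ((hνn v hv).trans_le (hρθ v))⟩
  refine hQ F ι _ _ _ _ _ _ _ _ _ hν (fun v hv i =>
    ((hn v).lo _ i).trans_lt ((hνn v (hT₀ hv)).trans_le (hρε v))) fun ω hω => ?_
  rw [← hd] at hω
  by_cases hv : vb ω ∈ S₀
  · exact hsmall _ hv ω (hvb ω) _ ((hpn _ hv).2.trans (hηρ' _))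
  · have hωS : ω ∈ S := by
      rw [hSd]
      exact ⟨hω, hv⟩
    obtain ⟨-, -, h6⟩ := hres (Sum.inr ⟨ω, hωS⟩)
    rw [hp₁]
    refine (ω.nonarch _ _).trans_lt (max_lt ?_ h6)
    exact ((hx (Sum.inr ⟨ω, hωS⟩)).1).trans_lt (hnt (Sum.inr ⟨ω, hωS⟩)).1

end Vale.Agent.P011.H961.C2
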