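import Vale.Agent.P011.H961.R5Nu
import Vale.Agent.P011.H961.C2Spec

/-!
# Characteristic two: norms on a field, the Artin-Schreier iteration, the conic
-/

open Module

set_option linter.unusedSectionVars false

namespace Vale.Agent.P011.H961.C2

open Vale.Agent.P011.H738 Vale.Agent.P011.H271 Vale.Agent.P011.H698
open Vale.Agent.P011.H961.R5 (NN)

/-- An ultrametric submultiplicative norm on a field. -/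
structure UN {F : Type} [Field F] (n : F → ℝ) : Prop where
  nn : ∀ x, 0 ≤ n x
  add : ∀ x y, n (x + y) ≤ max (n x) (n y)
  mul : ∀ x y, n (x * y) ≤ n x * n y
  zero : n 0 = 0
  neg : ∀ x, n (-x) = n x
  pos : ∀ x, x ≠ 0 → 0 < n x

theorem UN.of_place {F : Type} [Field F] (ω : Place F) : UN ω.abv :=
  ⟨ω.abv.nonneg, ω.nonarch, fun x y => (map_mul ω.abv x y).le, map_zero _,
    AbsoluteValue.map_neg _, fun _ hx => AbsoluteValue.pos _ hx⟩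

theorem UN.of_NN {k D F : Type} [Field k] [DivisionRing D] [StarRing D] [Algebra k D] {N : ℕ}
    {B : Basis (Fin N) k D} {v : Place k} {n : D → ℝ} {C : ℝ} (h : NN B v n C) [Field F]
    [Algebra k F] (ι : F →ₐ[k] D) : UN fun x => n (ι x) where
  nn x := h.nn _
  add x y := by
    rw [map_add]
    exact h.add _ _
  mul x y := by
    rw [map_mul]
    exact h.mul _ _
  zero := by rw [map_zero, h.zero]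
  neg x := by rw [map_neg, h.neg]
  pos x hx := h.pos ((_root_.map_ne_zero _).mpr hx)

namespace UN

variable {F : Type} [Field F] {n : F → ℝ} (h : UN n)

include h

theorem one_le : 1 ≤ n 1 := by
  have h1 := h.mul 1 1
  rw [mul_one] at h1
  have h2 := h.pos 1 one_ne_zero
  by_contra hcon
  push Not at hcon
  nlinarith

theorem sub (x y : F) : n (x - y) ≤ max (n x) (n y) := by
  rw [sub_eq_add_neg]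
  refine (h.add _ _).trans ?_
  rw [h.neg]

theorem inv_near {x : F} (hx : n x < 1) : 1 + x ≠ 0 ∧ n (1 + x)⁻¹ ≤ n 1 := by
  have h0 : 1 + x ≠ 0 := by
    intro h1
    rw [eq_neg_of_add_eq_zero_right h1, h.neg] at hx
    exact absurd h.one_le (not_le.mpr hx)
  refine ⟨h0, ?_⟩
  have h1 : (1 + x)⁻¹ = 1 - x * (1 + x)⁻¹ := by
    field_simp
    ring
  have h2 := h.sub 1 (x * (1 + x)⁻¹)
  rw [← h1] at h2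
  rcases le_max_iff.mp h2 with h3 | h3
  · exact h3
  · exfalso
    have h4 := h.mul x (1 + x)⁻¹
    have h5 := h.pos _ (inv_ne_zero h0)
    nlinarith

theorem mul_le {x y : F} {a b : ℝ} (hx : n x ≤ a) (hy : n y ≤ b) : n (x * y) ≤ a * b :=
  (h.mul x y).trans (mul_le_mul hx hy (h.nn y) ((h.nn x).trans hx))

theorem add_le {x y : F} {a : ℝ} (hx : n x ≤ a) (hy : n y ≤ a) : n (x + y) ≤ a :=
  (h.add x y).trans (max_le hx hy)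

theorem add_lt {x y : F} {a : ℝ} (hx : n x < a) (hy : n y < a) : n (x + y) < a :=
  (h.add x y).trans_lt (max_lt hx hy)

end UN

variable {F : Type} [Field F]

/-- **The Artin-Schreier iteration**, at finitely many norms at once. -/
theorem exists_iter (h2 : (2 : F) = 0) {L : Type} [Finite L] {n : L → F → ℝ}
    (h : ∀ l, UN (n l)) (δ t : F) (ht : ∀ l, n l t < 1) (hδt : ∀ l, n l δ * n l t < 1) {ε : ℝ}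
    (hε : 0 < ε) : ∃ x : F, ∀ l, n l x ≤ n l t ∧ n l (δ * x ^ 2 + x + t) < ε := by
  classical
  obtain ⟨M, hM⟩ : ∃ M : L → ℝ, M = fun l => max (n l δ) 1 := ⟨_, rfl⟩
  have hM1 : ∀ l, 1 ≤ M l := fun l => by rw [hM]; exact le_max_right _ _
  have hMδ : ∀ l, n l δ ≤ M l := fun l => by rw [hM]; exact le_max_left _ _
  have hM0 : ∀ l, 0 < M l := fun l => one_pos.trans_le (hM1 l)
  have hq : ∀ l, M l * n l t < 1 := fun l => by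
    rw [hM]
    rcases max_cases (n l δ) 1 with h3 | h3
    · change max (n l δ) 1 * n l t < 1
      rw [h3.1]
      exact hδt l
    · change max (n l δ) 1 * n l t < 1
      rw [h3.1, one_mul]
      exact ht l
  have hq0 : ∀ l, 0 ≤ M l * n l t := fun l => mul_nonneg (hM0 l).le ((h l).nn t)
  have key : ∀ m : ℕ, ∃ x : F, ∀ l, n l x ≤ n l t ∧
      M l * n l (δ * x ^ 2 + x + t) ≤ (M l * n l t) ^ (m + 1) := by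
    intro m
    induction m with
    | zero =>
      refine ⟨0, fun l => ⟨by rw [(h l).zero]; exact (h l).nn t, ?_⟩⟩
      rw [zero_add, pow_one, zero_pow two_ne_zero, mul_zero, zero_add, zero_add]
    | succ m ih =>
      obtain ⟨x, hx⟩ := ih
      obtain ⟨e, he⟩ : ∃ e, e = δ * x ^ 2 + x + t := ⟨_, rfl⟩
      rw [← he] at hx
      refine ⟨x + e, fun l => ?_⟩
      obtain ⟨h3, h4⟩ := hx l
      have h5 : (M l * n l t) ^ (m + 1) ≤ M l * n l t := by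
        rw [pow_succ]
        exact mul_le_of_le_one_left (hq0 l) (pow_le_one₀ (hq0 l) (hq l).le)
      have h6 : n l e ≤ n l t := le_of_mul_le_mul_left (h4.trans h5) (hM0 l)
      refine ⟨(h l).add_le h3 h6, ?_⟩
      have e1 : δ * (x + e) ^ 2 + (x + e) + t = δ * (e * e) := by
        linear_combination (δ * x * e + e) * h2 - he
      rw [e1]
      have h7 : n l (δ * (e * e)) ≤ M l * (n l e * n l e) :=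
        (h l).mul_le (hMδ l) ((h l).mul _ _)
      calc M l * n l (δ * (e * e)) ≤ M l * (M l * (n l e * n l e)) :=
            mul_le_mul_of_nonneg_left h7 (hM0 l).le
        _ = (M l * n l e) * (M l * n l e) := by ring
        _ ≤ (M l * n l t) ^ (m + 1) * (M l * n l t) :=
            mul_le_mul h4 (h4.trans h5) (mul_nonneg (hM0 l).le ((h l).nn e))
              (pow_nonneg (hq0 l) _)
        _ = (M l * n l t) ^ (m + 1 + 1) := by rw [← pow_succ]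
  rcases isEmpty_or_nonempty L with hL | hL
  · exact ⟨0, fun l => (hL.false l).elim⟩
  obtain ⟨l₀, hmax⟩ := Finite.exists_max fun l => M l * n l t
  obtain ⟨m, hm⟩ := exists_pow_lt_of_lt_one hε (hq l₀)
  obtain ⟨x, hx⟩ := key m
  refine ⟨x, fun l => ⟨(hx l).1, ?_⟩⟩
  calc n l (δ * x ^ 2 + x + t) ≤ M l * n l (δ * x ^ 2 + x + t) :=
        le_mul_of_one_le_left ((h l).nn _) (hM1 l)
    _ ≤ (M l * n l t) ^ (m + 1) := (hx l).2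
    _ ≤ (M l₀ * n l₀ t) ^ (m + 1) := pow_le_pow_left₀ (hq0 l) (hmax l) _
    _ ≤ (M l₀ * n l₀ t) ^ m := pow_le_pow_of_le_one (hq0 l₀) (hq l₀).le (Nat.le_succ m)
    _ < ε := hm

/-- The point of the conic. -/
theorem conic_pt (h2 : (2 : F) = 0) {δ c P₀ P₁ x e N : F}
    (hP : P₀ ^ 2 + P₀ * P₁ + δ * P₁ ^ 2 = c) (he : e = δ * x ^ 2 + x + 1 + c)
    (hN : N = (P₀ + 1 + x) ^ 2 + (P₀ + 1 + x) * (P₁ + x) + δ * (P₁ + x) ^ 2) (hN0 : N ≠ 0) :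
    (1 + e * (P₀ + 1 + P₁) / N) ^ 2 + (1 + e * (P₀ + 1 + P₁) / N) * (x + e * (P₁ + x) / N) +
      δ * (x + e * (P₁ + x) / N) ^ 2 = c := by
  have hkey : (N + e * (P₀ + 1 + P₁)) ^ 2 + (N + e * (P₀ + 1 + P₁)) * (x * N + e * (P₁ + x)) +
      δ * (x * N + e * (P₁ + x)) ^ 2 = c * N ^ 2 := by
    rw [he, ← hP] at *
    rw [hN]
    linear_combination (
      2 + 6 * P₀ + 11 * P₀ * P₁ + 30 * P₀ * P₁ * x + 8 * P₀ * P₁ * x * δ + 24 * P₀ * P₁ * x ^ 2 +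
      34 * P₀ * P₁ * x ^ 2 * δ + 3 * P₀ * P₁ * x ^ 3 + 34 * P₀ * P₁ * x ^ 3 * δ + 8 * P₀ * P₁ * x ^ 3 * δ ^ 2 -
      2 * P₀ * P₁ * x ^ 4 + 7 * P₀ * P₁ * x ^ 4 * δ + 15 * P₀ * P₁ * x ^ 4 * δ ^ 2 + 7 * P₀ * P₁ ^ 2 +
      11 * P₀ * P₁ ^ 2 * x + 15 * P₀ * P₁ ^ 2 * x * δ + 3 * P₀ * P₁ ^ 2 * x ^ 2 + 9 * P₀ * P₁ ^ 2 * x ^ 2 * δ +
      6 * P₀ * P₁ ^ 2 * x ^ 2 * δ ^ 2 - P₀ * P₁ ^ 2 * x ^ 3 - 4 * P₀ * P₁ ^ 2 * x ^ 3 * δ +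
      11 * P₀ * P₁ ^ 2 * x ^ 3 * δ ^ 2 + 6 * P₀ * P₁ ^ 2 * δ + 3 * P₀ * P₁ ^ 3 + 3 * P₀ * P₁ ^ 3 * x +
      6 * P₀ * P₁ ^ 3 * x * δ - 3 * P₀ * P₁ ^ 3 * x ^ 2 * δ + 4 * P₀ * P₁ ^ 3 * x ^ 2 * δ ^ 2 +
      8 * P₀ * P₁ ^ 3 * δ - 2 * P₀ * P₁ ^ 4 * x * δ ^ 2 + 4 * P₀ * P₁ ^ 4 * δ + 2 * P₀ * P₁ ^ 5 * δ +
      P₀ * P₁ ^ 5 * δ ^ 2 + 25 * P₀ * x + 39 * P₀ * x ^ 2 + 12 * P₀ * x ^ 2 * δ + 27 * P₀ * x ^ 3 +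
      32 * P₀ * x ^ 3 * δ + 7 * P₀ * x ^ 4 + 27 * P₀ * x ^ 4 * δ + 6 * P₀ * x ^ 4 * δ ^ 2 +
      7 * P₀ * x ^ 5 * δ + 7 * P₀ * x ^ 5 * δ ^ 2 + 8 * P₀ ^ 2 + 13 * P₀ ^ 2 * P₁ + 20 * P₀ ^ 2 * P₁ * x +
      6 * P₀ ^ 2 * P₁ * x * δ + P₀ ^ 2 * P₁ * x ^ 2 + 17 * P₀ ^ 2 * P₁ * x ^ 2 * δ - 6 * P₀ ^ 2 * P₁ * x ^ 3 +
      6 * P₀ ^ 2 * P₁ * x ^ 3 * δ + 6 * P₀ ^ 2 * P₁ * x ^ 3 * δ ^ 2 + 9 * P₀ ^ 2 * P₁ ^ 2 +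
      7 * P₀ ^ 2 * P₁ ^ 2 * x - 3 * P₀ ^ 2 * P₁ ^ 2 * x ^ 2 - 3 * P₀ ^ 2 * P₁ ^ 2 * x ^ 2 * δ +
      4 * P₀ ^ 2 * P₁ ^ 2 * x ^ 2 * δ ^ 2 + 4 * P₀ ^ 2 * P₁ ^ 2 * δ + 2 * P₀ ^ 2 * P₁ ^ 3 -
      4 * P₀ ^ 2 * P₁ ^ 3 * x * δ + 4 * P₀ ^ 2 * P₁ ^ 3 * δ + P₀ ^ 2 * P₁ ^ 4 + 4 * P₀ ^ 2 * P₁ ^ 4 * δ +
      24 * P₀ ^ 2 * x + 22 * P₀ ^ 2 * x ^ 2 + 12 * P₀ ^ 2 * x ^ 2 * δ + 4 * P₀ ^ 2 * x ^ 3 +
      20 * P₀ ^ 2 * x ^ 3 * δ - 2 * P₀ ^ 2 * x ^ 4 + 8 * P₀ ^ 2 * x ^ 4 * δ + 4 * P₀ ^ 2 * x ^ 4 * δ ^ 2 +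
      6 * P₀ ^ 3 + 8 * P₀ ^ 3 * P₁ + 2 * P₀ ^ 3 * P₁ * x - 8 * P₀ ^ 3 * P₁ * x ^ 2 + 4 * P₀ ^ 3 * P₁ * x ^ 2 * δ +
      4 * P₀ ^ 3 * P₁ ^ 2 - 2 * P₀ ^ 3 * P₁ ^ 2 * x - 4 * P₀ ^ 3 * P₁ ^ 2 * x * δ + 3 * P₀ ^ 3 * P₁ ^ 3 +
      2 * P₀ ^ 3 * P₁ ^ 3 * δ + 9 * P₀ ^ 3 * x - 2 * P₀ ^ 3 * x ^ 2 + 6 * P₀ ^ 3 * x ^ 2 * δ -
      5 * P₀ ^ 3 * x ^ 3 + 5 * P₀ ^ 3 * x ^ 3 * δ + 2 * P₀ ^ 4 + 2 * P₀ ^ 4 * P₁ - 4 * P₀ ^ 4 * P₁ * x +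
      3 * P₀ ^ 4 * P₁ ^ 2 - 2 * P₀ ^ 4 * x - 5 * P₀ ^ 4 * x ^ 2 + 2 * P₀ ^ 4 * x ^ 2 * δ +
      P₀ ^ 5 * P₁ - 2 * P₀ ^ 5 * x + 5 * P₁ + 18 * P₁ * x + 6 * P₁ * x * δ + 24 * P₁ * x ^ 2 +
      28 * P₁ * x ^ 2 * δ + 14 * P₁ * x ^ 3 + 39 * P₁ * x ^ 3 * δ + 12 * P₁ * x ^ 3 * δ ^ 2 +
      3 * P₁ * x ^ 4 + 20 * P₁ * x ^ 4 * δ + 23 * P₁ * x ^ 4 * δ ^ 2 + 3 * P₁ * x ^ 5 * δ +
      9 * P₁ * x ^ 5 * δ ^ 2 + 6 * P₁ * x ^ 5 * δ ^ 3 + 3 * P₁ ^ 2 + 7 * P₁ ^ 2 * x + 16 * P₁ ^ 2 * x * δ +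
      5 * P₁ ^ 2 * x ^ 2 + 20 * P₁ ^ 2 * x ^ 2 * δ + 12 * P₁ ^ 2 * x ^ 2 * δ ^ 2 + P₁ ^ 2 * x ^ 3 +
      7 * P₁ ^ 2 * x ^ 3 * δ + 20 * P₁ ^ 2 * x ^ 3 * δ ^ 2 - P₁ ^ 2 * x ^ 4 * δ + 7 * P₁ ^ 2 * x ^ 4 * δ ^ 2 +
      8 * P₁ ^ 2 * x ^ 4 * δ ^ 3 + 4 * P₁ ^ 2 * δ + 11 * P₁ ^ 3 * x * δ + 6 * P₁ ^ 3 * x * δ ^ 2 +
      3 * P₁ ^ 3 * x ^ 2 * δ + 11 * P₁ ^ 3 * x ^ 2 * δ ^ 2 - P₁ ^ 3 * x ^ 3 * δ + P₁ ^ 3 * x ^ 3 * δ ^ 2 +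
      6 * P₁ ^ 3 * x ^ 3 * δ ^ 3 + 7 * P₁ ^ 3 * δ + 3 * P₁ ^ 4 * x * δ + 2 * P₁ ^ 4 * x * δ ^ 2 +
      2 * P₁ ^ 4 * x ^ 2 * δ ^ 3 + 3 * P₁ ^ 4 * δ + 2 * P₁ ^ 4 * δ ^ 2 + 2 * P₁ ^ 5 * δ ^ 2 +
      P₁ ^ 6 * δ ^ 2 + 10 * x + 20 * x ^ 2 + 6 * x ^ 2 * δ + 20 * x ^ 3 + 20 * x ^ 3 * δ +
      10 * x ^ 4 + 24 * x ^ 4 * δ + 6 * x ^ 4 * δ ^ 2 + 2 * x ^ 5 + 12 * x ^ 5 * δ + 10 * x ^ 5 * δ ^ 2 +
      2 * x ^ 6 * δ + 4 * x ^ 6 * δ ^ 2 + 2 * x ^ 6 * δ ^ 3) * h2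
  have e1 : (1 + e * (P₀ + 1 + P₁) / N) ^ 2 + (1 + e * (P₀ + 1 + P₁) / N) *
      (x + e * (P₁ + x) / N) + δ * (x + e * (P₁ + x) / N) ^ 2 =
      ((N + e * (P₀ + 1 + P₁)) ^ 2 + (N + e * (P₀ + 1 + P₁)) * (x * N + e * (P₁ + x)) +
      δ * (x * N + e * (P₁ + x)) ^ 2) / N ^ 2 := by
    field_simp
  rw [e1, hkey, mul_div_assoc, div_self (pow_ne_zero 2 hN0), mul_one]

/-- The denominator is bounded below when `e` is small. -/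
theorem near_two (h2 : (2 : F) = 0) {n : F → ℝ} (h : UN n) {δ c P₀ P₁ : F}
    (hP : P₀ ^ 2 + P₀ * P₁ + δ * P₁ ^ 2 = c) (hc : c ≠ 0) (h1 : 1 + P₀ + P₁ ≠ 0) {ε : ℝ}
    (hε : 0 < ε) :
    ∃ η : ℝ, 0 < η ∧ ∀ x e N : F, n x ≤ 1 → e = δ * x ^ 2 + x + 1 + c →
      N = (P₀ + 1 + x) ^ 2 + (P₀ + 1 + x) * (P₁ + x) + δ * (P₁ + x) ^ 2 → n e < η →
      N ≠ 0 ∧ n (e * (P₀ + 1 + P₁) / N) < ε ∧ n (e * (P₁ + x) / N) < ε := by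
  obtain ⟨H, hH⟩ : ∃ H, H = c * (1 + P₀ + P₁) ^ 2 := ⟨_, rfl⟩
  have hH0 : H ≠ 0 := by
    rw [hH]
    exact mul_ne_zero hc (pow_ne_zero 2 h1)
  have hn1 := h.one_le
  -- the constants
  obtain ⟨A, hA0, hA⟩ : ∃ A : ℝ, 0 < A ∧ n H⁻¹ ≤ A :=
    ⟨max (n H⁻¹) 1, lt_max_of_lt_right one_pos, le_max_left _ _⟩
  obtain ⟨M, hM0, hM1, hM2, hM3, hM4, hM5, hM6, hM7⟩ : ∃ M : ℝ, 0 < M ∧ 1 ≤ M ∧ n 1 ≤ M ∧
      n (δ * P₁) ≤ M ∧ max (n δ) (n 1) * n (P₀ + P₁) ≤ M ∧ n ((P₀ + P₁) ^ 2) ≤ M ∧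
      n (P₀ + 1 + P₁) ≤ M ∧ n P₁ ≤ M := by
    refine ⟨max 1 (max (n 1) (max (n (δ * P₁)) (max (max (n δ) (n 1) * n (P₀ + P₁))
      (max (n ((P₀ + P₁) ^ 2)) (max (n (P₀ + 1 + P₁)) (n P₁)))))),
      lt_max_of_lt_left one_pos, le_max_left _ _, ?_, ?_, ?_, ?_, ?_, ?_⟩
    · exact le_max_of_le_right (le_max_left _ _)
    · exact le_max_of_le_right (le_max_of_le_right (le_max_left _ _))
    · exact le_max_of_le_right (le_max_of_le_right (le_max_of_le_right (le_max_left _ _)))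
    · exact le_max_of_le_right (le_max_of_le_right (le_max_of_le_right (le_max_of_le_right
        (le_max_left _ _))))
    · exact le_max_of_le_right (le_max_of_le_right (le_max_of_le_right (le_max_of_le_right
        (le_max_of_le_right (le_max_left _ _)))))
    · exact le_max_of_le_right (le_max_of_le_right (le_max_of_le_right (le_max_of_le_right
        (le_max_of_le_right (le_max_right _ _)))))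
  refine ⟨min (1 / (M * A)) (ε / (M * (M * A * M))), lt_min (by positivity) (by positivity),
    fun x e N hx he hN hη => ?_⟩
  have hη1 := hη.trans_le (min_le_left _ _)
  have hη2 := hη.trans_le (min_le_right _ _)
  rw [lt_div_iff₀ (by positivity)] at hη1 hη2
  obtain ⟨G, hG⟩ : ∃ G, G = δ * P₁ + (δ * x + 1) * (P₀ + P₁) := ⟨_, rfl⟩
  have hGM : n G ≤ M := by
    rw [hG]
    refine h.add_le hM3 (le_trans (h.mul_le ?_ le_rfl) hM4)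
    refine (h.add _ _).trans (max_le_max ?_ le_rfl)
    have := h.mul_le (le_refl (n δ)) hx
    rwa [mul_one] at this
  obtain ⟨U, hU⟩ : ∃ U, U = e * (((P₀ + P₁) ^ 2 + G) * H⁻¹) := ⟨_, rfl⟩
  have hU1 : n U < 1 := by
    rw [hU]
    exact ((h.mul _ _).trans (mul_le_mul_of_nonneg_left (h.mul_le (h.add_le hM5 hGM) hA)
      (h.nn _))).trans_lt hη1
  obtain ⟨hU2, hU3⟩ := h.inv_near hU1
  have hkey : N * G = H * (1 + U) := by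
    have e1 : H * (1 + U) = H + e * ((P₀ + P₁) ^ 2 + G) := by
      rw [hU]
      field_simp
    rw [e1, hG, hH, hN, he, ← hP]
    linear_combination (
      P₀ * P₁ * x + 4 * P₀ * P₁ * x * δ + P₀ * P₁ * x ^ 2 * δ + P₀ * P₁ * x ^ 2 * δ ^ 2 +
      P₀ * P₁ * δ - P₀ * P₁ ^ 2 - P₀ * P₁ ^ 2 * δ - P₀ * P₁ ^ 3 - 2 * P₀ * P₁ ^ 3 * δ + P₀ * x +
      P₀ * x ^ 2 + P₀ * x ^ 2 * δ + P₀ * x ^ 3 * δ - 2 * P₀ ^ 2 * P₁ - 3 * P₀ ^ 2 * P₁ ^ 2 -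
      P₀ ^ 2 * P₁ ^ 2 * δ + P₀ ^ 2 * x + P₀ ^ 2 * x * δ + P₀ ^ 2 * x ^ 2 * δ - P₀ ^ 3 - 3 * P₀ ^ 3 * P₁ -
      P₀ ^ 4 + P₁ * x + P₁ * x * δ + P₁ * x ^ 2 + 2 * P₁ * x ^ 2 * δ + P₁ * x ^ 3 * δ + 2 * P₁ ^ 2 * x * δ +
      P₁ ^ 2 * x * δ ^ 2 + P₁ ^ 2 * x ^ 2 * δ ^ 2 - P₁ ^ 3 * δ - P₁ ^ 4 * δ) * h2
  have hN0 : N ≠ 0 := by
    rintro rfl
    rw [zero_mul] at hkey
    exact mul_ne_zero hH0 hU2 hkey.symm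
  have hinv : N⁻¹ = G * H⁻¹ * (1 + U)⁻¹ := by
    refine inv_eq_of_mul_eq_one_right ?_
    have e1 : N * (G * H⁻¹ * (1 + U)⁻¹) = N * G * (H⁻¹ * (1 + U)⁻¹) := by ring
    rw [e1, hkey, ← mul_inv, mul_inv_cancel₀ (mul_ne_zero hH0 hU2)]
  have hNi : n N⁻¹ ≤ M * A * M := by
    rw [hinv]
    exact h.mul_le (h.mul_le hGM hA) (hU3.trans hM2)
  refine ⟨hN0, ?_, ?_⟩
  · rw [mul_div_assoc, div_eq_mul_inv]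
    exact ((h.mul _ _).trans (mul_le_mul_of_nonneg_left (h.mul_le hM6 hNi) (h.nn _))).trans_lt hη2
  · rw [mul_div_assoc, div_eq_mul_inv]
    exact ((h.mul _ _).trans (mul_le_mul_of_nonneg_left
      (h.mul_le (h.add_le hM7 (hx.trans hM1)) hNi) (h.nn _))).trans_lt hη2

end Vale.Agent.P011.H961.C2
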