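import Vale.Agent.P011.H698.Bd
import Vale.Agent.P011.H279.R2Base
import Vale.Agent.P011.H167.LfD
import Vale.Agent.P011.H961.C2SpecN
import Mathlib.RingTheory.Artinian.Module

/-!
# Ultrametric submultiplicative norms on a ring; the subalgebra of a symmetric element
-/

open Module Polynomial

set_option linter.unusedSectionVars false

namespace Vale.Agent.P011.H961.C2

open Vale.Agent.P011.H738 Vale.Agent.P011.H271 Vale.Agent.P011.H698

section nr

variable {k A : Type} [Field k] [Ring A] [StarRing A] [Algebra k A] {N : ℕ}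

/-- An ultrametric submultiplicative norm, comparable with the coordinates. -/
structure NR (B : Basis (Fin N) k A) (v : Place k) (n : A → ℝ) (C : ℝ) : Prop where
  C1 : 1 ≤ C
  nn : ∀ x, 0 ≤ n x
  add : ∀ x y, n (x + y) ≤ max (n x) (n y)
  mul : ∀ x y, n (x * y) ≤ n x * n y
  smul : ∀ (c : k) x, n (c • x) = v.abv c * n x
  lo : ∀ x i, v.abv (B.repr x i) ≤ n x
  up : ∀ x c, 0 ≤ c → (∀ i, v.abv (B.repr x i) ≤ c) → n x ≤ C * c

theorem exists_NR [GFF k] [Nontrivial A] (B : Basis (Fin N) k A) :
    ∃ (n : Place k → A → ℝ) (C : Place k → ℝ), ∀ v, NR B v (n v) (C v) := by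
  classical
  obtain ⟨C, hC1, -, hCm⟩ := mul_bd B
  have hN : 0 < N := by
    rcases Nat.eq_zero_or_pos N with h | h
    · subst h
      exfalso
      apply one_ne_zero (α := A)
      apply B.repr.injective
      ext i
      exact i.elim0
    · exact h
  have hne : (Finset.univ : Finset (Fin N)).Nonempty := ⟨⟨0, hN⟩, Finset.mem_univ _⟩
  obtain ⟨m, hm⟩ : ∃ m : Place k → A → ℝ, m = fun v x =>
    Finset.univ.sup' hne fun i => v.abv (B.repr x i) := ⟨_, rfl⟩
  have hle : ∀ v x c, m v x ≤ c ↔ Bd B v c x := by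
    intro v x c
    rw [hm, Finset.sup'_le_iff]
    exact ⟨fun h i => h i (Finset.mem_univ _), fun h i _ => h i⟩
  have hself : ∀ v x, Bd B v (m v x) x := fun v x => (hle v x _).mp le_rfl
  have hm0 : ∀ v x, 0 ≤ m v x := fun v x =>
    (v.abv.nonneg _).trans (hself v x ⟨0, hN⟩)
  have hC0 : ∀ v, 0 < C v := fun v => one_pos.trans_le (hC1 v)
  refine ⟨fun v x => C v * m v x, C, fun v => ⟨hC1 v, fun x => mul_nonneg (hC0 v).le (hm0 v x),
    fun x y => ?_, fun x y => ?_, fun c x => ?_, fun x i => ?_, fun x c hc hx => ?_⟩⟩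
  · have h1 : m v (x + y) ≤ max (m v x) (m v y) :=
      (hle v _ _).mpr (((hself v x).mono (le_max_left _ _)).add ((hself v y).mono (le_max_right _ _)))
    change C v * m v (x + y) ≤ max (C v * m v x) (C v * m v y)
    rw [← mul_max_of_nonneg _ _ (hC0 v).le]
    exact mul_le_mul_of_nonneg_left h1 (hC0 v).le
  · have h1 : m v (x * y) ≤ C v * m v x * m v y :=
      (hle v _ _).mpr (hCm v _ _ _ _ (hm0 v x) (hm0 v y) (hself v x) (hself v y))
    calc C v * m v (x * y) ≤ C v * (C v * m v x * m v y) :=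
        mul_le_mul_of_nonneg_left h1 (hC0 v).le
      _ = C v * m v x * (C v * m v y) := by ring
  · have h1 : m v (c • x) = v.abv c * m v x := by
      rw [hm]
      simp only [map_smul, Finsupp.smul_apply, smul_eq_mul, map_mul]
      refine le_antisymm (Finset.sup'_le _ _ fun i _ => ?_) ?_
      · refine mul_le_mul_of_nonneg_left ?_ (v.abv.nonneg _)
        exact Finset.le_sup' (fun i => v.abv (B.repr x i)) (Finset.mem_univ i)
      · obtain ⟨i, hi, h2⟩ := Finset.exists_mem_eq_sup' hne fun i => v.abv (B.repr x i)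
        rw [h2]
        exact Finset.le_sup' (fun i => v.abv c * v.abv (B.repr x i)) hi
    change C v * m v (c • x) = v.abv c * (C v * m v x)
    rw [h1]
    ring
  · exact (hself v x i).trans (le_mul_of_one_le_left (hm0 v x) (hC1 v))
  · exact mul_le_mul_of_nonneg_left ((hle v x c).mpr hx) (hC0 v).le

variable {B : Basis (Fin N) k A} {v : Place k} {n : A → ℝ} {C : ℝ}

namespace NR

variable (h : NR B v n C)

include h

theorem C0 : 0 < C := one_pos.trans_le h.C1

theorem zero : n 0 = 0 := by
  have := h.smul 0 0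
  rw [zero_smul, map_zero, zero_mul] at this
  exact this

theorem neg (x : A) : n (-x) = n x := by
  have := h.smul (-1) x
  rw [neg_one_smul, AbsoluteValue.map_neg, map_one, one_mul] at this
  exact this

theorem sub (x y : A) : n (x - y) ≤ max (n x) (n y) := by
  rw [sub_eq_add_neg]
  refine (h.add _ _).trans ?_
  rw [h.neg]

theorem eq_zero {x : A} (hx : n x = 0) : x = 0 := by
  apply B.repr.injective
  ext i
  rw [map_zero, Finsupp.zero_apply]
  have := h.lo x i
  rw [hx] at this
  exact (AbsoluteValue.eq_zero v.abv).mp (le_antisymm this (v.abv.nonneg _))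

theorem pos {x : A} (hx : x ≠ 0) : 0 < n x :=
  lt_of_le_of_ne (h.nn x) fun h0 => hx (h.eq_zero h0.symm)

theorem one_le [Nontrivial A] : 1 ≤ n 1 := by
  have h1 := h.mul 1 1
  rw [mul_one] at h1
  have h2 := h.pos (one_ne_zero (α := A))
  by_contra hcon
  push Not at hcon
  nlinarith

theorem coe_eq (c : k) : n (algebraMap k A c) = v.abv c * n 1 := by
  rw [Algebra.algebraMap_eq_smul_one, h.smul]

/-- Elements near one are invertible. -/
theorem exists_inv {x : A} (hx : n x < 1) :
    ∃ w : A, (1 + x) * w = 1 ∧ w * (1 + x) = 1 := by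
  have _ : FiniteDimensional k A := Module.Finite.of_basis B
  have hinj : Function.Injective (LinearMap.mulLeft k (1 + x)) := by
    rw [← LinearMap.ker_eq_bot, LinearMap.ker_eq_bot']
    intro y hy
    rw [LinearMap.mulLeft_apply, add_mul, one_mul] at hy
    have h1 : n y ≤ n x * n y := by
      have h2 : y = -(x * y) := eq_neg_of_add_eq_zero_left hy
      have h3 : n y = n (x * y) := by
        conv_lhs => rw [h2]
        rw [h.neg]
      exact h3.le.trans (h.mul x y)
    by_contra hy0
    have h4 := h.pos hy0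
    nlinarith
  have hsurj := LinearMap.surjective_of_injective hinj
  obtain ⟨w, hw⟩ := hsurj 1
  rw [LinearMap.mulLeft_apply] at hw
  refine ⟨w, hw, ?_⟩
  apply hinj
  rw [LinearMap.mulLeft_apply, LinearMap.mulLeft_apply, ← mul_assoc, hw, one_mul, mul_one]

theorem inv_le {x w : A} (hx : n x < 1) (hw : (1 + x) * w = 1) : n w ≤ n 1 := by
  have h1 : w = 1 - x * w := by
    rw [← hw]
    noncomm_ring
  have h2 := h.sub 1 (x * w)
  rw [← h1] at h2
  rcases le_max_iff.mp h2 with h3 | h3
  · exact h3
  · have h4 := h.mul x w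
    have h5 := h.nn w
    have h6 := h.nn x
    have h7 : n w ≤ 0 := by nlinarith
    exact h7.trans (h.nn 1)

theorem mul_le {x y : A} {a b : ℝ} (hx : n x ≤ a) (hy : n y ≤ b) : n (x * y) ≤ a * b :=
  (h.mul x y).trans (mul_le_mul hx hy (h.nn y) ((h.nn x).trans hx))

theorem add_le {x y : A} {a : ℝ} (hx : n x ≤ a) (hy : n y ≤ a) : n (x + y) ≤ a :=
  (h.add x y).trans (max_le hx hy)

theorem add_lt {x y : A} {a : ℝ} (hx : n x < a) (hy : n y < a) : n (x + y) < a :=
  (h.add x y).trans_lt (max_lt hx hy)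

theorem sub_lt {x y : A} {a : ℝ} (hx : n x < a) (hy : n y < a) : n (x - y) < a :=
  (h.sub x y).trans_lt (max_lt hx hy)

theorem sum_lt {ι : Type*} (s : Finset ι) {f : ι → A} {a : ℝ} (ha : 0 < a)
    (hf : ∀ i ∈ s, n (f i) < a) : n (∑ i ∈ s, f i) < a := by
  classical
  induction s using Finset.induction_on with
  | empty => rw [Finset.sum_empty, h.zero]; exact ha
  | insert b s hb ih =>
    rw [Finset.sum_insert hb]
    exact h.add_lt (hf b (Finset.mem_insert_self _ _))
      (ih fun i hi => hf i (Finset.mem_insert_of_mem hi))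

end NR

end nr

section pi

variable {k A : Type} [Field k] [GFF k] [Ring A] [Algebra k A] {N : ℕ}

open scoped IsMulCommutative in
/-- The subalgebra of an element without nilpotents in its subalgebra is a product of fields. -/
theorem exists_pi (B : Basis (Fin N) k A) (c : A)
    (hred : ∀ p : k[X], (aeval c p) * (aeval c p) = 0 → aeval c p = 0) :
    ∃ (L : Type) (_ : Fintype L) (_ : DecidableEq L) (F : L → Type) (_ : ∀ l, Field (F l))
      (_ : ∀ l, GFF (F l)) (_ : ∀ l, Algebra k (F l)) (_ : ∀ l, Algebra.IsAlgebraic k (F l))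
      (Φ : (∀ l, F l) →ₐ[k] A) (γ : ∀ l, F l), Φ γ = c ∧ Function.Injective Φ ∧
      ∀ x, ∃ p : k[X], x = aeval γ p := by
  classical
  have _ : FiniteDimensional k A := Module.Finite.of_basis B
  have _ : IsMulCommutative (Algebra.adjoin k {c}) := by
    apply IsMulCommutative.of_setLike_mul_comm
    intro a ha b hb
    rw [Algebra.adjoin_singleton_eq_range_aeval] at ha hb
    obtain ⟨p, rfl⟩ := ha
    obtain ⟨q, rfl⟩ := hb
    change aeval c p * aeval c q = aeval c q * aeval c p
    rw [← map_mul, mul_comm, map_mul]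
  have hred' : IsReduced (Algebra.adjoin k {c}) := by
    rw [isReduced_iff_pow_one_lt 2 one_lt_two]
    intro x hx
    have h1 : (x : A) ∈ (aeval c : k[X] →ₐ[k] A).range := by
      rw [← Algebra.adjoin_singleton_eq_range_aeval]
      exact x.2
    obtain ⟨p, hp⟩ := h1
    change aeval c p = (x : A) at hp
    apply Subtype.ext
    rw [ZeroMemClass.coe_zero, ← hp]
    apply hred
    rw [hp, ← sq, ← SubmonoidClass.coe_pow, hx, ZeroMemClass.coe_zero]
  have hart : IsArtinianRing (Algebra.adjoin k {c}) := IsArtinianRing.of_finite k _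
  have hfin : Finite (MaximalSpectrum (Algebra.adjoin k {c})) := inferInstance
  have := Fintype.ofFinite (MaximalSpectrum (Algebra.adjoin k {c}))
  let e : Algebra.adjoin k {c} ≃ₐ[k] ∀ I : MaximalSpectrum (Algebra.adjoin k {c}),
      Algebra.adjoin k {c} ⧸ I.asIdeal :=
    (IsArtinianRing.equivPi (Algebra.adjoin k {c})).restrictScalars k
  have hc : c ∈ Algebra.adjoin k {c} := Algebra.self_mem_adjoin_singleton k c
  refine ⟨MaximalSpectrum (Algebra.adjoin k {c}), inferInstance, Classical.decEq _,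
    fun I => Algebra.adjoin k {c} ⧸ I.asIdeal, fun I => ?_, ?_⟩
  · have := I.isMaximal
    exact Ideal.Quotient.field I.asIdeal
  refine ⟨fun I => ?_, inferInstance, fun I => ?_,
    (Algebra.adjoin k {c}).val.comp e.symm.toAlgHom, e ⟨c, hc⟩, ?_, ?_, ?_⟩
  · have := I.isMaximal
    let _ : Field (Algebra.adjoin k {c} ⧸ I.asIdeal) := Ideal.Quotient.field I.asIdeal
    exact Hey.H63.gff_of_finite (k := k)
  · have := I.isMaximal
    exact Algebra.IsAlgebraic.of_finite k _
  · change ((e.symm (e ⟨c, hc⟩) : Algebra.adjoin k {c}) : A) = c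
    rw [e.symm_apply_apply]
  · intro x y hxy
    exact e.symm.injective (Subtype.ext hxy)
  · intro x
    have h1 : ((e.symm x : Algebra.adjoin k {c}) : A) ∈ (aeval c : k[X] →ₐ[k] A).range := by
      rw [← Algebra.adjoin_singleton_eq_range_aeval]
      exact (e.symm x).2
    obtain ⟨p, hp⟩ := h1
    refine ⟨p, e.symm.injective (Subtype.ext ?_)⟩
    have h2 : e.symm (aeval (e ⟨c, hc⟩) p) = aeval (⟨c, hc⟩ : Algebra.adjoin k {c}) p := by
      have h3 := aeval_algHom_apply e.symm.toAlgHom (e ⟨c, hc⟩) p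
      have h4 : e.symm.toAlgHom (e ⟨c, hc⟩) = ⟨c, hc⟩ := e.symm_apply_apply _
      rw [h4] at h3
      exact h3.symm
    rw [h2, ← hp]
    change aeval c p = (Algebra.adjoin k {c}).val (aeval _ p)
    rw [← aeval_algHom_apply]
    rfl

end pi

end Vale.Agent.P011.H961.C2
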