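import Vale.Agent.P011.H961.Idem
import Vale.Agent.P011.H961.AlgSplit
import Vale.Agent.P011.H973.Bimul
import Vale.Agent.P011.H973.RankOne

/-!
# An Azumaya order over a complete discretely valued field with finite residue field is split
-/

open Module

set_option linter.unusedSectionVars false

namespace Vale.Agent.P011.H961

/-- Finite quotients: the matrix units of the residue algebra, lifted. -/
theorem split_of_norm {L R ι : Type*} [NontriviallyNormedField L] [ProperSpace L]
    [NormedRing R] [Algebra L R] [IsUltrametricDist R] [CompleteSpace R] [IsSimpleRing R]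
    [Fintype ι] [DecidableEq ι] (b : Basis ι L R) (hnorm : ∀ x : R, ‖x‖ = ‖b.equivFun x‖)
    {n : ℕ} (hn : n ≠ 0) (hcard : Fintype.card ι = n ^ 2) (h1 : ‖(1 : R)‖ ≤ 1)
    (hT : ∀ i j, ∃ (m : ℕ) (x y : Fin m → R), (∀ t, ‖x t‖ ≤ 1) ∧ (∀ t, ‖y t‖ ≤ 1) ∧
      ∀ l, ∑ t, x t * b l * y t = if l = j then b i else 0) :
    Nonempty (R →ₐ[L] Matrix (Fin n) (Fin n) L) := by
  classical
  have hcoord : ∀ (x : R) (l : ι), ‖b.repr x l‖ ≤ ‖x‖ := by
    intro x l
    rw [hnorm]
    exact norm_le_pi_norm (b.equivFun x) l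
  have hsmul : ∀ (c : L) (x : R), ‖c • x‖ = ‖c‖ * ‖x‖ := by
    intro c x
    rw [hnorm, hnorm, map_smul, norm_smul]
  have hb1 : ∀ i, ‖b i‖ = 1 := by
    intro i
    have hsi : b.equivFun (b i) = Pi.single i 1 := by
      funext j
      rw [b.equivFun_self, Pi.single_apply]
      exact if_congr eq_comm rfl rfl
    rw [hnorm, hsi]
    refine le_antisymm ?_ ?_
    · rw [pi_norm_le_iff_of_nonneg zero_le_one]
      intro j
      rw [Pi.single_apply]
      split_ifs
      · rw [norm_one]
      · rw [norm_zero]; exact zero_le_one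
    · have := norm_le_pi_norm (Pi.single i (1 : L) : ι → L) i
      rwa [Pi.single_eq_same, norm_one] at this
  have hne : Nonempty ι := by
    rw [← Fintype.card_pos_iff, hcard]
    positivity
  have h1' : ‖(1 : R)‖ = 1 := by
    refine le_antisymm h1 ?_
    obtain ⟨i⟩ := hne
    have h2 := norm_mul_le (1 : R) (b i)
    rwa [one_mul, hb1, mul_one] at h2
  -- the order
  let Lam : Subring R :=
    { carrier := {x | ‖x‖ ≤ 1}
      mul_mem' := fun {x y} hx hy => (norm_mul_le x y).trans (mul_le_one₀ hx (norm_nonneg _) hy)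
      one_mem' := h1
      add_mem' := fun {x y} hx hy => norm_add_le_max' x y hx hy
      zero_mem' := by
        change ‖(0 : R)‖ ≤ 1
        rw [norm_zero]
        exact zero_le_one
      neg_mem' := fun {x} hx => by
        change ‖-x‖ ≤ 1
        rw [norm_neg]
        exact hx }
  have hLam : ∀ x : R, x ∈ Lam ↔ ‖x‖ ≤ 1 := fun _ => Iff.rfl
  let I : Ideal Lam :=
    { carrier := {x | ‖(x : R)‖ < 1}
      add_mem' := fun {x y} hx hy => (IsUltrametricDist.norm_add_le_max _ _).trans_lt (max_lt hx hy)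
      zero_mem' := by
        change ‖((0 : Lam) : R)‖ < 1
        rw [ZeroMemClass.coe_zero, norm_zero]
        exact one_pos
      smul_mem' := fun c x hx => (norm_mul_le _ _).trans_lt
        (lt_of_le_of_lt (mul_le_of_le_one_left (norm_nonneg _) c.2) hx) }
  have hI : ∀ x : Lam, x ∈ I ↔ ‖(x : R)‖ < 1 := fun _ => Iff.rfl
  have hItwo : I.IsTwoSided := ⟨fun {x} y hx => (norm_mul_le _ _).trans_lt
    (lt_of_le_of_lt (mul_le_of_le_one_right (norm_nonneg _) y.2) hx)⟩
  let mk : Lam →+* Lam ⧸ I := Ideal.Quotient.mk I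
  have hmk : ∀ x : Lam, mk x = 0 ↔ ‖(x : R)‖ < 1 := fun x => Ideal.Quotient.eq_zero_iff_mem
  have hmks : Function.Surjective mk := Ideal.Quotient.mk_surjective
  -- the coefficients
  let OL : Subring L :=
    { carrier := {c | ‖c‖ ≤ 1}
      mul_mem' := fun {x y} hx hy => by
        change ‖x * y‖ ≤ 1
        rw [norm_mul]
        exact mul_le_one₀ hx (norm_nonneg _) hy
      one_mem' := by
        change ‖(1 : L)‖ ≤ 1
        rw [norm_one]
      add_mem' := fun {x y} hx hy => by
        have h2 := norm_add_le_max' (x • (1 : R)) (y • (1 : R)) (c := 1)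
          (by rw [hsmul, h1', mul_one]; exact hx) (by rw [hsmul, h1', mul_one]; exact hy)
        rw [← add_smul, hsmul, h1', mul_one] at h2
        exact h2
      zero_mem' := by
        change ‖(0 : L)‖ ≤ 1
        rw [norm_zero]
        exact zero_le_one
      neg_mem' := fun {x} hx => by
        change ‖-x‖ ≤ 1
        rw [norm_neg]
        exact hx }
  have hOL : ∀ c : L, c ∈ OL ↔ ‖c‖ ≤ 1 := fun _ => Iff.rfl
  let ψ0 : OL →+* Lam :=
    ((algebraMap L R).comp OL.subtype).codRestrict Lam fun c => by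
      rw [hLam, RingHom.comp_apply, Algebra.algebraMap_eq_smul_one, hsmul, h1', mul_one]
      exact c.2
  let ψ : OL →+* Lam ⧸ I := mk.comp ψ0
  have hψ0 : ∀ c : OL, ((ψ0 c : Lam) : R) = (c : L) • (1 : R) := fun c =>
    Algebra.algebraMap_eq_smul_one _
  have hψz : ∀ c : OL, ψ c = 0 ↔ ‖(c : L)‖ < 1 := by
    intro c
    rw [RingHom.comp_apply, hmk, hψ0, hsmul, h1', mul_one]
  let C : Subring (Lam ⧸ I) := ψ.range
  have hC : ∀ c ∈ C, ∀ x, c * x = x * c := by
    rintro _ ⟨c, rfl⟩ x
    obtain ⟨x, rfl⟩ := hmks x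
    rw [RingHom.comp_apply, ← map_mul, ← map_mul]
    congr 1
    apply Subtype.ext
    rw [Subring.coe_mul, Subring.coe_mul, hψ0, smul_mul_assoc, mul_smul_comm, one_mul, mul_one]
  have hinv : ∀ c ∈ C, c ≠ 0 → ∃ c' ∈ C, c * c' = 1 := by
    rintro _ ⟨c, rfl⟩ hc
    have h2 : ‖(c : L)‖ = 1 := by
      refine le_antisymm c.2 ?_
      by_contra hcon
      exact hc ((hψz c).mpr (not_le.mp hcon))
    have hc0 : (c : L) ≠ 0 := by
      intro h
      rw [h, norm_zero] at h2
      exact zero_ne_one h2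
    have h3 : ((c : L)⁻¹) ∈ OL := by
      rw [hOL, norm_inv, h2, inv_one]
    refine ⟨ψ ⟨(c : L)⁻¹, h3⟩, ⟨_, rfl⟩, ?_⟩
    rw [← map_mul]
    have h4 : c * ⟨(c : L)⁻¹, h3⟩ = (1 : OL) := by
      apply Subtype.ext
      exact mul_inv_cancel₀ hc0
    rw [h4, map_one]
  have hbL : ∀ i, b i ∈ Lam := fun i => (hb1 i).le
  let bb : ι → Lam ⧸ I := fun i => mk ⟨b i, hbL i⟩
  have hsum : ∀ x : Lam, mk x = ∑ l, ψ ⟨b.repr (x : R) l, (hcoord _ l).trans x.2⟩ * bb l := by
    intro x
    have h2 : ∀ l, ψ ⟨b.repr (x : R) l, (hcoord _ l).trans x.2⟩ * bb l =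
        mk (ψ0 ⟨b.repr (x : R) l, (hcoord _ l).trans x.2⟩ * ⟨b l, hbL l⟩) := fun l => by
      rw [map_mul]
      rfl
    rw [Finset.sum_congr rfl fun l _ => h2 l, ← map_sum]
    congr 1
    apply Subtype.ext
    rw [AddSubmonoidClass.coe_finsetSum]
    conv_lhs => rw [← b.sum_repr (x : R)]
    refine Finset.sum_congr rfl fun l _ => ?_
    rw [Subring.coe_mul, hψ0, smul_mul_assoc, one_mul]
  have hspan : ∀ z, ∃ γ : ι → Lam ⧸ I, (∀ i, γ i ∈ C) ∧ z = ∑ l, γ l * bb l := by
    intro z
    obtain ⟨x, rfl⟩ := hmks z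
    exact ⟨_, fun i => ⟨_, rfl⟩, hsum x⟩
  have hTb : ∀ i j, ∃ (m : ℕ) (x y : Fin m → Lam ⧸ I),
      ∀ l, ∑ t, x t * bb l * y t = if l = j then bb i else 0 := by
    intro i j
    obtain ⟨m, x, y, hx, hy, h⟩ := hT i j
    refine ⟨m, fun t => mk ⟨x t, hx t⟩, fun t => mk ⟨y t, hy t⟩, fun l => ?_⟩
    have h2 : ∑ t, mk ⟨x t, hx t⟩ * bb l * mk ⟨y t, hy t⟩ =
        mk (∑ t, ⟨x t, hx t⟩ * ⟨b l, hbL l⟩ * ⟨y t, hy t⟩) := by
      rw [map_sum]
      exact Finset.sum_congr rfl fun t _ => by rw [map_mul, map_mul]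
    rw [h2]
    have h3 : (∑ t, (⟨x t, hx t⟩ : Lam) * ⟨b l, hbL l⟩ * ⟨y t, hy t⟩) =
        if l = j then ⟨b i, hbL i⟩ else 0 := by
      apply Subtype.ext
      rw [AddSubmonoidClass.coe_finsetSum]
      have := h l
      split_ifs with hlj
      · rw [if_pos hlj] at this
        exact this
      · rw [if_neg hlj] at this
        exact this
    rw [h3]
    split_ifs
    · rfl
    · exact map_zero mk
  have hnt : Nontrivial (Lam ⧸ I) := by
    refine ⟨⟨1, 0, fun h => ?_⟩⟩
    have h2 : mk 1 = 0 := by rw [map_one]; exact h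
    rw [hmk, Subring.coe_one, h1'] at h2
    exact lt_irrefl _ h2
  obtain ⟨hsim, hcen⟩ := H973.simple_central C hC hinv bb hspan hTb
  -- finiteness
  have hCfin : Finite C := by
    have hcomp : IsCompact (Metric.closedBall (0 : L) 1) := isCompact_closedBall _ _
    obtain ⟨t, ht, htc⟩ := Metric.totallyBounded_iff.mp hcomp.totallyBounded 1 one_pos
    have hopen : ∀ a c : L, ‖a‖ ≤ 1 → ‖c‖ ≤ 1 → ∀ z : L, dist a z < 1 → dist c z < 1 →
        ‖a - c‖ < 1 := by
      intro a c _ _ z hz hz'
      have h2 : ‖(a - c) • (1 : R)‖ < 1 := by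
        have e : (a - c) • (1 : R) = (a - z) • (1 : R) + (z - c) • (1 : R) := by
          rw [← add_smul, sub_add_sub_cancel]
        rw [e]
        refine (IsUltrametricDist.norm_add_le_max _ _).trans_lt (max_lt ?_ ?_)
        · rw [hsmul, h1', mul_one, ← dist_eq_norm]
          exact hz
        · rw [hsmul, h1', mul_one, ← dist_eq_norm, dist_comm]
          exact hz'
      rwa [hsmul, h1', mul_one] at h2
    have hcov : ∀ c : OL, ∃ z : t, dist (c : L) z < 1 := by
      intro c
      have h2 : (c : L) ∈ Metric.closedBall (0 : L) 1 := by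
        rw [mem_closedBall_zero_iff]
        exact c.2
      obtain ⟨z, hz, hz'⟩ := Set.mem_iUnion₂.mp (htc h2)
      exact ⟨⟨z, hz⟩, hz'⟩
    choose z hz using hcov
    have hft : Finite t := ht
    have hsec : ∀ c : C, ∃ a : OL, ψ a = c := fun c => c.2
    choose a ha using hsec
    refine Finite.of_injective (fun c : C => z (a c)) fun c c' hcc => ?_
    beta_reduce at hcc
    apply Subtype.ext
    rw [← ha c, ← ha c', ← sub_eq_zero, ← map_sub, hψz]
    refine hopen _ _ (a c).2 (a c').2 (z (a c)) (hz _) ?_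
    rw [hcc]
    exact hz _
  have hbij : Function.Bijective (fun γ : ι → C => ∑ l, (γ l : Lam ⧸ I) * bb l) := by
    constructor
    · intro γ γ' h
      beta_reduce at h
      funext j
      apply Subtype.ext
      rw [← sub_eq_zero]
      obtain ⟨δ, hδd⟩ : ∃ δ : ι → Lam ⧸ I, δ = fun l => (γ l : Lam ⧸ I) - (γ' l : Lam ⧸ I) :=
        ⟨_, rfl⟩
      have hδC : ∀ l, δ l ∈ C := fun l => by
        rw [hδd]
        exact C.sub_mem (γ l).2 (γ' l).2
      have hδ0 : ∑ l, δ l * bb l = 0 := by
        rw [hδd]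
        simp only [sub_mul, Finset.sum_sub_distrib]
        rw [h, sub_self]
      have hall : ∀ i, δ j * bb i = 0 := by
        intro i
        obtain ⟨m, x, y, hxy⟩ := hTb i j
        have h3 : ∑ t, x t * (∑ l, δ l * bb l) * y t = δ j * bb i := by
          have h4 : ∀ t, x t * (∑ l, δ l * bb l) * y t = ∑ l, δ l * (x t * bb l * y t) := by
            intro t
            rw [Finset.mul_sum, Finset.sum_mul]
            refine Finset.sum_congr rfl fun l _ => ?_
            calc x t * (δ l * bb l) * y t = (x t * δ l) * bb l * y t := by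
                  simp only [mul_assoc]
              _ = (δ l * x t) * bb l * y t := by rw [hC _ (hδC l)]
              _ = _ := by simp only [mul_assoc]
          rw [Finset.sum_congr rfl fun t _ => h4 t, Finset.sum_comm]
          have h5 : ∀ l, ∑ t, δ l * (x t * bb l * y t) = δ l * if l = j then bb i else 0 := by
            intro l
            rw [← Finset.mul_sum, hxy]
          rw [Finset.sum_congr rfl fun l _ => h5 l, Finset.sum_eq_single j]
          · rw [if_pos rfl]
          · intro l _ hl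
            rw [if_neg hl, mul_zero]
          · intro h
            exact absurd (Finset.mem_univ _) h
        rw [hδ0] at h3
        rw [← h3]
        exact Finset.sum_eq_zero fun t _ => by rw [mul_zero, zero_mul]
      have h6 : δ j * 1 = 0 := by
        obtain ⟨γ1, -, hγ1⟩ := hspan 1
        rw [hγ1, Finset.mul_sum]
        refine Finset.sum_eq_zero fun l _ => ?_
        have h7 : δ j * (γ1 l * bb l) = γ1 l * (δ j * bb l) := by
          rw [← mul_assoc, hC _ (hδC j), mul_assoc]
        rw [h7, hall l, mul_zero]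
      rw [mul_one, hδd] at h6
      exact h6
    · intro z
      obtain ⟨γ, hγ, h⟩ := hspan z
      exact ⟨fun l => ⟨γ l, hγ l⟩, h.symm⟩
  have hfin : Finite (Lam ⧸ I) := Finite.of_surjective _ hbij.2
  have hcardA : Nat.card (Lam ⧸ I) = Nat.card C ^ n ^ 2 := by
    rw [← Nat.card_congr (Equiv.ofBijective _ hbij), Nat.card_fun, Nat.card_eq_fintype_card (α := ι),
      hcard]
  have hcardc : Nat.card (Set.center (Lam ⧸ I)) = Nat.card C := by
    rw [hcen]
    rfl
  obtain ⟨E, _, _, -, ⟨θ⟩⟩ := H973.exists_equiv_mat hn hcardc hcardA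
  -- lifting of the matrix units
  choose x hx using fun i : Fin n => hmks (θ.symm (Matrix.single i i 1))
  have hxx : ∀ i, ‖(x i : R) * x i - x i‖ < 1 := by
    intro i
    have h2 : mk (x i * x i - x i) = 0 := by
      rw [map_sub, map_mul, hx, ← map_mul, Matrix.single_mul_single_same, one_mul, sub_self]
    exact (hmk _).mp h2
  have hxy : ∀ i j, i ≠ j → ‖(x i : R) * x j‖ < 1 := by
    intro i j hij
    have h2 : mk (x i * x j) = 0 := by
      rw [map_mul, hx, hx, ← map_mul, Matrix.single_mul_single_of_ne _ _ _ _ hij, map_zero]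
    exact (hmk _).mp h2
  obtain ⟨e, he1, -, he3, he4⟩ := exists_idems h1 (fun i => (x i : R)) (fun i => (x i).2) hxx hxy
    Finset.univ
  have hfinrank : finrank L R = n ^ 2 := by
    rw [finrank_eq_card_basis b, hcard]
  refine exists_split_of_idem hn hfinrank (fun i => he1 i (Finset.mem_univ i)) (fun i h0 => ?_)
    fun i j hij => he4 i (Finset.mem_univ i) j (Finset.mem_univ j) hij
  have h2 := he3 i (Finset.mem_univ i)
  rw [h0, zero_sub, norm_neg] at h2
  have h3 := (hmk _).mpr h2
  rw [hx] at h3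
  have h4 : Matrix.single i i (1 : E) = 0 := by
    have := congrArg θ h3
    rwa [RingEquiv.apply_symm_apply, map_zero] at this
  have h5 := congrFun (congrFun h4 i) i
  rw [Matrix.single_apply_same] at h5
  exact one_ne_zero h5

end Vale.Agent.P011.H961
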