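import Vale.Agent.P011.H961.Big
import Vale.Agent.P011.H929.Class2

/-!
# Sizes of elements of the quadratic extension and valuations above
-/

open Module NumberField IsDedekindDomain

set_option linter.unusedSectionVars false

namespace Vale.Agent.P011.H961

open Vale.Agent.P011.Arith Vale.Agent.P011.Even Vale.Agent.P011.Two Vale.Agent.P011.One
  Vale.Agent.P011.H182

variable {k K D : Type} [Field k] [NumberField k] [Field K] [NumberField K] [StarRing K]
  [DivisionRing D] [StarRing D] [Algebra k K] [Algebra k D] [Algebra K D] [IsScalarTower k K D]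
  {d : kˣ} {s : K} {M : ℕ} (BK : Basis (Fin M) k K)

/-- The elements which are integral together with their conjugate have bounded size. -/
theorem bdd_of_val (hS : Setting k K D d s) {V : HeightOneSpectrum (𝓞 K)}
    {v : HeightOneSpectrum (𝓞 k)}
    (hV : V.asIdeal.comap (algebraMap (𝓞 k) (𝓞 K)) = v.asIdeal) :
    ∃ R : ℝ, ∀ t : K, V.valuation K t ≤ 1 → V.valuation K (star t) ≤ 1 →
      na BK (plAbv (Sum.inl v)) t ≤ R := by
  obtain ⟨a, ha⟩ : ∃ a : AbsoluteValue k ℝ, a = plAbv (Sum.inl v) := ⟨_, rfl⟩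
  have h2 : (2 : k) ≠ 0 := two_ne_zero
  have ha2 : 0 < a 2 := a.pos h2
  have had : 0 < a (d : k) := a.pos d.ne_zero
  rw [← ha]
  refine ⟨(a 2)⁻¹ * na BK a 1 + (1 + (((a 2)⁻¹) ^ 2 + 1) / a (d : k)) * na BK a s,
    fun t ht hst => ?_⟩
  obtain ⟨p, q, rfl⟩ := H929.exists_ks hS t
  have hsp : ∀ c : k, star (algebraMap k K c) = algebraMap k K c := fun c => (hS.fix _).2 ⟨c, rfl⟩
  have e1 : star (algebraMap k K p + algebraMap k K q * s) =
      algebraMap k K p - algebraMap k K q * s := by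
    rw [star_add, star_mul', hsp, hsp, hS.star_s]
    ring
  rw [e1] at hst
  have h3 : a (2 * p) ≤ 1 := by
    rw [ha, plAbv_le_one, ← val_le_one_iff hV]
    have e : algebraMap k K (2 * p) = (algebraMap k K p + algebraMap k K q * s) +
        (algebraMap k K p - algebraMap k K q * s) := by
      rw [map_mul, map_ofNat]
      ring
    rw [e]
    exact (Valuation.map_add _ _ _).trans (max_le ht hst)
  have h4 : a (p ^ 2 - d * q ^ 2) ≤ 1 := by
    rw [ha, plAbv_le_one, ← val_le_one_iff hV]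
    have e : algebraMap k K (p ^ 2 - d * q ^ 2) = (algebraMap k K p + algebraMap k K q * s) *
        (algebraMap k K p - algebraMap k K q * s) := by
      have := hS.sq
      rw [map_sub, map_mul, map_pow, map_pow, ← this]
      ring
    rw [e, map_mul]
    exact mul_le_one' ht hst
  have h5 : a p ≤ (a 2)⁻¹ := by
    rw [map_mul] at h3
    rw [← one_div, le_div_iff₀ ha2, mul_comm]
    exact h3
  have hp0 : 0 ≤ a p := a.nonneg _
  have hq0 : 0 ≤ a q := a.nonneg _
  have h6 : a (d : k) * a q ^ 2 ≤ ((a 2)⁻¹) ^ 2 + 1 := by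
    have e : (d : k) * q ^ 2 = p ^ 2 + -(p ^ 2 - d * q ^ 2) := by ring
    have h7 := a.add_le (p ^ 2) (-(p ^ 2 - d * q ^ 2))
    rw [← e, a.map_neg, map_mul, map_pow, map_pow] at h7
    have h8 : a p ^ 2 ≤ ((a 2)⁻¹) ^ 2 := pow_le_pow_left₀ hp0 h5 2
    linarith
  have h9 : a q ≤ 1 + (((a 2)⁻¹) ^ 2 + 1) / a (d : k) := by
    have h10 : a q ^ 2 ≤ (((a 2)⁻¹) ^ 2 + 1) / a (d : k) := by
      rw [le_div_iff₀ had, mul_comm]
      exact h6
    nlinarith
  have e2 : algebraMap k K p + algebraMap k K q * s = p • (1 : K) + q • s := by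
    rw [Algebra.smul_def, Algebra.smul_def, mul_one]
  rw [e2]
  refine (na_add_le BK a _ _).trans ?_
  rw [na_smul, na_smul]
  exact add_le_add (mul_le_mul_of_nonneg_right h5 (na_nonneg _ _ _))
    (mul_le_mul_of_nonneg_right h9 (na_nonneg _ _ _))

/-- A nonzero element of `k` which is larger than a given element at all places. -/
theorem exists_big_k (b : K) : ∃ γ : k, γ ≠ 0 ∧ ∀ V : HeightOneSpectrum (𝓞 K),
    1 ≤ V.valuation K (algebraMap k K γ) ∧ V.valuation K b ≤ V.valuation K (algebraMap k K γ) := by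
  obtain ⟨y, hy, hint⟩ := ((IsFractionRing.isAlgebraic_iff ℤ ℚ K).mpr
    (Algebra.IsAlgebraic.isAlgebraic b)).exists_integral_multiple
  have hy0 : ((y : ℤ) : k) ≠ 0 := Int.cast_ne_zero.mpr hy
  have hyK : ((y : ℤ) : K) ≠ 0 := Int.cast_ne_zero.mpr hy
  refine ⟨((y : ℤ) : k)⁻¹, inv_ne_zero hy0, fun V => ?_⟩
  have h1 : V.valuation K ((y : ℤ) : K) ≤ 1 := by
    have e0 : algebraMap (𝓞 K) K ((y : ℤ) : 𝓞 K) = ((y : ℤ) : K) := map_intCast _ _
    rw [← e0]
    exact V.valuation_le_one _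
  have h2 : V.valuation K (y • b) ≤ 1 := V.valuation_le_one (K := K) (⟨y • b, hint⟩ : 𝓞 K)
  have e : algebraMap k K ((y : ℤ) : k)⁻¹ = ((y : ℤ) : K)⁻¹ := by rw [map_inv₀, map_intCast]
  have h0 : V.valuation K ((y : ℤ) : K) ≠ 0 := (Valuation.ne_zero_iff _).mpr hyK
  rw [zsmul_eq_mul, map_mul] at h2
  rw [e, map_inv₀]
  refine ⟨(one_le_inv₀ (zero_lt_iff.mpr h0)).mpr h1, ?_⟩
  have h3 := mul_le_mul_right h2 (V.valuation K ((y : ℤ) : K))⁻¹
  rwa [inv_mul_cancel_left₀ h0, mul_one] at h3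

end Vale.Agent.P011.H961
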